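import Crest.Agent.R310.LP

/-!
# R310 / Asg : the greedy assignment

`Y t = ball d F y j t` is monotone, `Y (-1) = 0`, `Y Λ = ∑ y ≥ 1`.  `asg` depends only on `m = d j i`, and
`Y m - Y (m - 1)` is the mass at distance exactly `m` (distances are integers), so
`∑_{d j i = m} asg i * y i = min 1 (Y m) - min 1 (Y (m - 1))` (if the shell has mass `0` both sides vanish).
Sum over `m ≤ t`: `∑_{d j i ≤ t} asg i * y i = min 1 (Y t)` (induction on `t`).  With `μ = asg * y`, `∑ μ = 1`, and
`∑ μ i * d j i = ∑_i μ i ∑_{t < Λ} [t < d j i] = ∑_{t < Λ} (1 - min 1 (Y t))`, `1 - min 1 Y = max 0 (1 - Y)`.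
-/

set_option autoImplicit false

namespace Crest.Agent.R310

open Crest.Agent.Lib.PT

/-- the fraction of `i` used by `j` -/
def asg (d : ℕ → ℕ → ℚ) (F : List ℕ) (y : ℕ → ℚ) (j i : ℕ) : ℚ :=
  (min 1 (ball d F y j (d j i)) - min 1 (ball d F y j (d j i - 1))) /
    (ball d F y j (d j i) - ball d F y j (d j i - 1))

@[fun_prop] theorem asg_pt {α : Type} [Enc α] {D : α → Tab} {F : α → List ℕ} {y : α → List ℚ}
    {j i : α → ℕ} (hD : PT D) (hF : PT F) (hy : PT y) (hj : PT j) (hi : PT i) :
    PT fun a => asg (dd (D a)) (F a) (fn (y a)) (j a) (i a) := by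
  unfold asg ball
  fun_prop

theorem asg_congr {F : List ℕ} {g g' : ℕ → ℚ} (h : ∀ i ∈ F, g i = g' i) : sm F g = sm F g' := by
  unfold sm; rw [List.map_congr_left h]

theorem asg_add (F : List ℕ) (g g' : ℕ → ℚ) : sm F (fun i => g i + g' i) = sm F g + sm F g' :=
  List.sum_map_add

theorem asg_mul (F : List ℕ) (c : ℚ) (g : ℕ → ℚ) : sm F (fun i => c * g i) = c * sm F g :=
  List.sum_map_mul_left _ _ _

theorem asg_zero (F : List ℕ) : sm F (fun _ => 0) = 0 := by simp [sm]

theorem asg_mono (d : ℕ → ℕ → ℚ) {F : List ℕ} {y : ℕ → ℚ} (hy : ∀ i ∈ F, 0 ≤ y i) (j : ℕ) {s t : ℚ}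
    (h : s ≤ t) : ball d F y j s ≤ ball d F y j t := by
  refine List.sum_le_sum fun i hi => ?_
  split_ifs with h1 h2
  · exact le_rfl
  · exact absurd (h1.trans h) h2
  · exact hy i hi
  · exact le_rfl

theorem asg_mem (d : ℕ → ℕ → ℚ) {F : List ℕ} {y : ℕ → ℚ} (hy : ∀ i ∈ F, 0 ≤ y i) (j i : ℕ) :
    0 ≤ asg d F y j i ∧ asg d F y j i ≤ 1 := by
  have h := asg_mono d hy j (show d j i - 1 ≤ d j i by linarith)
  unfold asg
  generalize ball d F y j (d j i) = b at h ⊢
  generalize ball d F y j (d j i - 1) = a at h ⊢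
  refine ⟨div_nonneg (sub_nonneg.2 (min_le_min le_rfl h)) (sub_nonneg.2 h),
    div_le_one_of_le₀ ?_ (sub_nonneg.2 h)⟩
  rcases le_total 1 a with h1 | h1
  · rw [min_eq_left h1, min_eq_left (h1.trans h)]; linarith
  · rw [min_eq_right h1]; linarith [min_le_right 1 b]

theorem asg_shell {d : ℕ → ℕ → ℚ} {Λ : ℕ} (hd : ∀ a b, IsN Λ (d a b)) (F : List ℕ) (j : ℕ) (g : ℕ → ℚ)
    (t : ℕ) : sm F (fun i => if d j i ≤ t then g i else 0) =
      sm F (fun i => if d j i ≤ (t : ℚ) - 1 then g i else 0) + sm F fun i => if d j i = t then g i else 0 := by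
  rw [← asg_add]
  refine asg_congr fun i _ => ?_
  obtain ⟨m, -, e⟩ := hd j i
  rw [e]
  rcases lt_trichotomy m t with h | h | h
  · have h' : (m : ℚ) + 1 ≤ t := by exact_mod_cast h
    rw [if_pos (by linarith), if_pos (by linarith), if_neg (by linarith), add_zero]
  · subst h
    rw [if_pos le_rfl, if_neg (by linarith), if_pos rfl, zero_add]
  · have h' : (t : ℚ) + 1 ≤ m := by exact_mod_cast h
    rw [if_neg (by linarith), if_neg (by linarith), if_neg (by linarith), add_zero]

theorem asg_step {d : ℕ → ℕ → ℚ} {Λ : ℕ} (hd : ∀ a b, IsN Λ (d a b)) (F : List ℕ) (y : ℕ → ℚ) (j t : ℕ) :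
    sm F (fun i => if d j i = t then asg d F y j i * y i else 0) =
      min 1 (ball d F y j t) - min 1 (ball d F y j (t - 1)) := by
  have h1 : ball d F y j t = ball d F y j (t - 1) + sm F fun i => if d j i = t then y i else 0 :=
    asg_shell hd F j y t
  have h2 : sm F (fun i => if d j i = t then asg d F y j i * y i else 0) =
      (min 1 (ball d F y j t) - min 1 (ball d F y j (t - 1))) / (ball d F y j t - ball d F y j (t - 1)) *
        sm F fun i => if d j i = t then y i else 0 := by
    rw [← asg_mul]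
    refine asg_congr fun i _ => ?_
    split_ifs with h
    · rw [asg, h]
    · rw [mul_zero]
  rw [h2, ← sub_eq_iff_eq_add'.2 h1]
  by_cases h0 : ball d F y j t - ball d F y j (t - 1) = 0
  · rw [h0, mul_zero, sub_eq_zero.1 h0, sub_self]
  · rw [div_mul_cancel₀ _ h0]

theorem asg_cum {d : ℕ → ℕ → ℚ} {Λ : ℕ} (hd : ∀ a b, IsN Λ (d a b)) (F : List ℕ) (y : ℕ → ℚ) (j t : ℕ) :
    sm F (fun i => if d j i ≤ t then asg d F y j i * y i else 0) = min 1 (ball d F y j t) := by
  have h0 : ∀ g : ℕ → ℚ, sm F (fun i => if d j i ≤ ((0 : ℕ) : ℚ) - 1 then g i else 0) = 0 := fun g => by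
    refine (asg_congr fun i _ => ?_).trans (asg_zero F)
    obtain ⟨m, -, e⟩ := hd j i
    have : (0 : ℚ) ≤ m := Nat.cast_nonneg m
    rw [e, if_neg (by push_cast; linarith)]
  induction t with
  | zero =>
    rw [asg_shell hd, asg_step hd, h0, show ball d F y j (((0 : ℕ) : ℚ) - 1) = 0 from h0 y]
    simp
  | succ t ih =>
    rw [asg_shell hd, asg_step hd, show ((t + 1 : ℕ) : ℚ) - 1 = t by push_cast; ring, ih]
    ring

theorem asg_spec {d : ℕ → ℕ → ℚ} {Λ : ℕ} (hd : ∀ a b, IsN Λ (d a b)) {F : List ℕ}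
    {y : ℕ → ℚ} (hy : ∀ i ∈ F, 0 ≤ y i) (h1 : 1 ≤ sm F y) (j : ℕ) :
    sm F (fun i => asg d F y j i * y i) = 1 ∧
    sm F (fun i => asg d F y j i * y i * d j i) =
      sm (List.range Λ) fun t => max 0 (1 - ball d F y j t) := by
  have e1 : sm F (fun i => asg d F y j i * y i) = 1 := by
    have h2 := asg_cum hd F y j Λ
    have h3 : ball d F y j Λ = sm F y := asg_congr fun i _ => by
      obtain ⟨m, hm, e⟩ := hd j i
      rw [if_pos (by rw [e]; exact_mod_cast hm)]
    rw [h3, min_eq_left h1] at h2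
    rw [← h2]
    refine asg_congr fun i _ => ?_
    obtain ⟨m, hm, e⟩ := hd j i
    rw [if_pos (by rw [e]; exact_mod_cast hm)]
  refine ⟨e1, ?_⟩
  have key : ∀ n : ℕ, sm F (fun i => asg d F y j i * y i * min (d j i) n) =
      sm (List.range n) fun t => max 0 (1 - ball d F y j t) := by
    intro n
    induction n with
    | zero =>
      rw [List.range_zero, show sm [] (fun t : ℕ => max 0 (1 - ball d F y j t)) = 0 from rfl, ← asg_zero F]
      refine asg_congr fun i _ => ?_
      obtain ⟨m, -, e⟩ := hd j i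
      rw [e, Nat.cast_zero, min_eq_right (Nat.cast_nonneg m), mul_zero]
    | succ n ih =>
      have h2 := asg_cum hd F y j n
      have h3 : sm F (fun i => asg d F y j i * y i * min (d j i) (n + 1 : ℕ) +
            if d j i ≤ n then asg d F y j i * y i else 0) =
          sm F (fun i => asg d F y j i * y i * min (d j i) n + asg d F y j i * y i) := by
        refine asg_congr fun i _ => ?_
        obtain ⟨m, -, e⟩ := hd j i
        rw [e]
        rcases le_or_gt m n with h | h
        · have h' : (m : ℚ) ≤ n := by exact_mod_cast h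
          rw [if_pos h', min_eq_left h', min_eq_left (by push_cast; linarith)]
        · have h' : (n : ℚ) + 1 ≤ m := by exact_mod_cast h
          rw [if_neg (by linarith), min_eq_right (by push_cast; linarith), min_eq_right (by linarith)]
          push_cast; ring
      rw [asg_add, asg_add, h2, ih, e1] at h3
      have h4 : sm (List.range (n + 1)) (fun t => max 0 (1 - ball d F y j t)) =
          sm (List.range n) (fun t => max 0 (1 - ball d F y j t)) + max 0 (1 - ball d F y j n) := by
        simp [sm, List.range_succ]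
      rw [h4]
      rcases le_total 1 (ball d F y j n) with h | h
      · rw [min_eq_left h] at h3
        rw [max_eq_left (by linarith)]; linarith
      · rw [min_eq_right h] at h3
        rw [max_eq_right (by linarith)]; linarith
  rw [← key Λ]
  refine asg_congr fun i _ => ?_
  obtain ⟨m, hm, e⟩ := hd j i
  rw [min_eq_left (by rw [e]; exact_mod_cast hm)]

end Crest.Agent.R310
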