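import Crest.Agent.R310.Defs

/-! # R310 / Basic : API of the definitions -/

set_option autoImplicit false

namespace Crest.Agent.R310

open Crest.Agent.Lib.PT

variable {d : ℕ → ℕ → ℚ} {j : ℕ} {S S' : List ℕ}

theorem PM.nonneg (h : PM d) (i j : ℕ) : 0 ≤ d i j := by
  have := h.tri i j i
  rw [h.refl, h.symm j i] at this
  linarith

theorem nr_mem (d : ℕ → ℕ → ℚ) (j : ℕ) (hS : S ≠ []) : nr d j S ∈ S := by
  unfold nr
  cases h : S.argmin (d j) with
  | none => exact absurd (List.argmin_eq_none.1 h) hS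
  | some m => exact List.argmin_mem h

theorem dS_le (d : ℕ → ℕ → ℚ) (j : ℕ) {i : ℕ} (hi : i ∈ S) : dS d j S ≤ d j i := by
  unfold dS nr
  cases h : S.argmin (d j) with
  | none => exact absurd (List.argmin_eq_none.1 h) (List.ne_nil_of_mem hi)
  | some m => exact List.le_of_mem_argmin hi h

theorem le_dS (hS : S ≠ []) {x : ℚ} (h : ∀ i ∈ S, x ≤ d j i) : x ≤ dS d j S := h _ (nr_mem d j hS)

theorem dS_nonneg (h : PM d) (j : ℕ) (S : List ℕ) : 0 ≤ dS d j S := h.nonneg _ _

theorem dS_anti (hS : S ≠ []) (h : S ⊆ S') : dS d j S' ≤ dS d j S := dS_le d j (h (nr_mem d j hS))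

theorem dS_tri (h : PM d) (hS : S ≠ []) (i j : ℕ) : dS d j S ≤ d j i + dS d i S :=
  (dS_le d j (nr_mem d i hS)).trans (h.tri _ _ _)

theorem cost_nonneg (h : PM d) (C S : List ℕ) : 0 ≤ cost d C S :=
  List.sum_nonneg fun _ hx => by
    obtain ⟨j, -, rfl⟩ := List.mem_map.1 hx
    exact dS_nonneg h j S

theorem cost_le_of_le {C : List ℕ} {f : ℕ → ℚ} (h : ∀ j ∈ C, dS d j S ≤ f j) :
    cost d C S ≤ (C.map f).sum := List.sum_le_sum h

theorem mem_upto {β : Type} {l w : List β} {m : ℕ} :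
    w ∈ upto l m ↔ w.length ≤ m ∧ ∀ b ∈ w, b ∈ l := by
  simp only [upto, List.mem_flatMap, List.mem_range, PT.mem_words]
  constructor
  · rintro ⟨a, h1, h2, h3⟩; exact ⟨by omega, h3⟩
  · rintro ⟨h1, h2⟩; exact ⟨_, by omega, rfl, h2⟩

theorem best_feas {k : ℕ} {F : List ℕ} (hk : 1 ≤ k) (hF : F ≠ []) (C : List ℕ) (D : Tab)
    (L : List (List ℕ)) : Feas k F (best k C F D L) := by
  unfold best
  cases h : (L.filter fun S => decide (S ⊆ F ∧ S ≠ [] ∧ S.Nodup ∧ S.length ≤ k)).argmin
    (cost (dd D) C) with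
  | none =>
    cases F with
    | nil => exact absurd rfl hF
    | cons a F => exact ⟨by simp, by simp, by simp, by simpa using hk⟩
  | some m => simpa [Feas] using (List.mem_filter.1 (List.argmin_mem h)).2

theorem best_le {k : ℕ} {F : List ℕ} (C : List ℕ) (D : Tab) {L : List (List ℕ)} (hS : S ∈ L)
    (h : Feas k F S) : cost (dd D) C (best k C F D L) ≤ cost (dd D) C S := by
  have hm : S ∈ L.filter fun S => decide (S ⊆ F ∧ S ≠ [] ∧ S.Nodup ∧ S.length ≤ k) :=
    List.mem_filter.2 ⟨hS, decide_eq_true h⟩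
  unfold best
  cases h : (L.filter fun S => decide (S ⊆ F ∧ S ≠ [] ∧ S.Nodup ∧ S.length ≤ k)).argmin
    (cost (dd D) C) with
  | none => exact absurd (List.argmin_eq_none.1 h) (List.ne_nil_of_mem hm)
  | some m => exact List.le_of_mem_argmin hm h

section pt
variable {α : Type} [Enc α]

@[fun_prop] theorem dd_pt {D : α → Tab} {i j : α → ℕ} (hD : PT D) (hi : PT i) (hj : PT j) :
    PT fun a => dd (D a) (i a) (j a) := by unfold dd; fun_prop

@[fun_prop] theorem nr_pt {D : α → Tab} {j : α → ℕ} {S : α → List ℕ} (hD : PT D) (hj : PT j)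
    (hS : PT S) : PT fun a => nr (dd (D a)) (j a) (S a) := by unfold nr; fun_prop

@[fun_prop] theorem dS_pt {D : α → Tab} {j : α → ℕ} {S : α → List ℕ} (hD : PT D) (hj : PT j)
    (hS : PT S) : PT fun a => dS (dd (D a)) (j a) (S a) := by unfold dS; fun_prop

@[fun_prop] theorem cost_pt {D : α → Tab} {C S : α → List ℕ} (hD : PT D) (hC : PT C)
    (hS : PT S) : PT fun a => cost (dd (D a)) (C a) (S a) := by unfold cost; fun_prop

@[fun_prop] theorem best_pt {k : α → ℕ} {C F : α → List ℕ} {D : α → Tab} {L : α → List (List ℕ)}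
    (hk : PT k) (hC : PT C) (hF : PT F) (hD : PT D) (hL : PT L) :
    PT fun a => best (k a) (C a) (F a) (D a) (L a) := by unfold best; fun_prop

@[fun_prop] theorem upto_pt {β : Type} [Enc β] {l : α → List β} (hl : PT l) (m : ℕ) :
    PT fun a => upto (l a) m := by
  induction m with
  | zero => exact (PT.const [[]]).of_eq fun _ => rfl
  | succ m ih =>
    refine (ih.append (PT.words_pt (k := fun _ => m + 1) hl (by fun_prop) (by fun_prop)
      (by fun_prop))).of_eq fun a => ?_
    simp only [upto]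
    rw [List.range_succ (n := m + 1), List.flatMap_append]
    simp

end pt

end Crest.Agent.R310
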