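import Crest.Agent.R310.Basic

/-!
# R310 / Bridge : from lists to the statement

Parse `I.encode` (`parseNat`, `parseN parseBool`, `parseN (parseN parseRat N) N`; `KMedian.natCode`/`ratCode` are
definitionally `Crest.Enc.natCode`/`ratCode` or equal by `rfl`/`simp`) into `(k, C, F, D)` with
`C = (range N).filter (mask.getD · false)`, `D = ofFn fun i => ofFn (dist i)`; the output is the mask
`(range N).map (decide (· ∈ A x))` (use `N = D.length` or the length of the mask so that `PB` is available).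
`N ≥ 1` because `1 ≤ k ≤ card facilities`, so `dd D i j = dist ⟨min i (N-1), _⟩ ⟨min j (N-1), _⟩` is a pseudometric.
For `S : Finset (Fin N)` use the list `(S.toList.map Fin.val)`;  `dS (dd D) j l = S.inf' h (dist j)` by `le_antisymm`
(`dS_le`, `le_dS`) whenever `l` lists `S`.
-/

set_option autoImplicit false

namespace Crest.Agent.R310

open Crest.Agent.Lib.PT

open Crest.LogicCS.KMedian in
theorem cost_nonneg' {I : Instance} (hI : I.Valid) (S : Finset (Fin I.N)) : (0 : ℝ) ≤ I.cost S := by
  have : 0 ≤ I.cost S := by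
    unfold Instance.cost
    split_ifs with h
    · refine Finset.sum_nonneg fun j _ => (Finset.le_inf'_iff h _).2 fun i _ => ?_
      by_cases hij : j = i
      · rw [hij, hI.1]
      · exact (hI.2.1 _ _ hij).le
    · exact le_rfl
  exact_mod_cast this

/-- the indices of the `true` bits -/
def brIdx (m : List Bool) : List ℕ := (List.range m.length).filter fun i => m.getD i false

@[fun_prop] theorem brIdx_pt {β : Type} [Enc β] {m : β → List Bool} (hm : PT m) :
    PT fun a => brIdx (m a) := by unfold brIdx; fun_prop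

theorem brIdx_nodup (m : List Bool) : (brIdx m).Nodup := List.nodup_range.filter _

theorem mem_brIdx {N : ℕ} (s : Finset (Fin N)) (i : ℕ) :
    i ∈ brIdx (List.ofFn fun j : Fin N => decide (j ∈ s)) ↔ ∃ h : i < N, (⟨i, h⟩ : Fin N) ∈ s := by
  unfold brIdx
  rw [List.mem_filter, List.mem_range, List.length_ofFn]
  constructor
  · rintro ⟨h1, h2⟩
    refine ⟨h1, ?_⟩
    simpa [List.getD_eq_getElem?_getD, h1] using h2
  · rintro ⟨h1, h2⟩
    refine ⟨h1, ?_⟩
    simpa [List.getD_eq_getElem?_getD, h1] using h2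

/-- the parser -/
def brParse (x : List Bool) : Raw :=
  ((parseNat (parseNat x).2).1,
    brIdx (parseN parseBool (parseNat x).1 (parseNat (parseNat x).2).2).1,
    brIdx (parseN parseBool (parseNat x).1 (parseN parseBool (parseNat x).1 (parseNat (parseNat x).2).2).2).1,
    (parseN (parseN parseRat (parseNat x).1) (parseNat x).1
      (parseN parseBool (parseNat x).1 (parseN parseBool (parseNat x).1 (parseNat (parseNat x).2).2).2).2).1)

theorem brParse_pt : PT brParse := by
  have hN : PT fun x : List Bool => (parseNat x).1 := by fun_prop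
  have h2 : PT fun x : List Bool => parseNat (parseNat x).2 := by fun_prop
  have hB : ∀ {l : List Bool → List Bool}, PT l → PT fun x => parseN parseBool (parseNat x).1 (l x) :=
    fun hl => PT.parseN (p := fun _ => parseBool) (by fun_prop) (fun _ => shrinks_parseBool) hN hl
  have h3 := hB h2.snd
  have h4 := hB h3.snd
  have h5 : PT fun x : List Bool => parseN (parseN parseRat (parseNat x).1) (parseNat x).1
      (parseN parseBool (parseNat x).1 (parseN parseBool (parseNat x).1 (parseNat (parseNat x).2).2).2).2 :=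
    PT.parseN (p := fun a => parseN parseRat (parseNat a).1)
      (PT.parseN (p := fun _ => parseRat) (by fun_prop) (fun _ => shrinks_parseRat)
        (by fun_prop) (by fun_prop)) (fun _ => shrinks_parseRat.parseN _) hN h4.snd
  unfold brParse
  exact h2.fst.pair ((brIdx_pt h3.fst).pair ((brIdx_pt h4.fst).pair h5.fst))

open Crest.LogicCS.KMedian in
theorem brParse_encode (I : Instance) : brParse I.encode =
    (I.k, brIdx (List.ofFn fun j => decide (j ∈ I.clients)),
      brIdx (List.ofFn fun j => decide (j ∈ I.facilities)), List.ofFn fun i => List.ofFn (I.dist i)) := by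
  have e : I.encode = Crest.Enc.natCode I.N ++ (Crest.Enc.natCode I.k ++
      ((List.ofFn fun j => decide (j ∈ I.clients)) ++ ((List.ofFn fun j => decide (j ∈ I.facilities)) ++
        ((List.ofFn fun i => (List.ofFn fun j => Crest.Enc.ratCode (I.dist i j)).flatten).flatten ++ [])))) := by
    simp only [Instance.encode, List.append_assoc, List.append_nil, List.ofFn_eq_map]
    rfl
  have hb : ∀ (s : Finset (Fin I.N)) (r : List Bool),
      parseN parseBool I.N ((List.ofFn fun j => decide (j ∈ s)) ++ r) = (List.ofFn fun j => decide (j ∈ s), r) := by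
    intro s r
    simpa using parseN_parseBool (List.ofFn fun j => decide (j ∈ s)) r
  have ht : parseN (parseN parseRat I.N) I.N
      ((List.ofFn fun i => (List.ofFn fun j => Crest.Enc.ratCode (I.dist i j)).flatten).flatten ++ []) =
      (List.ofFn fun i => List.ofFn (I.dist i), []) := by
    refine parseN_ofFn (fun i r => parseN_ofFn (fun j r => parseRat_ratCode _ _)
      (fun j => ratCode_ne_nil _) r) (fun i => ?_) []
    simp only [ne_eq, List.flatten_eq_nil_iff, List.mem_ofFn, forall_exists_index,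
      forall_apply_eq_imp_iff, not_forall]
    exact ⟨i, ratCode_ne_nil _⟩
  unfold brParse
  rw [e]
  simp only [parseNat_natCode, hb, ht]

theorem dd_ofFn {N : ℕ} (d : Fin N → Fin N → ℚ) (hN : 0 < N) (i j : ℕ) :
    dd (List.ofFn fun i => List.ofFn (d i)) i j =
      d ⟨min i (N - 1), by omega⟩ ⟨min j (N - 1), by omega⟩ := by
  have h1 : min i (N - 1) < N := by omega
  have h2 : min j (N - 1) < N := by omega
  unfold dd
  simp [List.getD_eq_getElem?_getD, h1, h2]

theorem dd_ofFn' {N : ℕ} (d : Fin N → Fin N → ℚ) (i j : Fin N) :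
    dd (List.ofFn fun i => List.ofFn (d i)) i j = d i j := by
  rw [dd_ofFn d i.pos]
  have h1 := i.2
  have h2 := j.2
  congr 1 <;> ext <;> simp <;> omega

theorem dS_list {N : ℕ} (d : Fin N → Fin N → ℚ) {S : Finset (Fin N)} (h : S.Nonempty) {l : List ℕ}
    (hl : ∀ i, i ∈ l ↔ ∃ h : i < N, (⟨i, h⟩ : Fin N) ∈ S) (j : Fin N) :
    dS (dd (List.ofFn fun i => List.ofFn (d i))) j l = S.inf' h (d j) := by
  apply le_antisymm
  · refine (Finset.le_inf'_iff h _).2 fun i hi => ?_
    rw [← dd_ofFn' d j i]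
    exact dS_le _ _ ((hl i).2 ⟨i.2, hi⟩)
  · obtain ⟨i0, hi0⟩ := h
    refine le_dS (List.ne_nil_of_mem ((hl i0).2 ⟨i0.2, hi0⟩)) fun i hi => ?_
    obtain ⟨h1, h2⟩ := (hl i).1 hi
    have := dd_ofFn' d j ⟨i, h1⟩
    simp only at this
    rw [this]
    exact Finset.inf'_le _ h2

theorem toFinset_list {N : ℕ} {S : Finset (Fin N)} {l : List ℕ}
    (hl : ∀ i, i ∈ l ↔ ∃ h : i < N, (⟨i, h⟩ : Fin N) ∈ S) : l.toFinset = S.map Fin.valEmbedding := by
  ext i
  rw [List.mem_toFinset, hl, Finset.mem_map]
  constructor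
  · rintro ⟨h1, h2⟩
    exact ⟨_, h2, rfl⟩
  · rintro ⟨a, h2, rfl⟩
    exact ⟨a.2, h2⟩

open Crest.LogicCS.KMedian in
theorem cost_list (I : Instance) {S : Finset (Fin I.N)} (h : S.Nonempty) {l : List ℕ}
    (hl : ∀ i, i ∈ l ↔ ∃ h : i < I.N, (⟨i, h⟩ : Fin I.N) ∈ S) :
    cost (dd (List.ofFn fun i => List.ofFn (I.dist i))) (brIdx (List.ofFn fun j => decide (j ∈ I.clients))) l =
      I.cost S := by
  unfold cost Instance.cost
  rw [dif_pos h, ← List.sum_toFinset _ (brIdx_nodup _), toFinset_list (mem_brIdx I.clients), Finset.sum_map]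
  exact Finset.sum_congr rfl fun j _ => dS_list I.dist h hl j

theorem length_list {N : ℕ} {S : Finset (Fin N)} {l : List ℕ} (hn : l.Nodup)
    (hl : ∀ i, i ∈ l ↔ ∃ h : i < N, (⟨i, h⟩ : Fin N) ∈ S) : l.length = S.card := by
  rw [← List.toFinset_card_of_nodup hn, toFinset_list hl, Finset.card_map]

open Crest.LogicCS.KMedian in
theorem bridge {α : ℝ} {A : Raw → List ℕ} (hA : PT A) (h : Approx α 0 A) :
    ∃ f : List Bool → List Bool, Crest.Complexity.PolyTime f ∧
      ∀ I : Instance, I.Valid →
        I.opened f ⊆ I.facilities ∧ (I.opened f).Nonempty ∧ (I.opened f).card ≤ I.k ∧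
        ∀ S : Finset (Fin I.N), S ⊆ I.facilities → S.Nonempty → S.card ≤ I.k →
          (I.cost (I.opened f) : ℝ) ≤ α * (I.cost S : ℝ) := by
  have hP := brParse_pt
  have hAP : PT fun x => A (brParse x) := hA.comp hP
  have hD : PT fun x => (brParse x).2.2.2 := hP.snd.snd.snd
  refine ⟨fun x => (List.range (brParse x).2.2.2.length).map fun i => decide (i ∈ A (brParse x)),
    PT.polyTime (PT.map (PT.range hD.length (PB.length hD)) ?_), fun I hI => ?_⟩
  · exact PT.decide (PT.mem (hAP.comp (f := fun x : List Bool × ℕ => x.1) (by fun_prop)) (by fun_prop))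
  obtain ⟨h0, hpos, hsymm, htri, hk1, hk2⟩ := hI
  have hFne : I.facilities.Nonempty := Finset.card_pos.1 (by omega)
  have hN : 0 < I.N := hFne.choose.pos
  have hmF := mem_brIdx I.facilities
  have hok : Ok I.k (brIdx (List.ofFn fun j => decide (j ∈ I.facilities)))
      (List.ofFn fun i => List.ofFn (I.dist i)) := by
    refine ⟨⟨fun i => ?_, fun i j => ?_, fun i j l => ?_⟩, fun i hi i' hi' hne => ?_, fun i hi => ?_,
      brIdx_nodup _, hk1, ?_⟩
    · rw [dd_ofFn _ hN, h0]
    · rw [dd_ofFn _ hN, dd_ofFn _ hN, hsymm]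
    · rw [dd_ofFn _ hN, dd_ofFn _ hN, dd_ofFn _ hN]
      exact htri _ _ _
    · obtain ⟨h1, -⟩ := (hmF i).1 hi
      obtain ⟨h2, -⟩ := (hmF i').1 hi'
      have := dd_ofFn' I.dist ⟨i, h1⟩ ⟨i', h2⟩
      simp only at this
      rw [this]
      exact hpos _ _ fun he => hne (congrArg Fin.val he)
    · rw [List.length_ofFn]
      exact ((hmF i).1 hi).1
    · obtain ⟨i0, hi0⟩ := hFne
      exact List.ne_nil_of_mem ((hmF i0).2 ⟨i0.2, hi0⟩)
  obtain ⟨⟨hsub, hne, hnd, hlen⟩, happ⟩ := h I.k (brIdx (List.ofFn fun j => decide (j ∈ I.clients))) _ _ hok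
  set L := A (I.k, brIdx (List.ofFn fun j => decide (j ∈ I.clients)),
    brIdx (List.ofFn fun j => decide (j ∈ I.facilities)), List.ofFn fun i => List.ofFn (I.dist i)) with hL
  have hop : ∀ i : Fin I.N, i ∈ I.opened (fun x => (List.range (brParse x).2.2.2.length).map
      fun i => decide (i ∈ A (brParse x))) ↔ (i : ℕ) ∈ L := by
    intro i
    unfold Instance.opened decodeSet
    rw [Finset.mem_filter]
    simp only [brParse_encode, ← hL]
    simp [List.getD_eq_getElem?_getD]
  generalize I.opened (fun x => (List.range (brParse x).2.2.2.length).map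
      fun i => decide (i ∈ A (brParse x))) = O at hop ⊢
  have hl : ∀ i, i ∈ L ↔ ∃ h : i < I.N, (⟨i, h⟩ : Fin I.N) ∈ O := fun i =>
    ⟨fun hi => ⟨((hmF i).1 (hsub hi)).1, (hop _).2 hi⟩, fun ⟨_, h2⟩ => (hop _).1 h2⟩
  have hO : O.Nonempty := by
    obtain ⟨i, hi⟩ := List.exists_mem_of_ne_nil _ hne
    obtain ⟨h1, h2⟩ := (hl i).1 hi
    exact ⟨_, h2⟩
  refine ⟨fun i hi => ((hmF i).1 (hsub ((hop i).1 hi))).2, hO, ?_, fun S hS hSne hSk => ?_⟩
  · rw [← length_list hnd hl]
    exact hlen
  · have hmS := mem_brIdx S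
    have := happ (brIdx (List.ofFn fun j => decide (j ∈ S))) ⟨fun i hi => ?_, ?_, brIdx_nodup _, ?_⟩
    · rwa [cost_list I hO hl, cost_list I hSne hmS] at this
    · obtain ⟨h1, h2⟩ := (hmS i).1 hi
      exact (hmF i).2 ⟨h1, hS h2⟩
    · obtain ⟨i0, hi0⟩ := hSne
      exact List.ne_nil_of_mem ((hmS i0).2 ⟨i0.2, hi0⟩)
    · rw [length_list (brIdx_nodup _) hmS]
      exact hSk

end Crest.Agent.R310
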