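import Crest.Agent.R310.CDefs

/-!
# R310 / CBasic : the easy properties of the potential

`Phi_budget`: `t = Λ + 1`.  `Phi_drop`: if `Phi μ = val μ t`, compare with `t' = min t D` (`D` is a natural number): `pre μ' t' = pre μ t'`, and removing mass `δ`
with first moment `σ ≥ δ D` does not increase `psi` (`cA (m - δ) ≤ cA m + (1 + κ) δ`, `(a + b (m - δ)) (s - σ) ≤ (a + b m) s - a σ`).
`Phi_lip`: same `t`; `cA m' - cA m ≤ 2 (m - m')`, `s' ≤ s ≤ Λ`.
-/

set_option autoImplicit false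

namespace Crest.Agent.R310

open Crest.Agent.Lib.PT

namespace CB

theorem sm_le {F : List ℕ} {f g : ℕ → ℚ} (h : ∀ i ∈ F, f i ≤ g i) : sm F f ≤ sm F g :=
  List.sum_le_sum h

theorem sm_congr {F : List ℕ} {f g : ℕ → ℚ} (h : ∀ i ∈ F, f i = g i) : sm F f = sm F g :=
  le_antisymm (sm_le fun i hi => (h i hi).le) (sm_le fun i hi => (h i hi).ge)

theorem sm_cons (a : ℕ) (F : List ℕ) (f : ℕ → ℚ) : sm (a :: F) f = f a + sm F f := by
  simp [sm]

theorem sm_sub (F : List ℕ) (f g : ℕ → ℚ) : sm F (fun i => f i - g i) = sm F f - sm F g := by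
  induction F with
  | nil => simp [sm]
  | cons a F ih => simp only [sm_cons, ih]; ring

theorem sm_mul (F : List ℕ) (c : ℚ) (f : ℕ → ℚ) : sm F (fun i => c * f i) = c * sm F f := by
  induction F with
  | nil => simp [sm]
  | cons a F ih => simp only [sm_cons, ih]; ring

theorem sm_zero (F : List ℕ) : sm F (fun _ => 0) = 0 := by simp [sm]

theorem sm_nonneg {F : List ℕ} {f : ℕ → ℚ} (h : ∀ i ∈ F, 0 ≤ f i) : 0 ≤ sm F f :=
  (sm_zero F).ge.trans (sm_le h)

theorem isN_nonneg {Λ : ℕ} {x : ℚ} (h : IsN Λ x) : 0 ≤ x := by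
  obtain ⟨m, -, rfl⟩ := h
  exact Nat.cast_nonneg m

theorem isN_le {Λ : ℕ} {x : ℚ} (h : IsN Λ x) : x ≤ Λ := by
  obtain ⟨m, hm, rfl⟩ := h
  exact_mod_cast hm

theorem pre_nonneg {r μ : ℕ → ℚ} (t : ℕ) {i : ℕ} (h : 0 ≤ μ i) : 0 ≤ pre r μ t i := by
  unfold pre; split_ifs
  · exact h
  · exact le_rfl

theorem pre_le {r μ : ℕ → ℚ} (t : ℕ) {i : ℕ} (h : 0 ≤ μ i) : pre r μ t i ≤ μ i := by
  unfold pre; split_ifs
  · exact le_rfl
  · exact h

theorem val_congr (κ a b : ℚ) {F : List ℕ} {r r' μ μ' : ℕ → ℚ} (D : ℚ) {t t' : ℕ} (hr : ∀ i ∈ F, r i = r' i)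
    (h : ∀ i ∈ F, pre r μ t i = pre r' μ' t' i) : val κ a b F r μ D t = val κ a b F r' μ' D t' := by
  unfold val mom
  rw [sm_congr h, sm_congr (f := fun i => pre r μ t i * r i) (g := fun i => pre r' μ' t' i * r' i)
    fun i hi => by rw [h i hi, hr i hi]]

theorem val_pt (κ : ℚ) {α : Type} [Enc α] {a b D : α → ℚ} {F : α → List ℕ} {r μ : α → List ℚ} {t : α → ℕ}
    (ha : PT a) (hb : PT b) (hF : PT F) (hr : PT r) (hμ : PT μ) (hD : PT D) (ht : PT t) :
    PT fun z => val κ (a z) (b z) (F z) (fn (r z)) (fn (μ z)) (D z) (t z) := by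
  have h1 : PT fun q : α × ℕ => pre (fn (r q.1)) (fn (μ q.1)) (t q.1) q.2 := by
    unfold pre
    exact PT.ite' (PT.rat_lt (by fun_prop) (by fun_prop)) (by fun_prop) (PT.const 0)
  have h2 : PT fun z => sm (F z) (pre (fn (r z)) (fn (μ z)) (t z)) :=
    sm_pt (g := fun z i => pre (fn (r z)) (fn (μ z)) (t z) i) hF h1
  have h3 : PT fun z => mom (F z) (pre (fn (r z)) (fn (μ z)) (t z)) (fn (r z)) := by
    unfold mom
    exact sm_pt (g := fun z i => pre (fn (r z)) (fn (μ z)) (t z) i * fn (r z) i) hF (PT.rat_mul h1 (by fun_prop))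
  unfold val psi cA
  exact PT.rat_add (PT.rat_mul (PT.rat_mul (PT.rat_sub (PT.const 1) h2)
    (PT.rat_add (PT.const 1) (PT.rat_mul (PT.const κ) h2))) hD) (PT.rat_mul (PT.rat_add ha (PT.rat_mul hb h2)) h3)

theorem cA_sub (κ m m' : ℚ) : cA κ m' - cA κ m = (m - m') * (1 + κ * (m + m' - 1)) := by
  unfold cA; ring

theorem cA_le {κ m m' : ℚ} (hκ : 0 ≤ κ) (h : m' ≤ m) (hm : m ≤ 1) : cA κ m' - cA κ m ≤ (m - m') * (1 + κ) := by
  rw [cA_sub]
  refine mul_le_mul_of_nonneg_left ?_ (sub_nonneg.2 h)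
  have : κ * (m + m' - 1) ≤ κ * 1 := mul_le_mul_of_nonneg_left (by linarith) hκ
  linarith

end CB

theorem Phi_pt (κ : ℚ) {α : Type} [Enc α] {a b D : α → ℚ} {Λ : α → Un} {F : α → List ℕ} {r μ : α → List ℚ}
    (ha : PT a) (hb : PT b) (hΛ : PT Λ) (hF : PT F) (hr : PT r) (hμ : PT μ) (hD : PT D) :
    PT fun z => Phi κ (a z) (b z) (Λ z).n (F z) (fn (r z)) (fn (μ z)) (D z) := by
  have hb' : PB fun z => (Λ z).n + 2 := by
    have := PB.of_un hΛ
    fun_prop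
  have hn : PT fun z => (Λ z).n + 2 := by
    have := hΛ.of_un
    fun_prop
  have h1 : PT fun z => List.range ((Λ z).n + 2) := by fun_prop
  have h2 : PT fun z => (List.range ((Λ z).n + 2)).argmin
      (val κ (a z) (b z) (F z) (fn (r z)) (fn (μ z)) (D z)) :=
    PT.argmin (f := fun z t => val κ (a z) (b z) (F z) (fn (r z)) (fn (μ z)) (D z) t) h1 (by fun_prop)
      (CB.val_pt κ (α := α × ℕ) (a := fun q => a q.1) (b := fun q => b q.1) (D := fun q => D q.1)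
        (F := fun q => F q.1) (r := fun q => r q.1) (μ := fun q => μ q.1) (t := fun q => q.2)
        (by fun_prop) (by fun_prop) (by fun_prop) (by fun_prop) (by fun_prop) (by fun_prop) (by fun_prop))
  unfold Phi
  exact CB.val_pt κ ha hb hF hr hμ hD (h2.option_getD (PT.const 0))

theorem Phi_congr (κ a b : ℚ) (Λ : ℕ) (F : List ℕ) (r r' μ μ' : ℕ → ℚ) (D : ℚ) (hr : ∀ i ∈ F, r i = r' i)
    (hμ : ∀ i ∈ F, μ i = μ' i) : Phi κ a b Λ F r μ D = Phi κ a b Λ F r' μ' D := by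
  have h : val κ a b F r μ D = val κ a b F r' μ' D := by
    funext t
    refine CB.val_congr κ a b D hr fun i hi => ?_
    unfold pre
    rw [hr i hi, hμ i hi]
  unfold Phi
  rw [h]

theorem Phi_budget (κ a b : ℚ) {Λ : ℕ} {F : List ℕ} {r μ : ℕ → ℚ} (D : ℚ) (hr : ∀ i ∈ F, IsN Λ (r i))
    (hμ : sm F μ = 1) : Phi κ a b Λ F r μ D ≤ (a + b) * sm F fun i => μ i * r i := by
  refine (Phi_le κ a b F r μ D (le_refl (Λ + 1))).trans (le_of_eq ?_)
  have h : ∀ i ∈ F, pre r μ (Λ + 1) i = μ i := fun i hi => by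
    unfold pre
    rw [if_pos]
    have := CB.isN_le (hr i hi)
    push_cast
    linarith
  unfold val mom psi cA
  rw [CB.sm_congr h, CB.sm_congr (f := fun i => pre r μ (Λ + 1) i * r i) (g := fun i => μ i * r i)
    fun i hi => by rw [h i hi], hμ]
  ring

theorem Phi_zero (κ a b : ℚ) (Λ : ℕ) (F : List ℕ) (r : ℕ → ℚ) (D : ℚ) : Phi κ a b Λ F r (fun _ => 0) D = D := by
  obtain ⟨t, -, h⟩ := Phi_eq κ a b Λ F r (fun _ => 0) D
  have h0 : ∀ i ∈ F, pre r (fun _ => 0) t i = 0 := fun i _ => by simp [pre]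
  rw [h]
  unfold val mom psi cA
  rw [CB.sm_congr h0, CB.sm_congr (f := fun i => pre r (fun _ => 0) t i * r i) (g := fun _ => 0)
    fun i hi => by rw [h0 i hi, zero_mul], CB.sm_zero]
  ring

theorem Phi_drop {κ a b : ℚ} (hκ : 0 ≤ κ) (ha : 1 + κ ≤ a) (hb : 0 ≤ b) {Λ : ℕ} {F : List ℕ} {r μ μ' : ℕ → ℚ} {D : ℚ}
    (hr : ∀ i ∈ F, IsN Λ (r i)) (hD : IsN Λ D) (h0 : ∀ i ∈ F, 0 ≤ μ' i) (h1 : ∀ i ∈ F, μ' i ≤ μ i) (hm : sm F μ ≤ 1)
    (h2 : ∀ i ∈ F, r i < D → μ' i = μ i) : Phi κ a b Λ F r μ' D ≤ Phi κ a b Λ F r μ D := by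
  obtain ⟨t, ht, h⟩ := Phi_eq κ a b Λ F r μ D
  have hD0 := CB.isN_nonneg hD
  obtain ⟨d, -, rfl⟩ := hD
  have hμ : ∀ i ∈ F, 0 ≤ μ i := fun i hi => (h0 i hi).trans (h1 i hi)
  have e1 : val κ a b F r μ' d (min t d) = val κ a b F r μ d (min t d) := by
    refine CB.val_congr κ a b _ (fun _ _ => rfl) fun i hi => ?_
    unfold pre
    split_ifs with hc
    · refine h2 i hi (hc.trans_le ?_)
      exact_mod_cast min_le_right t d
    · rfl
  refine (Phi_le κ a b F r μ' d ((min_le_left t d).trans ht)).trans ?_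
  rw [e1, h]
  have k1 : ∀ i ∈ F, pre r μ (min t d) i ≤ pre r μ t i := fun i hi => by
    unfold pre
    by_cases hc : r i < ((min t d : ℕ) : ℚ)
    · have : r i < t := hc.trans_le (by exact_mod_cast min_le_left t d)
      rw [if_pos hc, if_pos this]
    · rw [if_neg hc]
      exact CB.pre_nonneg (r := r) t (hμ i hi)
  have k2 : ∀ i ∈ F, (d : ℚ) * (pre r μ t i - pre r μ (min t d) i) ≤
      pre r μ t i * r i - pre r μ (min t d) i * r i := fun i hi => by
    by_cases hc : r i < d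
    · have : pre r μ (min t d) i = pre r μ t i := by
        unfold pre
        by_cases hc' : r i < t
        · have : r i < ((min t d : ℕ) : ℚ) := by push_cast; exact lt_min hc' hc
          rw [if_pos hc', if_pos this]
        · have : ¬ r i < ((min t d : ℕ) : ℚ) := fun h' => hc' (h'.trans_le (by exact_mod_cast min_le_left t d))
          rw [if_neg hc', if_neg this]
      rw [this]
      simp
    · have := mul_le_mul_of_nonneg_right (not_lt.1 hc) (sub_nonneg.2 (k1 i hi))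
      linarith
  have k3 := CB.sm_le k2
  rw [CB.sm_mul, CB.sm_sub, CB.sm_sub] at k3
  have k4 := CB.sm_le k1
  have k5 : sm F (pre r μ t) ≤ 1 := (CB.sm_le fun i hi => CB.pre_le t (hμ i hi)).trans hm
  have k6 : 0 ≤ sm F (pre r μ (min t d)) := CB.sm_nonneg fun i hi => CB.pre_nonneg _ (hμ i hi)
  have k7 : 0 ≤ sm F fun i => pre r μ (min t d) i * r i :=
    CB.sm_nonneg fun i hi => mul_nonneg (CB.pre_nonneg _ (hμ i hi)) (CB.isN_nonneg (hr i hi))
  unfold val mom psi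
  generalize sm F (pre r μ t) = m at *
  generalize sm F (pre r μ (min t d)) = m' at *
  generalize (sm F fun i => pre r μ t i * r i) = s at *
  generalize (sm F fun i => pre r μ (min t d) i * r i) = s' at *
  have k8 := mul_le_mul_of_nonneg_right (CB.cA_le hκ k4 k5) hD0
  have k9 : 0 ≤ (d : ℚ) * (m - m') := mul_nonneg hD0 (sub_nonneg.2 k4)
  have k10 : s' ≤ s := by linarith
  have k11 : b * (m' * s') ≤ b * (m * s) := mul_le_mul_of_nonneg_left (mul_le_mul k4 k10 k7 (k6.trans k4)) hb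
  have k12 : (1 + κ) * (d * (m - m')) ≤ a * (s - s') := mul_le_mul ha k3 k9 (by linarith)
  linarith

theorem Phi_lip {κ a b a' b' : ℚ} (hκ : 0 ≤ κ) (hκ1 : κ ≤ 1) (ha : 0 ≤ a) (hb : 0 ≤ b) (hb' : 0 ≤ b') {Λ : ℕ} {F : List ℕ}
    {r μ μ' : ℕ → ℚ} {D : ℚ} (hr : ∀ i ∈ F, IsN Λ (r i)) (hD : IsN Λ D) (h0 : ∀ i ∈ F, 0 ≤ μ' i)
    (h1 : ∀ i ∈ F, μ' i ≤ μ i) (hm : sm F μ ≤ 1) :
    Phi κ a' b' Λ F r μ' D ≤ Phi κ a b Λ F r μ D + 2 * Λ * sm F (fun i => μ i - μ' i) + (|a' - a| + |b' - b|) * Λ := by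
  obtain ⟨t, ht, h⟩ := Phi_eq κ a b Λ F r μ D
  have hD0 := CB.isN_nonneg hD
  have hD1 := CB.isN_le hD
  have hμ : ∀ i ∈ F, 0 ≤ μ i := fun i hi => (h0 i hi).trans (h1 i hi)
  refine (Phi_le κ a' b' F r μ' D ht).trans ?_
  rw [h]
  have k1 : ∀ i ∈ F, pre r μ' t i ≤ pre r μ t i := fun i hi => by
    unfold pre
    split_ifs
    · exact h1 i hi
    · exact le_rfl
  have k2 : ∀ i ∈ F, pre r μ t i - pre r μ' t i ≤ μ i - μ' i := fun i hi => by
    unfold pre
    split_ifs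
    · exact le_rfl
    · linarith [h1 i hi]
  have k3 := CB.sm_le k2
  rw [CB.sm_sub] at k3
  have k4 := CB.sm_le k1
  have k5 : sm F (pre r μ t) ≤ 1 := (CB.sm_le fun i hi => CB.pre_le t (hμ i hi)).trans hm
  have k6 : 0 ≤ sm F (pre r μ' t) := CB.sm_nonneg fun i hi => CB.pre_nonneg _ (h0 i hi)
  have k7 : 0 ≤ sm F fun i => pre r μ' t i * r i :=
    CB.sm_nonneg fun i hi => mul_nonneg (CB.pre_nonneg _ (h0 i hi)) (CB.isN_nonneg (hr i hi))
  have k10 : (sm F fun i => pre r μ' t i * r i) ≤ sm F fun i => pre r μ t i * r i :=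
    CB.sm_le fun i hi => mul_le_mul_of_nonneg_right (k1 i hi) (CB.isN_nonneg (hr i hi))
  have k13 : (sm F fun i => pre r μ t i * r i) ≤ Λ * sm F (pre r μ t) := by
    rw [← CB.sm_mul]
    refine CB.sm_le fun i hi => ?_
    rw [mul_comm]
    exact mul_le_mul_of_nonneg_right (CB.isN_le (hr i hi)) (CB.pre_nonneg _ (hμ i hi))
  unfold val mom psi
  generalize sm F (pre r μ t) = m at *
  generalize sm F (pre r μ' t) = m' at *
  generalize (sm F fun i => pre r μ t i * r i) = s at *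
  generalize (sm F fun i => pre r μ' t i * r i) = s' at *
  generalize (sm F fun i => μ i - μ' i) = δ at *
  have hΛ : (0 : ℚ) ≤ Λ := Nat.cast_nonneg Λ
  have k8 := mul_le_mul_of_nonneg_right (CB.cA_le hκ k4 k5) hD0
  have k9 : (m - m') * (1 + κ) * D ≤ δ * 2 * Λ :=
    mul_le_mul (mul_le_mul k3 (by linarith) (by linarith) (by linarith)) hD1 hD0 (by linarith)
  have k11 : b * (m' * s') ≤ b * (m * s) := mul_le_mul_of_nonneg_left (mul_le_mul k4 k10 k7 (k6.trans k4)) hb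
  have k12 : a * s' ≤ a * s := mul_le_mul_of_nonneg_left k10 ha
  have k14 : s' ≤ Λ := by nlinarith
  have k15 : (a' - a) * s' ≤ |a' - a| * Λ := mul_le_mul (le_abs_self _) k14 k7 (abs_nonneg _)
  have k16 : m' * s' ≤ Λ := by nlinarith
  have k17 : (b' - b) * (m' * s') ≤ |b' - b| * Λ :=
    mul_le_mul (le_abs_self _) k16 (mul_nonneg k6 k7) (abs_nonneg _)
  linarith

end Crest.Agent.R310
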