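import Crest.Agent.R310.CDefs

/-!
# R310 / CClk : the coefficients

`β n = 2 (-1)^n (n+1) / (n+2)!`, `b x = ∑_{n < M} β n x^n`, `a x = 1 + ∑_{n < M} β n x^(n+2) / (n+3)`, `M ≥ 7` large.
`box`: alternating sums with decreasing terms (or `|tail| ≤` first term by induction two terms at a time).
With `(θ p) x = x p' x = ∑ n c_n x^n`: `a + θ a = 1 + x² b` exactly, `θ b + 2 b + 2 x b + a - 3 = ` two leftover monomials, of size `≤ 8 / M!`
(`(n+2) β n + 2 β (n-1) + β (n-2) / (n+1) = 0`).  `|(1-h)^n - 1 + n h| ≤ n² h²` gives `|p (x (1-h)) - p x + h θ p x| ≤ C h²`; take `s0` with `2 C s0 ≤ δ / 2`.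
The right side of `step` equals `h (- θ a - m θ b + δ + m * leftover)`.  `bud`: `β n (n+4)/(n+3) = 2 (-1)^n (1/(n+1)! - 2/(n+3)!)`,
`a 1 + b 1 = 1 + 2 (2 E (M+3) - E (M+1))`, `E k = ∑_{j<k} (-1)^j / j! → exp (-1)`.
-/

set_option autoImplicit false

namespace Crest.Agent.R310

open Crest.Agent.Lib.PT

namespace CK

open Finset

/-- polynomial with coefficients `c` -/
def pl (c : ℕ → ℚ) (M : ℕ) (x : ℚ) : ℚ := ∑ n ∈ range M, c n * x ^ n

theorem pl_succ (c : ℕ → ℚ) (M : ℕ) (x : ℚ) : pl c (M + 1) x = pl c M x + c M * x ^ M := sum_range_succ _ _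

theorem pl_pt (c : ℕ → ℚ) (M : ℕ) : PT (pl c M) := by
  induction M with
  | zero => exact PT.const 0
  | succ M ih =>
    have : pl c (M + 1) = fun x => pl c M x + c M * x ^ M := funext (pl_succ c M)
    rw [this]
    fun_prop

theorem pow_lip {x x' : ℚ} (h0 : 0 ≤ x') (h1 : x' ≤ x) (h2 : x ≤ 1) (n : ℕ) :
    0 ≤ x ^ n - x' ^ n ∧ x ^ n - x' ^ n ≤ n * (x - x') := by
  refine ⟨sub_nonneg.2 (pow_le_pow_left₀ h0 h1 n), ?_⟩
  induction n with
  | zero => simp
  | succ n ih =>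
    have a1 : x' ^ n ≤ 1 := pow_le_one₀ h0 (h1.trans h2)
    have a2 : 0 ≤ x ^ n - x' ^ n := sub_nonneg.2 (pow_le_pow_left₀ h0 h1 n)
    have e : x ^ (n + 1) - x' ^ (n + 1) = x * (x ^ n - x' ^ n) + x' ^ n * (x - x') := by ring
    rw [e]
    push_cast
    nlinarith [mul_le_mul_of_nonneg_right h2 a2, mul_le_mul_of_nonneg_right a1 (sub_nonneg.2 h1)]

theorem pl_lip (c : ℕ → ℚ) (M : ℕ) : ∃ L : ℕ, ∀ x x' : ℚ, 0 ≤ x' → x' ≤ x → x ≤ 1 →
    |pl c M x' - pl c M x| ≤ L * (x - x') := by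
  induction M with
  | zero => exact ⟨0, fun x x' _ _ _ => by simp [pl]⟩
  | succ M ih =>
    obtain ⟨L, hL⟩ := ih
    refine ⟨L + ⌈|c M|⌉₊ * M, fun x x' h0 h1 h2 => ?_⟩
    obtain ⟨a1, a2⟩ := pow_lip h0 h1 h2 M
    have e : pl c (M + 1) x' - pl c (M + 1) x = (pl c M x' - pl c M x) - c M * (x ^ M - x' ^ M) := by
      rw [pl_succ, pl_succ]; ring
    have a3 : |c M * (x ^ M - x' ^ M)| ≤ ⌈|c M|⌉₊ * (M * (x - x')) := by
      rw [abs_mul, abs_of_nonneg a1]
      exact mul_le_mul (Nat.le_ceil _) a2 a1 (Nat.cast_nonneg _)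
    rw [e]
    refine (abs_sub _ _).trans ?_
    push_cast
    linarith [hL x x' h0 h1 h2]

theorem pow_tay {h : ℚ} (h0 : 0 ≤ h) (h1 : h ≤ 1) (n : ℕ) :
    0 ≤ (1 - h) ^ n - 1 + n * h ∧ (1 - h) ^ n - 1 + n * h ≤ n ^ 2 * h ^ 2 := by
  induction n with
  | zero => simp
  | succ n ih =>
    obtain ⟨a1, a2⟩ := ih
    have e : (1 - h) ^ (n + 1) - 1 + ((n + 1 : ℕ) : ℚ) * h = (1 - h) * ((1 - h) ^ n - 1 + n * h) + n * h ^ 2 := by
      push_cast; ring
    have hn : (0 : ℚ) ≤ n * h ^ 2 := by positivity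
    rw [e]
    refine ⟨add_nonneg (mul_nonneg (by linarith) a1) hn, ?_⟩
    push_cast
    nlinarith [mul_nonneg h0 a1, sq_nonneg h]

theorem pl_tay (c : ℕ → ℚ) (M : ℕ) : ∃ C : ℚ, 0 ≤ C ∧ ∀ x h : ℚ, 0 ≤ x → x ≤ 1 → 0 ≤ h → h ≤ 1 →
    pl c M (x * (1 - h)) - pl c M x ≤ -(h * pl (fun n => n * c n) M x) + C * h ^ 2 := by
  induction M with
  | zero => exact ⟨0, le_rfl, fun x h _ _ _ _ => by simp [pl]⟩
  | succ M ih =>
    obtain ⟨C, hC0, hC⟩ := ih
    refine ⟨C + |c M| * M ^ 2, by positivity, fun x h x0 x1 h0 h1 => ?_⟩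
    obtain ⟨a1, a2⟩ := pow_tay h0 h1 M
    have a3 : 0 ≤ x ^ M := pow_nonneg x0 M
    have a4 : x ^ M ≤ 1 := pow_le_one₀ x0 x1
    have a5 : c M * (x ^ M * ((1 - h) ^ M - 1 + M * h)) ≤ |c M| * (M ^ 2 * h ^ 2) := by
      refine (mul_le_mul_of_nonneg_right (le_abs_self _) (mul_nonneg a3 a1)).trans ?_
      refine mul_le_mul_of_nonneg_left ?_ (abs_nonneg _)
      exact (mul_le_of_le_one_left a1 a4).trans a2
    rw [pl_succ, pl_succ, pl_succ, mul_pow]
    linarith [hC x h x0 x1 h0 h1]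

/-- alternating sums -/
theorem alt {t : ℕ → ℚ} (h0 : ∀ n, 0 ≤ t n) (h1 : ∀ n, t (n + 1) ≤ t n) {k j : ℕ} (h : k ≤ j) :
    ∑ n ∈ range (2 * k), (-1) ^ n * t n ≤ ∑ n ∈ range (2 * j + 1), (-1) ^ n * t n ∧
      ∑ n ∈ range (2 * j + 1), (-1) ^ n * t n ≤ ∑ n ∈ range (2 * k + 1), (-1) ^ n * t n := by
  induction j, h using Nat.le_induction with
  | base =>
    refine ⟨?_, le_rfl⟩
    rw [sum_range_succ, pow_mul]
    simp [h0]
  | succ j hj ih =>
    obtain ⟨a1, a2⟩ := ih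
    have e1 : ((-1 : ℚ)) ^ (2 * j) = 1 := by rw [pow_mul]; simp
    have e2 : ((-1 : ℚ)) ^ (2 * j + 1) = -1 := by rw [pow_succ, e1]; simp
    have e3 : ((-1 : ℚ)) ^ (2 * j + 1 + 1) = 1 := by rw [pow_succ, e2]; simp
    have key : ∀ i, k ≤ i → ∑ n ∈ range (2 * k), (-1) ^ n * t n ≤ ∑ n ∈ range (2 * i), (-1) ^ n * t n := by
      intro i hi
      induction i, hi using Nat.le_induction with
      | base => exact le_rfl
      | succ i hi ih =>
        have e1 : ((-1 : ℚ)) ^ (2 * i) = 1 := by rw [pow_mul]; simp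
        have e2 : ((-1 : ℚ)) ^ (2 * i + 1) = -1 := by rw [pow_succ, e1]; simp
        rw [show 2 * (i + 1) = 2 * i + 1 + 1 by ring, sum_range_succ, sum_range_succ, e1, e2]
        linarith [h1 (2 * i)]
    constructor
    · have := key (j + 1) (by omega)
      rw [sum_range_succ, show 2 * (j + 1) = 2 * j + 1 + 1 by ring, e3]
      rw [show 2 * (j + 1) = 2 * j + 1 + 1 by ring] at this
      linarith [h0 (2 * j + 1 + 1)]
    · rw [show 2 * (j + 1) + 1 = 2 * j + 1 + 1 + 1 by ring, sum_range_succ, sum_range_succ, e2, e3]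
      linarith [h1 (2 * j + 1)]

/-- coefficients of `b` -/
def cb (n : ℕ) : ℚ := (-1) ^ n * (2 * (n + 1) / (n + 2).factorial)

/-- coefficients of `a` -/
def ca : ℕ → ℚ
  | 0 => 1
  | 1 => 0
  | n + 2 => (-1) ^ n * (2 * (n + 1) / (n + 3).factorial)

theorem fac_pos (n : ℕ) : (0 : ℚ) < n.factorial := by exact_mod_cast n.factorial_pos

theorem fac_succ (n : ℕ) : ((n + 1).factorial : ℚ) = (n + 1) * n.factorial := by
  rw [Nat.factorial_succ]; push_cast; ring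

theorem fac2 (n : ℕ) : ((n + 2).factorial : ℚ) = (n + 2) * ((n + 1) * n.factorial) := by
  rw [show n + 2 = n + 1 + 1 from rfl, fac_succ, fac_succ]; push_cast; ring

theorem fac3 (n : ℕ) : ((n + 3).factorial : ℚ) = (n + 3) * ((n + 2) * ((n + 1) * n.factorial)) := by
  rw [show n + 3 = n + 2 + 1 from rfl, fac_succ, fac2]; push_cast; ring

theorem ode_a (M : ℕ) (x : ℚ) :
    pl ca (M + 2) x + pl (fun n => n * ca n) (M + 2) x = 1 + x ^ 2 * pl cb M x := by
  induction M with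
  | zero => simp [pl, sum_range_succ, ca]
  | succ M ih =>
    rw [show M + 1 + 2 = M + 2 + 1 from rfl, pl_succ ca, pl_succ (fun n => n * ca n), pl_succ cb]
    have e : ca (M + 2) * x ^ (M + 2) + ((M + 2 : ℕ) : ℚ) * ca (M + 2) * x ^ (M + 2) = x ^ 2 * (cb M * x ^ M) := by
      simp only [ca, cb]
      rw [fac3, fac2]
      have := fac_pos M
      push_cast
      field_simp
      ring
    linarith

theorem ode_b (M : ℕ) (x : ℚ) :
    pl (fun n => n * cb n) M x + 2 * pl cb M x + 2 * x * pl cb M x + pl ca (M + 2) x - 3 =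
      -(2 * (-1) ^ M * (x ^ M / M.factorial + M * x ^ (M + 1) / (M + 2).factorial)) := by
  induction M with
  | zero => simp [pl, sum_range_succ, ca]; norm_num
  | succ M ih =>
    rw [show M + 1 + 2 = M + 2 + 1 from rfl, pl_succ ca, pl_succ (fun n => n * cb n), pl_succ cb]
    have e : (M : ℚ) * cb M * x ^ M + 2 * (cb M * x ^ M) + 2 * x * (cb M * x ^ M) + ca (M + 2) * x ^ (M + 2) =
        -(2 * (-1) ^ (M + 1) * (x ^ (M + 1) / (M + 1).factorial + ((M + 1 : ℕ) : ℚ) * x ^ (M + 1 + 1) / (M + 2 + 1).factorial)) +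
          2 * (-1) ^ M * (x ^ M / M.factorial + M * x ^ (M + 1) / (M + 2).factorial) := by
      simp only [ca, cb, show M + 2 + 1 = M + 3 from rfl]
      rw [fac3, fac2, fac_succ]
      have := fac_pos M
      push_cast
      field_simp
      ring
    linarith

/-- partial sums of `exp (-1)` -/
def E (k : ℕ) : ℚ := ∑ j ∈ range k, (-1) ^ j / j.factorial

theorem bud_eq (M : ℕ) : pl ca (M + 2) 1 + pl cb M 1 = 1 + 2 * (2 * E (M + 3) - E (M + 1)) := by
  induction M with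
  | zero => simp [pl, sum_range_succ, ca, E, Nat.factorial]
  | succ M ih =>
    rw [show M + 1 + 2 = M + 2 + 1 from rfl, pl_succ ca, pl_succ cb]
    have e1 : E (M + 1 + 3) = E (M + 3) + (-1) ^ (M + 3) / (M + 3).factorial := sum_range_succ _ _
    have e2 : E (M + 1 + 1) = E (M + 1) + (-1) ^ (M + 1) / (M + 1).factorial := sum_range_succ _ _
    have e : ca (M + 2) * 1 ^ (M + 2) + cb M * 1 ^ M =
        2 * (2 * ((-1) ^ (M + 3) / (M + 3).factorial) - (-1) ^ (M + 1) / (M + 1).factorial) := by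
      simp only [ca, cb]
      rw [fac3, fac2, fac_succ]
      have := fac_pos M
      field_simp
      ring
    rw [e1, e2]
    linarith

theorem E_bnd {k : ℕ} (hk : 0 < k) : |Real.exp (-1) - (E k : ℝ)| ≤ 2 / k := by
  have h := Real.exp_bound (x := -1) (by simp) hk
  have e : (E k : ℝ) = ∑ m ∈ range k, (-1 : ℝ) ^ m / m.factorial := by unfold E; push_cast; rfl
  rw [e]
  refine h.trans ?_
  have hk' : (1 : ℝ) ≤ k := by exact_mod_cast hk
  have hf : (k : ℝ) ≤ k.factorial := by exact_mod_cast Nat.self_le_factorial k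
  rw [abs_neg, abs_one, one_pow, one_mul, div_le_div_iff₀ (by positivity) (by positivity)]
  push_cast
  nlinarith

theorem box (j : ℕ) (hj : 3 ≤ j) {x : ℚ} (x0 : 0 ≤ x) (x1 : x ≤ 1) :
    Box x (pl ca (2 * j + 1 + 2) x) (pl cb (2 * j + 1) x) := by
  have hp : ∀ n, x ^ (n + 1) ≤ x ^ n := fun n => pow_le_pow_of_le_one x0 x1 (Nat.le_succ n)
  have hb := alt (t := fun n => 2 * ((n : ℚ) + 1) / (n + 2).factorial * x ^ n) (fun n => by positivity) (fun n => by
    refine mul_le_mul ?_ (hp n) (by positivity) (by positivity)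
    rw [show n + 1 + 2 = n + 3 from rfl, fac3, fac2, div_le_div_iff₀ (by have := fac_pos n; positivity)
      (by have := fac_pos n; positivity)]
    have := fac_pos n
    have hn : (0 : ℚ) ≤ n := Nat.cast_nonneg n
    push_cast
    have : 0 ≤ ((n : ℚ) + 2) * ((n + 1) * n.factorial) * (n ^ 2 + 3 * n + 1) := by positivity
    nlinarith) (k := 3) hj
  have ha := alt (t := fun n => 2 * ((n : ℚ) + 1) / (n + 3).factorial * x ^ (n + 2)) (fun n => by positivity) (fun n => by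
    refine mul_le_mul ?_ (hp (n + 2)) (by positivity) (by positivity)
    rw [show n + 1 + 3 = n + 3 + 1 from rfl, fac_succ, div_le_div_iff₀ (by have := fac_pos (n + 3); positivity)
      (fac_pos _)]
    have := fac_pos (n + 3)
    have hn : (0 : ℚ) ≤ n := Nat.cast_nonneg n
    push_cast
    have : 0 ≤ ((n + 3).factorial : ℚ) * (n ^ 2 + 4 * n + 2) := by positivity
    nlinarith) (k := 2) (j := j) (by omega)
  have eb : pl cb (2 * j + 1) x = ∑ n ∈ range (2 * j + 1), (-1) ^ n * (2 * ((n : ℚ) + 1) / (n + 2).factorial * x ^ n) :=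
    sum_congr rfl fun n _ => by unfold cb; ring
  have ea : pl ca (2 * j + 1 + 2) x =
      1 + ∑ n ∈ range (2 * j + 1), (-1) ^ n * (2 * ((n : ℚ) + 1) / (n + 3).factorial * x ^ (n + 2)) := by
    unfold pl
    rw [sum_range_succ', sum_range_succ']
    simp only [ca, zero_add, zero_mul, add_zero, pow_zero, mul_one]
    rw [add_comm]
    congr 1
    exact sum_congr rfl fun n _ => by ring
  rw [← eb] at hb
  rw [ea]
  generalize ∑ n ∈ range (2 * j + 1), (-1) ^ n * (2 * ((n : ℚ) + 1) / (n + 3).factorial * x ^ (n + 2)) = S at ha ⊢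
  simp only [sum_range_succ, sum_range_zero, Nat.factorial] at ha hb
  push_cast at ha hb
  obtain ⟨ha0, ha1⟩ := ha
  obtain ⟨hb0, hb1⟩ := hb
  exact ⟨x0, x1, by linarith, by linarith, by linarith, by linarith⟩

end CK

open CK

theorem exists_clk {δ : ℚ} (hδ : 0 < δ) : Nonempty (Clk δ) := by
  obtain ⟨j, hj3, hjδ⟩ : ∃ j : ℕ, 3 ≤ j ∧ 12 / δ ≤ j :=
    ⟨⌈12 / δ⌉₊ + 3, by omega, (Nat.le_ceil _).trans (by push_cast; linarith)⟩
  obtain ⟨La, hLa⟩ := pl_lip ca (2 * j + 1 + 2)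
  obtain ⟨Lb, hLb⟩ := pl_lip cb (2 * j + 1)
  obtain ⟨Ca, hCa0, hCa⟩ := pl_tay ca (2 * j + 1 + 2)
  obtain ⟨Cb, hCb0, hCb⟩ := pl_tay cb (2 * j + 1)
  have hC : 0 < Ca + Cb + 1 := by linarith
  refine ⟨{ a := pl ca (2 * j + 1 + 2), b := pl cb (2 * j + 1), L := La + Lb, s0 := min 1 (δ / (Ca + Cb + 1)),
            s00 := lt_min one_pos (div_pos hδ hC), s01 := min_le_left _ _, a_pt := pl_pt _ _, b_pt := pl_pt _ _,
            bud := ?_, box := fun x x0 x1 => box j hj3 x0 x1, lipa := ?_, lipb := ?_, step := ?_ }⟩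
  · rw [bud_eq]
    have h1 := abs_le.1 (E_bnd (k := 2 * j + 1 + 3) (by omega))
    have h2 := abs_le.1 (E_bnd (k := 2 * j + 1 + 1) (by omega))
    have hj : (0 : ℝ) < j := by exact_mod_cast (by omega : 0 < j)
    have h3 : (2 : ℝ) / ((2 * j + 1 + 3 : ℕ) : ℝ) ≤ 2 / j :=
      div_le_div_of_nonneg_left (by norm_num) hj (by push_cast; linarith)
    have h4 : (2 : ℝ) / ((2 * j + 1 + 1 : ℕ) : ℝ) ≤ 2 / j :=
      div_le_div_of_nonneg_left (by norm_num) hj (by push_cast; linarith)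
    have h5 : (12 : ℚ) ≤ δ * j := by rw [div_le_iff₀ hδ] at hjδ; linarith
    have h6 : (12 : ℝ) ≤ δ * j := by exact_mod_cast h5
    have h7 : 6 * ((2 : ℝ) / j) ≤ δ := by
      rw [← mul_div_assoc, div_le_iff₀ hj]; linarith
    have h8 : 2 / Real.exp 1 = 2 * Real.exp (-1) := by rw [Real.exp_neg, div_eq_mul_inv]
    rw [h8]
    push_cast at h1 h2 h3 h4 ⊢
    linarith [h1.1, h2.2]
  · intro x x' h0 h1 h2
    refine (hLa x x' h0 h1 h2).trans (mul_le_mul_of_nonneg_right ?_ (sub_nonneg.2 h1))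
    exact_mod_cast Nat.le_add_right _ _
  · intro x x' h0 h1 h2
    refine (hLb x x' h0 h1 h2).trans (mul_le_mul_of_nonneg_right ?_ (sub_nonneg.2 h1))
    exact_mod_cast Nat.le_add_left _ _
  · intro x m h x0 x1 m0 m1 h0 hs
    have h1 : h ≤ 1 := hs.trans (min_le_left _ _)
    have h2 : h * (Ca + Cb + 1) ≤ δ := (le_div_iff₀ hC).1 (hs.trans (min_le_right _ _))
    have a1 := hCa x h x0 x1 h0.le h1
    have a2 := mul_le_mul_of_nonneg_left (hCb x h x0 x1 h0.le h1) m0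
    have e1 := ode_a (2 * j + 1) x
    have e2 := ode_b (2 * j + 1) x
    have e3 : ((-1 : ℚ)) ^ (2 * j + 1) = -1 := by rw [pow_succ, pow_mul]; simp
    rw [e3] at e2
    have e4 : 0 ≤ x ^ (2 * j + 1) / (2 * j + 1).factorial +
        ((2 * j + 1 : ℕ) : ℚ) * x ^ (2 * j + 1 + 1) / (2 * j + 1 + 2).factorial := by positivity
    generalize x ^ (2 * j + 1) / (2 * j + 1).factorial +
        ((2 * j + 1 : ℕ) : ℚ) * x ^ (2 * j + 1 + 1) / (2 * j + 1 + 2).factorial = w at e2 e4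
    generalize pl ca (2 * j + 1 + 2) (x * (1 - h)) = a' at *
    generalize pl cb (2 * j + 1) (x * (1 - h)) = b' at *
    generalize pl ca (2 * j + 1 + 2) x = a at *
    generalize pl cb (2 * j + 1) x = b at *
    generalize pl (fun n => n * ca n) (2 * j + 1 + 2) x = ta at *
    generalize pl (fun n => n * cb n) (2 * j + 1) x = tb at *
    have e5 : ta = 1 + x ^ 2 * b - a := by linarith
    have e6 : tb = 2 * w + 3 - a - 2 * b - 2 * x * b := by linarith
    subst e5 e6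
    have a3 : 0 ≤ m * (h * w) := by positivity
    have a4 : m * (Cb * h ^ 2) ≤ Cb * h ^ 2 := mul_le_of_le_one_left (by positivity) m1
    have a5 := mul_le_mul_of_nonneg_left h2 h0.le
    have a6 : 0 ≤ h ^ 2 := sq_nonneg h
    linarith

/-- the slope -/
def slp (b : ℚ) : ℚ :=
  (⌈(1000 : ℚ) * (2 / b) / (2 / b - 1)⌉₊ : ℚ) / ((⌈(1000 : ℚ) * (2 / b) / (2 / b - 1)⌉₊ : ℚ) - 1000)

theorem slp_pt {α : Type} [Enc α] {b : α → ℚ} (hb : PT b) : PT fun z => slp (b z) := by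
  unfold slp
  fun_prop

theorem slp_spec {b : ℚ} (h0 : 1 / 2 ≤ b) (h1 : b ≤ 1) :
    (∃ n : ℕ, 1000 < n ∧ slp b = (n : ℚ) / ((n : ℚ) - (1000 : ℕ))) ∧ 197 / 100 ≤ slp b * b ∧ slp b * b ≤ 2 := by
  have hb : 0 < b := by linarith
  have hd : 0 < 2 - b := by linarith
  have e : (1000 : ℚ) * (2 / b) / (2 / b - 1) = 2000 / (2 - b) := by
    have : 2 / b - 1 = (2 - b) / b := by field_simp
    rw [this]
    field_simp
    norm_num
  unfold slp
  rw [e]
  have a1 := Nat.le_ceil (2000 / (2 - b))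
  have a2 := Nat.ceil_lt_add_one (div_nonneg (by norm_num) hd.le : (0 : ℚ) ≤ 2000 / (2 - b))
  generalize ⌈2000 / (2 - b)⌉₊ = n at a1 a2 ⊢
  rw [div_le_iff₀ hd] at a1
  rw [← sub_lt_iff_lt_add, lt_div_iff₀ hd] at a2
  have a3 : (1300 : ℚ) < n := by
    by_contra hc
    nlinarith
  have a4 : (0 : ℚ) < n - 1000 := by linarith
  refine ⟨⟨n, by exact_mod_cast (by linarith : (1000 : ℚ) < n), by norm_num⟩, ?_, ?_⟩
  · rw [div_mul_eq_mul_div, le_div_iff₀ a4]
    linarith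
  · rw [div_mul_eq_mul_div, div_le_iff₀ a4]
    linarith

theorem Box.bnd {x a b : ℚ} (h : Box x a b) : 1 / 2 ≤ b ∧ b ≤ 1 ∧ 1 ≤ a ∧ a ≤ 5 / 4 := by
  obtain ⟨x0, x1, b0, b1, a0, a1⟩ := h
  have p : ∀ n : ℕ, 0 ≤ x ^ n := fun n => pow_nonneg x0 n
  have q : ∀ n : ℕ, x ^ (n + 1) ≤ x ^ n := fun n => pow_le_pow_of_le_one x0 x1 (Nat.le_succ n)
  have q1 := q 1
  have q2 := q 2
  have q3 := q 3
  have q4 := q 4
  have q5 := q 5
  have p2 := p 2
  have p4 := p 4
  have p6 := p 6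
  norm_num at q1 q2 q3 q4 q5
  refine ⟨?_, by linarith, by linarith, ?_⟩
  · nlinarith [sq_nonneg (1 - x)]
  · nlinarith [sq_nonneg (1 - x), mul_nonneg (sub_nonneg.2 x1) p2, mul_nonneg (sub_nonneg.2 x1) x0]

end Crest.Agent.R310
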