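import Crest.Agent.R310.Pot

/-!
# R310 / CDefs : the potential with a clock.  DO NOT EDIT (owner helper33).

For a measure `ν` of mass `m` and first moment `s`, `psi = (1 - m) (1 + κ m) D + (a + b m) s`, where `a + b m` is the tangent at the clock `x` of
`g m = 3 - 2 (1 - e^{-m}) / m`; `Phi` is the minimum of `psi` over the truncations of `μ` to the radii `< t`.
-/

set_option autoImplicit false

namespace Crest.Agent.R310

open Crest.Agent.Lib.PT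

/-- enclosures of `b = g' x = ∑ 2 (-1)^n (n+1)/(n+2)! x^n` and `a = g x - x g' x = 1 + ∑ 2 (-1)^n (n+1)/((n+2)! (n+3)) x^(n+2)` -/
structure Box (x a b : ℚ) : Prop where
  x0 : 0 ≤ x
  x1 : x ≤ 1
  b0 : 1 - 2 * x / 3 + x ^ 2 / 4 - x ^ 3 / 15 + x ^ 4 / 72 - x ^ 5 / 420 ≤ b
  b1 : b ≤ 1 - 2 * x / 3 + x ^ 2 / 4 - x ^ 3 / 15 + x ^ 4 / 72 - x ^ 5 / 420 + x ^ 6 / 2880
  a0 : 1 + x ^ 2 / 3 - x ^ 3 / 6 + x ^ 4 / 20 - x ^ 5 / 90 ≤ a
  a1 : a ≤ 1 + x ^ 2 / 3 - x ^ 3 / 6 + x ^ 4 / 20 - x ^ 5 / 90 + x ^ 6 / 504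

/-- polynomial coefficients that satisfy the differential equations up to `δ` -/
structure Clk (δ : ℚ) where
  a : ℚ → ℚ
  b : ℚ → ℚ
  L : ℕ
  s0 : ℚ
  s00 : 0 < s0
  s01 : s0 ≤ 1
  a_pt : PT a
  b_pt : PT b
  bud : ((a 1 + b 1 : ℚ) : ℝ) ≤ 1 + 2 / Real.exp 1 + δ
  box : ∀ x : ℚ, 0 ≤ x → x ≤ 1 → Box x (a x) (b x)
  lipa : ∀ x x' : ℚ, 0 ≤ x' → x' ≤ x → x ≤ 1 → |a x' - a x| ≤ L * (x - x')
  lipb : ∀ x x' : ℚ, 0 ≤ x' → x' ≤ x → x ≤ 1 → |b x' - b x| ≤ L * (x - x')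
  step : ∀ x m h : ℚ, 0 ≤ x → x ≤ 1 → 0 ≤ m → m ≤ 1 → 0 < h → h ≤ s0 →
    a (x * (1 - h)) - a x + m * (b (x * (1 - h)) - b x) ≤
      h * (-1 + (1 + m) * a x + b x * m ^ 2 + 2 * b x * m - 3 * m - b x * (m - x) ^ 2 + δ)

/-- coefficient of `D` -/
def cA (κ m : ℚ) : ℚ := (1 - m) * (1 + κ * m)

/-- `- d cA / d m` -/
def cA1 (κ m : ℚ) : ℚ := 1 - κ * (1 - 2 * m)

/-- the quadratic potential -/
def psi (κ a b m s D : ℚ) : ℚ := cA κ m * D + (a + b * m) * s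

/-- first moment -/
def mom (F : List ℕ) (ν r : ℕ → ℚ) : ℚ := sm F fun i => ν i * r i

/-- truncation to the radii `< t` -/
def pre (r μ : ℕ → ℚ) (t : ℕ) (i : ℕ) : ℚ := if r i < t then μ i else 0

/-- value of a truncation -/
def val (κ a b : ℚ) (F : List ℕ) (r μ : ℕ → ℚ) (D : ℚ) (t : ℕ) : ℚ :=
  psi κ a b (sm F (pre r μ t)) (mom F (pre r μ t) r) D

/-- the potential -/
def Phi (κ a b : ℚ) (Λ : ℕ) (F : List ℕ) (r μ : ℕ → ℚ) (D : ℚ) : ℚ :=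
  val κ a b F r μ D (((List.range (Λ + 2)).argmin (val κ a b F r μ D)).getD 0)

theorem Phi_le (κ a b : ℚ) {Λ : ℕ} (F : List ℕ) (r μ : ℕ → ℚ) (D : ℚ) {t : ℕ} (ht : t ≤ Λ + 1) :
    Phi κ a b Λ F r μ D ≤ val κ a b F r μ D t := by
  have hm : t ∈ List.range (Λ + 2) := List.mem_range.2 (by omega)
  unfold Phi
  cases h : (List.range (Λ + 2)).argmin (val κ a b F r μ D) with
  | none => exact absurd (List.argmin_eq_none.1 h) (List.ne_nil_of_mem hm)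
  | some m => exact List.le_of_mem_argmin hm h

theorem Phi_eq (κ a b : ℚ) (Λ : ℕ) (F : List ℕ) (r μ : ℕ → ℚ) (D : ℚ) :
    ∃ t ≤ Λ + 1, Phi κ a b Λ F r μ D = val κ a b F r μ D t := by
  unfold Phi
  cases h : (List.range (Λ + 2)).argmin (val κ a b F r μ D) with
  | none => exact ⟨0, by omega, rfl⟩
  | some m => exact ⟨m, by have := List.mem_range.1 (List.argmin_mem h); omega, rfl⟩

/-- lump coefficient -/
def cK (b m s r : ℚ) : ℚ := b * (m * r + s) / 2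

/-- derivative of `psi` when mass at radius `r` is removed -/
def cB (κ a b m s D r : ℚ) : ℚ := cA1 κ m * D - (a + b * m) * r - b * s

/-- ideal price of a unit of mass at radius `r`, kill radius `R`, lump level `φ` -/
def cL (a b σ m s r R φ : ℚ) : ℚ := r + R * (1 - φ / σ) - (a + b * m) * r - b * s + φ * cK b m s r

/-- ideal pair term (`rl` opens, `ri` is protected) -/
def cT (a b σ m s rl ri R φ : ℚ) : ℚ :=
  b * s - (2 - (a + b * m)) * ri - rl +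
    (1 - ff σ ((rl + ri) / R)) * max 0 (cL a b σ m s ri R φ - max 0 (rl - (a + b * m) * ri))

end Crest.Agent.R310
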