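import Crest.Agent.R310.CDefs

/-!
# R310 / CEvt : the change of the potential in one move

`ν = pre r μ t`, `m = ∑ ν`, `s = ∑ ν r`, `g = a + b m`; `pre r (μ (1 - φ)) t = ν (1 - φ)`.
`psi_kill`: `δ = ∑ ν φ`, `σ = ∑ ν φ r`; `cA (m - δ) = cA m + cA1 m δ - κ δ²`, `(a + b (m - δ)) (s - σ) = g s - g σ - b δ s + b δ σ`,
`δ σ = ∑_i ∑_k ν_i ν_k φ_i φ_k r_i ≤ ∑_i ∑_k ν_i ν_k (φ_i² + φ_k²) / 2 * r_i = ∑_i ν_i φ_i² (m r_i + s) / 2`.
`psi_sub`: `cA m' ≤ cA m + cA1 m (m - m')`, `cA m + cA1 m * m = 1 + κ m²`, `a + b m' ≤ g`.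
`evt_foreign`: `Phi_le` with the same `t`, `psi_kill` with `φ = θ f`, `θ ≤ 1`, `1 / θ ≥ 1 ≥ ∑ ν f`.
`evt_own`: `Phi_le` with `t' = min t ⌈cA1 D' / g⌉₊` (the radii are integers, so `r i < t' ↔ r i < t ∧ g r i < cA1 D'`), `psi_sub`:
`Phi ≤ val + A + θ B`, `A = (1 + κ m²) D' - ∑ ν w' - val ≤ - cA (D - D') ≤ 0`, `B = ∑ ν f w' ≥ 0`, `w' = max 0 (cA1 D' - g r)`, so `(Phi - val) / θ ≤ A + B =: Q'`;
`- val ≤ Q' ≤ 2 ro`, so `τ Q' ≤ Q' + 2 η ro + η (1 - ∑ ν f) val`; replacing `D'` by `ro ≥ D'` increases `Q'` (`m cA1 ≤ 1 + κ m²`).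
`evt_free`: `Phi_le`, `psi_kill` with the coefficients `a'`, `b'`, `φ = h ρ`, `D' = D`.
-/

set_option autoImplicit false

namespace Crest.Agent.R310

theorem ce_le {F : List ℕ} {f g : ℕ → ℚ} (h : ∀ i ∈ F, f i ≤ g i) : sm F f ≤ sm F g :=
  List.sum_le_sum h

theorem ce_congr {F : List ℕ} {f g : ℕ → ℚ} (h : ∀ i ∈ F, f i = g i) : sm F f = sm F g :=
  le_antisymm (ce_le fun i hi => (h i hi).le) (ce_le fun i hi => (h i hi).ge)

theorem ce_lin (F : List ℕ) (c1 c2 c3 c4 : ℚ) (f1 f2 f3 f4 : ℕ → ℚ) :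
    sm F (fun i => c1 * f1 i + c2 * f2 i + c3 * f3 i + c4 * f4 i) =
      c1 * sm F f1 + c2 * sm F f2 + c3 * sm F f3 + c4 * sm F f4 := by
  unfold sm
  induction F with
  | nil => simp
  | cons a F ih => simp only [List.map_cons, List.sum_cons, ih]; ring

theorem ce_lin2 (F : List ℕ) (c1 c2 : ℚ) (f1 f2 : ℕ → ℚ) :
    sm F (fun i => c1 * f1 i + c2 * f2 i) = c1 * sm F f1 + c2 * sm F f2 := by
  have := ce_lin F c1 c2 0 0 f1 f2 f1 f1
  simpa using this

theorem ce_nonneg {F : List ℕ} {f : ℕ → ℚ} (h : ∀ i ∈ F, 0 ≤ f i) : 0 ≤ sm F f := by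
  have := ce_le (F := F) (f := fun _ => 0) h
  simpa [sm] using this

theorem ce_pre0 {F : List ℕ} {r μ : ℕ → ℚ} {t : ℕ} (hμ : ∀ i ∈ F, 0 ≤ μ i) : ∀ i ∈ F, 0 ≤ pre r μ t i := by
  intro i hi
  unfold pre
  split_ifs
  · exact hμ i hi
  · exact le_rfl

theorem ce_pre1 {F : List ℕ} {r μ : ℕ → ℚ} {t : ℕ} (hμ : ∀ i ∈ F, 0 ≤ μ i) (hm : sm F μ ≤ 1) :
    sm F (pre r μ t) ≤ 1 := by
  refine (ce_le fun i hi => ?_).trans hm
  unfold pre
  split_ifs
  · exact le_rfl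
  · exact hμ i hi

theorem ce_pre_mul (r μ φ : ℕ → ℚ) (t : ℕ) :
    pre r (fun i => μ i * (1 - φ i)) t = fun i => pre r μ t i * (1 - φ i) := by
  funext i
  unfold pre
  split_ifs <;> simp

theorem ce_r0 {Λ : ℕ} {F : List ℕ} {r : ℕ → ℚ} (hr : ∀ i ∈ F, IsN Λ (r i)) : ∀ i ∈ F, 0 ≤ r i := by
  intro i hi
  obtain ⟨m, -, h⟩ := hr i hi
  rw [h]
  positivity

theorem psi_kill {κ a b : ℚ} (hκ : 0 ≤ κ) (hb : 0 ≤ b) {F : List ℕ} {ν r φ : ℕ → ℚ} (hν : ∀ i ∈ F, 0 ≤ ν i)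
    (hr : ∀ i ∈ F, 0 ≤ r i) {D D' : ℚ} (hD' : 0 ≤ D') :
    psi κ a b (sm F fun i => ν i * (1 - φ i)) (mom F (fun i => ν i * (1 - φ i)) r) D' -
        psi κ a b (sm F ν) (mom F ν r) D ≤
      -(cA κ (sm F ν) * (D - D')) + sm F fun i => ν i * φ i *
        (cB κ a b (sm F ν) (mom F ν r) D' (r i) + φ i * cK b (sm F ν) (mom F ν r) (r i)) := by
  set m := sm F ν with hm
  set s := mom F ν r with hs
  set δ := sm F (fun i => ν i * φ i) with hδ
  set σ := sm F (fun i => ν i * φ i * r i) with hσ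
  set q0 := sm F (fun i => ν i * φ i ^ 2) with hq0
  set q1 := sm F (fun i => ν i * φ i ^ 2 * r i) with hq1
  have e1 : (sm F fun i => ν i * (1 - φ i)) = m - δ := by
    have := ce_lin2 F 1 (-1) ν (fun i => ν i * φ i)
    rw [ce_congr (g := fun i => 1 * ν i + -1 * (ν i * φ i)) fun i _ => by ring, this]
    ring
  have e2 : mom F (fun i => ν i * (1 - φ i)) r = s - σ := by
    have := ce_lin2 F 1 (-1) (fun i => ν i * r i) (fun i => ν i * φ i * r i)
    unfold mom at hs ⊢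
    rw [ce_congr (g := fun i => 1 * (ν i * r i) + -1 * (ν i * φ i * r i)) fun i _ => by ring, this, hs]
    ring
  have e3 : (sm F fun i => ν i * φ i * (cB κ a b m s D' (r i) + φ i * cK b m s (r i))) =
      (cA1 κ m * D' - b * s) * δ + -(a + b * m) * σ + b * s / 2 * q0 + b * m / 2 * q1 := by
    rw [← ce_lin]
    refine ce_congr fun i _ => ?_
    unfold cB cK
    ring
  have k1 : ∀ x : ℚ, 0 ≤ x ^ 2 * m + -2 * x * δ + q0 := by
    intro x
    have := ce_lin F (x ^ 2) (-2 * x) 1 0 ν (fun i => ν i * φ i) (fun i => ν i * φ i ^ 2) ν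
    have h2 : 0 ≤ sm F (fun i => x ^ 2 * ν i + -2 * x * (ν i * φ i) + 1 * (ν i * φ i ^ 2) + 0 * ν i) :=
      ce_nonneg fun i hi => by
        have := mul_nonneg (hν i hi) (sq_nonneg (x - φ i))
        nlinarith
    rw [this] at h2
    linarith
  have k2 : 0 ≤ m * q1 + -2 * δ * σ + q0 * s := by
    have := ce_lin F m (-2 * δ) q0 0 (fun i => ν i * φ i ^ 2 * r i) (fun i => ν i * φ i * r i)
      (fun i => ν i * r i) ν
    have h2 : 0 ≤ sm F (fun i => m * (ν i * φ i ^ 2 * r i) + -2 * δ * (ν i * φ i * r i) + q0 * (ν i * r i) +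
        0 * ν i) :=
      ce_nonneg fun i hi => by
        have := mul_nonneg (mul_nonneg (hν i hi) (hr i hi)) (k1 (φ i))
        nlinarith
    rw [this] at h2
    unfold mom at hs
    rw [← hs] at h2
    linarith
  rw [e1, e2, e3]
  unfold psi cA cA1
  have k3 := mul_nonneg hb k2
  have k4 := mul_nonneg (mul_nonneg hκ (sq_nonneg δ)) hD'
  nlinarith

theorem psi_sub {κ a b : ℚ} (hκ : 0 ≤ κ) (hb : 0 ≤ b) {F : List ℕ} {ν ν' r : ℕ → ℚ} (h0 : ∀ i ∈ F, 0 ≤ ν' i)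
    (h1 : ∀ i ∈ F, ν' i ≤ ν i) (hr : ∀ i ∈ F, 0 ≤ r i) {D' : ℚ} (hD' : 0 ≤ D') :
    psi κ a b (sm F ν') (mom F ν' r) D' ≤ (1 + κ * sm F ν ^ 2) * D' -
      sm F fun i => ν' i * (cA1 κ (sm F ν) * D' - (a + b * sm F ν) * r i) := by
  set m := sm F ν with hm
  set m' := sm F ν' with hm'
  set s' := mom F ν' r with hs'
  have e1 : (sm F fun i => ν' i * (cA1 κ m * D' - (a + b * m) * r i)) =
      (cA1 κ m * D') * m' + -(a + b * m) * s' := by
    unfold mom at hs'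
    rw [hs', hm', ← ce_lin2]
    exact ce_congr fun i _ => by ring
  have h2 : m' ≤ m := ce_le h1
  have h3 : 0 ≤ s' := ce_nonneg fun i hi => mul_nonneg (h0 i hi) (hr i hi)
  rw [e1]
  unfold psi cA cA1
  have k3 := mul_nonneg (mul_nonneg hb (sub_nonneg.2 h2)) h3
  have k4 := mul_nonneg (mul_nonneg hκ (sq_nonneg (m - m'))) hD'
  nlinarith

variable {κ a b : ℚ} {Λ t : ℕ} {F : List ℕ} {r μ f : ℕ → ℚ} {D D' θ τ : ℚ}

theorem evt_foreign (hκ : 0 ≤ κ) (hb : 0 ≤ b) (ht : t ≤ Λ + 1) (hr : ∀ i ∈ F, IsN Λ (r i)) (hμ : ∀ i ∈ F, 0 ≤ μ i)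
    (hm : sm F μ ≤ 1) (hf : ∀ i ∈ F, 0 ≤ f i ∧ f i ≤ 1) (hD0 : 0 ≤ D') (hD1 : D' ≤ D) (hθ0 : 0 < θ) (hθ1 : θ ≤ 1)
    (hτ : 0 ≤ τ) :
    τ / θ * (Phi κ a b Λ F r (fun i => μ i * (1 - θ * f i)) D' - val κ a b F r μ D t) ≤
      sm F fun i => pre r μ t i * f i * (τ * (cB κ a b (sm F (pre r μ t)) (mom F (pre r μ t) r) D' (r i) +
        f i * cK b (sm F (pre r μ t)) (mom F (pre r μ t) r) (r i) - cA κ (sm F (pre r μ t)) * (D - D'))) := by
  have hν := ce_pre0 (r := r) (t := t) hμ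
  have hm1 := ce_pre1 (r := r) (t := t) hμ hm
  have hr0 := ce_r0 hr
  have h1 := Phi_le κ a b F r (fun i => μ i * (1 - θ * f i)) D' ht
  unfold val at h1 ⊢
  rw [ce_pre_mul r μ (fun i => θ * f i) t] at h1
  have h2 := psi_kill (a := a) (φ := fun i => θ * f i) (D := D) hκ hb hν hr0 hD0
  set ν := pre r μ t
  set m := sm F ν
  set s := mom F ν r with hs
  have hm0 : 0 ≤ m := ce_nonneg hν
  have hs0 : 0 ≤ s := ce_nonneg fun i hi => mul_nonneg (hν i hi) (hr0 i hi)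
  have hA : 0 ≤ cA κ m * (D - D') := by
    unfold cA
    have := mul_nonneg hκ hm0
    exact mul_nonneg (mul_nonneg (by linarith) (by linarith)) (by linarith)
  set X := sm F fun i => ν i * f i * (cB κ a b m s D' (r i) + f i * cK b m s (r i)) with hX
  set S := sm F fun i => ν i * f i with hS
  have hS1 : S ≤ 1 := (ce_le fun i hi => mul_le_of_le_one_right (hν i hi) (hf i hi).2).trans hm1
  have h3 : (sm F fun i => ν i * (θ * f i) * (cB κ a b m s D' (r i) + θ * f i * cK b m s (r i))) ≤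
      θ * X := by
    have := ce_lin2 F θ 0 (fun i => ν i * f i * (cB κ a b m s D' (r i) + f i * cK b m s (r i))) ν
    rw [zero_mul, add_zero] at this
    rw [hX, ← this]
    refine ce_le fun i hi => ?_
    have k0 : 0 ≤ cK b m s (r i) := by
      unfold cK
      have := mul_nonneg hm0 (hr0 i hi)
      positivity
    have k1 := mul_nonneg (mul_nonneg (mul_nonneg (mul_nonneg hθ0.le (sub_nonneg.2 hθ1)) (hν i hi))
      (sq_nonneg (f i))) k0
    nlinarith
  have e4 : (sm F fun i => ν i * f i * (τ * (cB κ a b m s D' (r i) + f i * cK b m s (r i) -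
      cA κ m * (D - D')))) = τ * X + -(τ * (cA κ m * (D - D'))) * S := by
    rw [hX, hS, ← ce_lin2]
    exact ce_congr fun i _ => by ring
  rw [e4]
  have h5 : Phi κ a b Λ F r (fun i => μ i * (1 - θ * f i)) D' - psi κ a b m s D ≤
      θ * (X - cA κ m * (D - D') * S) := by
    have : θ * S ≤ 1 := by nlinarith
    have := mul_le_mul_of_nonneg_left this hA
    nlinarith
  have h6 := mul_le_mul_of_nonneg_left h5 (div_nonneg hτ hθ0.le)
  refine h6.trans (le_of_eq ?_)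
  field_simp
  ring

theorem evt_own {η ro : ℚ} (hκ : 0 ≤ κ) (hκ1 : κ ≤ 1) (ha : 0 < a) (hb : 0 ≤ b) (ht : t ≤ Λ + 1) (hr : ∀ i ∈ F, IsN Λ (r i))
    (hμ : ∀ i ∈ F, 0 ≤ μ i) (hm : sm F μ ≤ 1) (hf : ∀ i ∈ F, 0 ≤ f i ∧ f i ≤ 1) (hD0 : 0 ≤ D') (hD1 : D' ≤ D)
    (hD2 : D' ≤ ro) (hθ0 : 0 < θ) (hθ1 : θ ≤ 1) (hη0 : 0 ≤ η) (hη1 : η ≤ 1) (hτ1 : τ ≤ 1 + η)
    (hτ0 : 1 - η * (1 - sm F fun i => pre r μ t i * f i) ≤ τ) :
    τ / θ * (Phi κ a b Λ F r (fun i => μ i * (1 - θ * f i)) D' - val κ a b F r μ D t) ≤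
      (1 + κ * sm F (pre r μ t) ^ 2) * ro -
        sm F (fun i => pre r μ t i * (1 - f i) *
          max 0 (cA1 κ (sm F (pre r μ t)) * ro - (a + b * sm F (pre r μ t)) * r i)) - val κ a b F r μ D t +
        2 * η * ro + η * (1 - sm F fun i => pre r μ t i * f i) * val κ a b F r μ D t := by
  have hν := ce_pre0 (r := r) (t := t) hμ
  have hm1 := ce_pre1 (r := r) (t := t) hμ hm
  have hr0 := ce_r0 hr
  have hval : val κ a b F r μ D t = psi κ a b (sm F (pre r μ t)) (mom F (pre r μ t) r) D := rfl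
  set V := val κ a b F r μ D t
  have hpre : ∀ i, pre r μ t i = if r i < t then μ i else 0 := fun _ => rfl
  set ν := pre r μ t
  set m := sm F ν with hmdef
  set s := mom F ν r with hs
  have hm0 : 0 ≤ m := ce_nonneg hν
  have hs0 : 0 ≤ s := ce_nonneg fun i hi => mul_nonneg (hν i hi) (hr0 i hi)
  set g := a + b * m with hg
  have hg0 : 0 < g := by have := mul_nonneg hb hm0; linarith
  set c1 := cA1 κ m with hc1
  have hc0 : 0 ≤ c1 := by
    rw [hc1]; unfold cA1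
    have := mul_nonneg hκ hm0
    linarith
  have hA0 : 0 ≤ cA κ m := by
    unfold cA
    have := mul_nonneg hκ hm0
    exact mul_nonneg (by linarith) (by linarith)
  have eA : cA κ m + m * c1 = 1 + κ * m ^ 2 := by rw [hc1]; unfold cA cA1; ring
  set S := sm F fun i => ν i * f i with hS
  have hS1 : S ≤ 1 := (ce_le fun i hi => mul_le_of_le_one_right (hν i hi) (hf i hi).2).trans hm1
  have hS0 : 0 ≤ S := ce_nonneg fun i hi => mul_nonneg (hν i hi) (hf i hi).1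
  have hV0 : 0 ≤ V := by
    rw [hval]; unfold psi
    exact add_nonneg (mul_nonneg hA0 (by linarith)) (mul_nonneg hg0.le hs0)
  have h1 := Phi_le κ a b F r (fun i => μ i * (1 - θ * f i)) D'
    (t := min t ⌈c1 * D' / g⌉₊) ((min_le_left _ _).trans ht)
  have hθf : ∀ i ∈ F, 0 ≤ θ * f i ∧ θ * f i ≤ 1 := fun i hi =>
    ⟨mul_nonneg hθ0.le (hf i hi).1, by nlinarith [(hf i hi).1, (hf i hi).2]⟩
  have hν' : ∀ i ∈ F, pre r (fun i => μ i * (1 - θ * f i)) (min t ⌈c1 * D' / g⌉₊) i =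
      if g * r i < c1 * D' then ν i * (1 - θ * f i) else 0 := by
    intro i hi
    obtain ⟨k, -, hk⟩ := hr i hi
    have e : r i < ((min t ⌈c1 * D' / g⌉₊ : ℕ) : ℚ) ↔ r i < t ∧ g * r i < c1 * D' := by
      rw [hk, Nat.cast_lt, lt_min_iff, Nat.lt_ceil, lt_div_iff₀ hg0, Nat.cast_lt, mul_comm g]
    rw [hpre]
    unfold pre
    simp only [e]
    by_cases h1 : r i < t <;> by_cases h2 : g * r i < c1 * D' <;> simp [h1, h2]
  have h2 := psi_sub (a := a) (ν := ν)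
    (ν' := pre r (fun i => μ i * (1 - θ * f i)) (min t ⌈c1 * D' / g⌉₊)) hκ hb
    (fun i hi => by
      rw [hν' i hi]
      split_ifs
      · exact mul_nonneg (hν i hi) (by linarith [(hθf i hi).2])
      · exact le_rfl)
    (fun i hi => by
      rw [hν' i hi]
      split_ifs
      · exact mul_le_of_le_one_right (hν i hi) (by linarith [(hθf i hi).1])
      · exact hν i hi) hr0 hD0
  set W := sm F fun i => ν i * max 0 (c1 * D' - g * r i) with hW
  set B := sm F fun i => ν i * f i * max 0 (c1 * D' - g * r i) with hB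
  have e3 : (sm F fun i => pre r (fun i => μ i * (1 - θ * f i)) (min t ⌈c1 * D' / g⌉₊) i *
      (c1 * D' - g * r i)) = 1 * W + -θ * B := by
    rw [hW, hB, ← ce_lin2]
    refine ce_congr fun i hi => ?_
    rw [hν' i hi]
    split_ifs with h
    · rw [max_eq_right (by linarith)]; ring
    · rw [max_eq_left (by linarith)]; ring
  have h4 : Phi κ a b Λ F r (fun i => μ i * (1 - θ * f i)) D' ≤ (1 + κ * m ^ 2) * D' - (1 * W + -θ * B) := by
    rw [← e3]
    exact h1.trans h2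
  have hW1 : c1 * D' * m + -g * s ≤ W := by
    unfold mom at hs
    rw [hs, hmdef, ← ce_lin2]
    refine ce_le fun i hi => ?_
    have := mul_le_mul_of_nonneg_left (le_max_right 0 (c1 * D' - g * r i)) (hν i hi)
    linarith
  have hA : (1 + κ * m ^ 2) * D' - W - V ≤ 0 := by
    rw [hval, ← eA]
    unfold psi
    have := mul_nonneg hA0 (sub_nonneg.2 hD1)
    rw [← hg]
    linarith
  set Q := (1 + κ * m ^ 2) * D' - W - V + B with hQ
  have hτ : 0 ≤ τ := by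
    have := mul_le_one₀ hη1 (sub_nonneg.2 hS1) (by linarith)
    linarith
  have h5 : τ / θ * (Phi κ a b Λ F r (fun i => μ i * (1 - θ * f i)) D' - V) ≤ τ * Q := by
    have k : Phi κ a b Λ F r (fun i => μ i * (1 - θ * f i)) D' - V ≤ θ * Q := by
      have := mul_nonneg (sub_nonneg.2 hθ1) (neg_nonneg.2 hA)
      rw [hQ]
      linarith
    refine (mul_le_mul_of_nonneg_left k (div_nonneg hτ hθ0.le)).trans (le_of_eq ?_)
    field_simp
  have eWB : 1 * W + -1 * B = sm F fun i => ν i * (1 - f i) * max 0 (c1 * D' - g * r i) := by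
    rw [hW, hB, ← ce_lin2]
    exact ce_congr fun i _ => by ring
  have hWB0 : 0 ≤ 1 * W + -1 * B := by
    rw [eWB]
    exact ce_nonneg fun i hi => mul_nonneg (mul_nonneg (hν i hi) (by linarith [(hf i hi).2])) (le_max_left _ _)
  have hWB1 : 1 * W + -1 * B ≤ c1 * D' * m := by
    have := ce_lin2 F (c1 * D') 0 ν ν
    rw [zero_mul, add_zero] at this
    rw [eWB, hmdef, ← this]
    refine ce_le fun i hi => ?_
    have k1 : max 0 (c1 * D' - g * r i) ≤ c1 * D' :=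
      max_le (mul_nonneg hc0 hD0) (by linarith [mul_nonneg hg0.le (hr0 i hi)])
    have k2 : ν i * (1 - f i) ≤ ν i := mul_le_of_le_one_right (hν i hi) (by linarith [(hf i hi).1])
    have := mul_le_mul k2 k1 (le_max_left _ _) (hν i hi)
    linarith
  have hQ0 : -V ≤ Q := by
    have := mul_nonneg hA0 hD0
    rw [hQ, ← eA]
    linarith
  have hκm : κ * m ^ 2 ≤ 1 := mul_le_one₀ hκ1 (sq_nonneg m) (pow_le_one₀ hm0 hm1)
  have hQ1 : Q ≤ 2 * ro := by
    have := mul_le_mul_of_nonneg_right hκm hD0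
    rw [hQ]
    linarith
  have hro : 0 ≤ ro := hD0.trans hD2
  have h6 : τ * Q ≤ Q + 2 * η * ro + η * (1 - S) * V := by
    have k0 := mul_nonneg hη0 (sub_nonneg.2 hS1)
    have k1 := mul_nonneg k0 hV0
    have k2 := mul_nonneg hη0 hro
    rcases le_total 0 Q with h | h
    · have k3 := mul_le_mul_of_nonneg_right hτ1 h
      have k4 := mul_le_mul_of_nonneg_left hQ1 hη0
      linarith
    · have k3 := mul_le_mul_of_nonpos_right hτ0 h
      have k4 := mul_le_mul_of_nonneg_left hQ0 k0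
      linarith
  have h7 : (sm F fun i => ν i * (1 - f i) * max 0 (c1 * ro - g * r i)) ≤
      1 * (1 * W + -1 * B) + c1 * (ro - D') * m := by
    rw [eWB, hmdef, ← ce_lin2]
    refine ce_le fun i hi => ?_
    have k0 := mul_nonneg hc0 (sub_nonneg.2 hD2)
    have k1 : max 0 (c1 * ro - g * r i) ≤ max 0 (c1 * D' - g * r i) + c1 * (ro - D') :=
      max_le (add_nonneg (le_max_left _ _) k0) (by linarith [le_max_right 0 (c1 * D' - g * r i)])
    have k2 : ν i * (1 - f i) ≤ ν i := mul_le_of_le_one_right (hν i hi) (by linarith [(hf i hi).1])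
    have k3 : 0 ≤ ν i * (1 - f i) := mul_nonneg (hν i hi) (by linarith [(hf i hi).2])
    have k4 := mul_le_mul_of_nonneg_left k1 k3
    have k5 := mul_le_mul_of_nonneg_right k2 k0
    linarith
  have h8 := mul_nonneg hA0 (sub_nonneg.2 hD2)
  have h9 : Q ≤ (1 + κ * m ^ 2) * ro -
      (sm F fun i => ν i * (1 - f i) * max 0 (c1 * ro - g * r i)) - V := by
    rw [hQ, ← eA]
    linarith
  linarith

theorem evt_free {a' b' h L : ℚ} {ρ : ℕ → ℚ} (hκ : 0 ≤ κ) (hb0 : 0 ≤ b') (hb1 : b' ≤ 1) (ht : t ≤ Λ + 1)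
    (hr : ∀ i ∈ F, IsN Λ (r i)) (hμ : ∀ i ∈ F, 0 ≤ μ i) (hm : sm F μ ≤ 1) (hρ : ∀ i ∈ F, 0 ≤ ρ i ∧ ρ i ≤ 1)
    (hD : 0 ≤ D) (hh : 0 ≤ h) (ha' : |a' - a| ≤ L * h) (hb' : |b' - b| ≤ L * h) :
    Phi κ a' b' Λ F r (fun i => μ i * (1 - h * ρ i)) D - val κ a b F r μ D t ≤
      h * sm F (fun i => pre r μ t i * ρ i * cB κ a b (sm F (pre r μ t)) (mom F (pre r μ t) r) D (r i)) +
        (a' - a + sm F (pre r μ t) * (b' - b)) * mom F (pre r μ t) r +
        h ^ 2 * (3 * L + 1) * mom F (pre r μ t) r := by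
  have hν := ce_pre0 (r := r) (t := t) hμ
  have hm1 := ce_pre1 (r := r) (t := t) hμ hm
  have hr0 := ce_r0 hr
  have h1 := Phi_le κ a' b' F r (fun i => μ i * (1 - h * ρ i)) D ht
  unfold val at h1 ⊢
  rw [ce_pre_mul r μ (fun i => h * ρ i) t] at h1
  have h2 := psi_kill (a := a') (φ := fun i => h * ρ i) (D := D) hκ hb0 hν hr0 hD
  set ν := pre r μ t
  set m := sm F ν with hmdef
  set s := mom F ν r with hs
  have hm0 : 0 ≤ m := ce_nonneg hν
  have hs0 : 0 ≤ s := ce_nonneg fun i hi => mul_nonneg (hν i hi) (hr0 i hi)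
  set l := L * h with hl
  have hl0 : 0 ≤ l := (abs_nonneg _).trans ha'
  set X := sm F (fun i => ν i * ρ i * cB κ a b m s D (r i)) with hX
  have h3 : (sm F fun i => ν i * (h * ρ i) * (cB κ a' b' m s D (r i) + h * ρ i * cK b' m s (r i))) ≤
      h * X + (2 * h * l + h ^ 2 / 2) * s + (h * l + h ^ 2 / 2) * s * m + 0 * m := by
    have hs' := hs
    unfold mom at hs'
    have := ce_lin F h (2 * h * l + h ^ 2 / 2) ((h * l + h ^ 2 / 2) * s) 0
      (fun i => ν i * ρ i * cB κ a b m s D (r i)) (fun i => ν i * r i) ν ν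
    rw [← hs', ← hmdef, ← hX] at this
    rw [← this]
    refine ce_le fun i hi => ?_
    have hri := hr0 i hi
    obtain ⟨ρ0, ρ1⟩ := hρ i hi
    obtain ⟨a1, -⟩ := abs_le.1 ha'
    obtain ⟨b1, -⟩ := abs_le.1 hb'
    have k1 : cB κ a' b' m s D (r i) ≤ cB κ a b m s D (r i) + (2 * l * r i + l * s) := by
      unfold cB
      have j1 : -(b' - b) * m ≤ l := by nlinarith
      have j2 := mul_le_mul_of_nonneg_right (show -(a' - a) + -(b' - b) * m ≤ 2 * l by linarith) hri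
      have j3 := mul_le_mul_of_nonneg_right (show -(b' - b) ≤ l by linarith) hs0
      nlinarith
    have k2 : ρ i * cK b' m s (r i) ≤ (r i + s) / 2 := by
      unfold cK
      have j0 := mul_nonneg hm0 hri
      have j1 : m * r i ≤ r i := mul_le_of_le_one_left hri hm1
      have j2 : b' * (m * r i + s) ≤ m * r i + s := mul_le_of_le_one_left (by linarith) hb1
      have j3 : ρ i * (b' * (m * r i + s) / 2) ≤ b' * (m * r i + s) / 2 :=
        mul_le_of_le_one_left (by positivity) ρ1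
      linarith
    have k3 : cB κ a' b' m s D (r i) + h * ρ i * cK b' m s (r i) ≤
        cB κ a b m s D (r i) + ((2 * l * r i + l * s) + h * ((r i + s) / 2)) := by
      have := mul_le_mul_of_nonneg_left k2 hh
      nlinarith
    have k4 := mul_le_mul_of_nonneg_left k3 (mul_nonneg (hν i hi) (mul_nonneg hh ρ0))
    have k5 : ν i * (h * ρ i) ≤ ν i * h :=
      mul_le_mul_of_nonneg_left (mul_le_of_le_one_right hh ρ1) (hν i hi)
    have k6 := mul_le_mul_of_nonneg_right k5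
      (show 0 ≤ (2 * l * r i + l * s) + h * ((r i + s) / 2) by positivity)
    nlinarith
  have h4 : (h * l + h ^ 2 / 2) * s * m ≤ (h * l + h ^ 2 / 2) * s :=
    mul_le_of_le_one_right (by positivity) hm1
  have e5 : psi κ a' b' m s D = psi κ a b m s D + (a' - a + m * (b' - b)) * s := by
    unfold psi; ring
  have e6 : h ^ 2 * (3 * L + 1) * s = (3 * h * l + h ^ 2) * s := by rw [hl]; ring
  rw [e6]
  nlinarith

end Crest.Agent.R310
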