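import Crest.Agent.R310.CDefs

/-!
# R310 / CPrice : comparison of the prices with the ideal prices (`e = ζ`, `η = ζ²`, `κ = 2 ζ²`)

`0 ≤ cA ≤ 2`, `|cA1 - 1| ≤ κ`, `0 ≤ cK ≤ (r + s) / 2`, `a + b m ≤ 4`.
`price_evt` (1): `D' ≤ D` and `D' ≤ r + R ≤ 2 r + D / (1 + ζ)`; the convex combination with weight `2ζ` gives `(1 + ζ²) D' ≤ D + 8 ζ r`.
(2): `- τ cA (D - D') + ζ² cA D ≤ ζ² cA D'`.
`price_exists`: induction on the list of candidates, starting from `(cB D, 0)` if `0 < ρ`, and from `(min (cB D) (cL 0 - ζ² cA D), 0)` otherwise;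
`0 < ff σ (d / R)` gives `d ≤ R (1 - ff σ (d / R) / σ)`.
`pair_le`: trivial if `ff σ (d / R) = 1`; otherwise `ff σ (q / R) ≤ ff σ (d / R) < 1` gives `R ≤ 3 q`, `q = rl + ri`;
`max 0 (rl - g0 ri) ≤ max 0 (cA1 rl - g ri) + ε ri + κ rl`, `cL (a + ε) = cL a - ε ri`.
-/

set_option autoImplicit false
set_option linter.unusedVariables false

namespace Crest.Agent.R310

variable {ζ a b σ m s r R D : ℚ}

namespace CP

theorem cA_bnd {κ m : ℚ} (hκ0 : 0 ≤ κ) (hκ1 : κ ≤ 1) (hm0 : 0 ≤ m) (hm1 : m ≤ 1) : 0 ≤ cA κ m ∧ cA κ m ≤ 2 := by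
  unfold cA
  have h1 : 0 ≤ κ * m := mul_nonneg hκ0 hm0
  have h2 : κ * m ≤ 1 := by nlinarith
  exact ⟨mul_nonneg (by linarith) (by linarith), by nlinarith⟩

theorem cA1_bnd {κ m : ℚ} (hκ0 : 0 ≤ κ) (hm0 : 0 ≤ m) (hm1 : m ≤ 1) : 1 - κ ≤ cA1 κ m ∧ cA1 κ m ≤ 1 + κ := by
  unfold cA1
  constructor <;> nlinarith [mul_nonneg hκ0 hm0, mul_nonneg hκ0 (sub_nonneg.2 hm1)]

theorem cK_bnd {b m s r : ℚ} (hb0 : 0 ≤ b) (hb1 : b ≤ 1) (hm0 : 0 ≤ m) (hm1 : m ≤ 1) (hs : 0 ≤ s) (hr : 0 ≤ r) :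
    0 ≤ cK b m s r ∧ cK b m s r ≤ (r + s) / 2 := by
  unfold cK
  have h1 : 0 ≤ m * r := mul_nonneg hm0 hr
  have h2 : m * r ≤ r := by nlinarith
  have h3 : b * (m * r + s) ≤ m * r + s := by nlinarith
  have h4 : 0 ≤ b * (m * r + s) := mul_nonneg hb0 (by linarith)
  constructor <;> linarith

theorem ff_bnd (σ s : ℚ) : 0 ≤ ff σ s ∧ ff σ s ≤ 1 := by
  unfold ff
  exact ⟨le_max_left _ _, max_le zero_le_one (min_le_left _ _)⟩

theorem ff_anti {σ s s' : ℚ} (hσ : 0 ≤ σ) (h : s ≤ s') : ff σ s' ≤ ff σ s := by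
  unfold ff
  exact max_le_max le_rfl (min_le_min le_rfl (mul_le_mul_of_nonneg_left (by linarith) hσ))

theorem le_of_ff_pos {σ d R : ℚ} (hσ : 0 < σ) (hR : 0 < R) (h : 0 < ff σ (d / R)) : d ≤ R * (1 - ff σ (d / R) / σ) := by
  have h1 : ff σ (d / R) ≤ σ * (1 - d / R) := by
    unfold ff at h ⊢
    rcases le_total 0 (min 1 (σ * (1 - d / R))) with h0 | h0
    · rw [max_eq_right h0]; exact min_le_right _ _
    · rw [max_eq_left h0] at h; exact absurd h (lt_irrefl _)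
  have h2 : ff σ (d / R) / σ ≤ 1 - d / R := by rw [div_le_iff₀ hσ]; linarith
  have h3 : R * (d / R) = d := by field_simp
  nlinarith

end CP

open CP

theorem price_evt (hζ0 : 0 < ζ) (hζ1 : ζ ≤ 1 / 400) (ha0 : 0 ≤ a) (ha1 : a ≤ 3) (hb0 : 0 ≤ b) (hb1 : b ≤ 1) (hσ : 0 < σ)
    (hm0 : 0 ≤ m) (hm1 : m ≤ 1) (hs : 0 ≤ s) (hr : 0 ≤ r) (hR : 0 < R) (hc : (1 + ζ) * R ≤ r + D) {τ f D' : ℚ}
    (hτ0 : 1 - ζ ^ 2 ≤ τ) (hτ1 : τ ≤ 1 + ζ ^ 2) (hf0 : 0 ≤ f) (hf1 : f ≤ 1) (hD0 : 0 ≤ D') (hD1 : D' ≤ D)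
    (hD2 : D' ≤ r + R * (1 - f / σ)) :
    τ * (cB (2 * ζ ^ 2) a b m s D' r + f * cK b m s r - cA (2 * ζ ^ 2) m * (D - D')) ≤
        cB (2 * ζ ^ 2) a b m s D r + f * cK b m s r + 24 * ζ * (r + s) ∧
      τ * (cB (2 * ζ ^ 2) a b m s D' r + f * cK b m s r - cA (2 * ζ ^ 2) m * (D - D')) + ζ ^ 2 * (cA (2 * ζ ^ 2) m * D) ≤
        cL a b σ m s r R f + 24 * ζ * (r + R + s) := by
  have hz2 : ζ ^ 2 ≤ ζ / 400 := by nlinarith
  have hz0 : 0 < ζ ^ 2 := by positivity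
  obtain ⟨hA0, hA1⟩ := cA_bnd (κ := 2 * ζ ^ 2) (by positivity) (by linarith) hm0 hm1
  obtain ⟨hB0, hB1⟩ := cA1_bnd (κ := 2 * ζ ^ 2) (by positivity) hm0 hm1
  obtain ⟨hK0, hK1⟩ := cK_bnd hb0 hb1 hm0 hm1 hs hr
  unfold cB cL
  generalize cA (2 * ζ ^ 2) m = A at *
  generalize cA1 (2 * ζ ^ 2) m = A1 at *
  generalize cK b m s r = K at *
  have hfσ : 0 ≤ R * (f / σ) := by positivity
  have hD3 : D' ≤ r + R := by linarith
  have hbm : 0 ≤ b * m := mul_nonneg hb0 hm0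
  have hbm1 : b * m ≤ 1 := by nlinarith
  have hg0 : 0 ≤ (a + b * m) * r := mul_nonneg (by linarith) hr
  have hg1 : (a + b * m) * r ≤ 4 * r := by nlinarith
  have hbs0 : 0 ≤ b * s := mul_nonneg hb0 hs
  have hbs1 : b * s ≤ s := by nlinarith
  have hfK0 : 0 ≤ f * K := mul_nonneg hf0 hK0
  have hfK1 : f * K ≤ K := by nlinarith
  set E := -((a + b * m) * r) - b * s + f * K with hE
  have hE0 : -(5 * (r + s)) ≤ E := by linarith
  have hE1 : E ≤ 5 * (r + s) := by linarith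
  have hτE : τ * E ≤ E + ζ ^ 2 * (5 * (r + s)) := by
    rcases le_total 0 E with h | h
    · linarith [mul_le_mul_of_nonneg_right hτ1 h, mul_le_mul_of_nonneg_left hE1 hz0.le]
    · linarith [mul_le_mul_of_nonpos_right hτ0 h, mul_le_mul_of_nonneg_left hE0 hz0.le]
  have hz5 : ζ ^ 2 * (5 * (r + s)) ≤ ζ * (r + s) := by
    linarith [mul_le_mul_of_nonneg_right hz2 (add_nonneg hr hs), mul_nonneg hζ0.le (add_nonneg hr hs)]
  have hτp : 0 ≤ τ := by linarith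
  have hAD : 0 ≤ A * (D - D') := mul_nonneg hA0 (by linarith)
  have hA1p : 0 ≤ A1 := by linarith
  have hA1D : 0 ≤ A1 * D' := mul_nonneg hA1p hD0
  have h1 : τ * (A1 * D') ≤ (1 + ζ ^ 2) * (A1 * D') := mul_le_mul_of_nonneg_right hτ1 hA1D
  have hsplit : τ * (A1 * D' - (a + b * m) * r - b * s + f * K - A * (D - D')) =
      τ * (A1 * D') + τ * E - τ * (A * (D - D')) := by rw [hE]; ring
  rw [hsplit]
  have hζr : 0 ≤ ζ * r := by positivity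
  have hζs : 0 ≤ ζ * s := by positivity
  have hζR : 0 ≤ ζ * R := by positivity
  constructor
  · have h2 : (1 + ζ) * D' ≤ (2 + ζ) * r + D := by
      linarith [mul_le_mul_of_nonneg_left hD3 (by linarith : 0 ≤ 1 + ζ)]
    have h3 : (1 + ζ ^ 2) * D' ≤ D + 3 * ζ * r := by
      linarith [mul_le_mul_of_nonneg_left h2 hζ0.le, mul_le_mul_of_nonneg_left hD1 (by linarith : 0 ≤ 1 - ζ),
        mul_le_mul_of_nonneg_right hz2 hr]
    have h4 : A1 * ((1 + ζ ^ 2) * D') ≤ A1 * (D + 3 * ζ * r) := mul_le_mul_of_nonneg_left h3 hA1p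
    have h5 : A1 * (ζ * r) ≤ 2 * (ζ * r) := mul_le_mul_of_nonneg_right (by linarith) hζr
    have h6 : 0 ≤ τ * (A * (D - D')) := mul_nonneg hτp hAD
    linarith
  · have h2 : (1 - ζ ^ 2) * (A * (D - D')) ≤ τ * (A * (D - D')) := mul_le_mul_of_nonneg_right hτ0 hAD
    have h3 : 0 ≤ (1 - 2 * ζ ^ 2) * (A * (D - D')) := mul_nonneg (by linarith) hAD
    have h4 : A * D' ≤ 2 * D' := mul_le_mul_of_nonneg_right hA1 hD0
    have h5 : ζ ^ 2 * (A * D') ≤ ζ ^ 2 * (2 * D') := mul_le_mul_of_nonneg_left h4 hz0.le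
    have h6 : A1 * D' ≤ (1 + 2 * ζ ^ 2) * D' := mul_le_mul_of_nonneg_right hB1 hD0
    have h7 : (1 + ζ ^ 2) * (A1 * D') ≤ (1 + ζ ^ 2) * ((1 + 2 * ζ ^ 2) * D') := mul_le_mul_of_nonneg_left h6 (by linarith)
    have h8 : (1 + ζ ^ 2) * (1 + 2 * ζ ^ 2) ≤ 1 + 4 * ζ ^ 2 := by
      linarith [mul_le_mul_of_nonneg_left (by linarith : ζ ^ 2 ≤ 1 / 2) hz0.le]
    have h9 : (1 + ζ ^ 2) * (1 + 2 * ζ ^ 2) * D' ≤ (1 + 4 * ζ ^ 2) * D' := mul_le_mul_of_nonneg_right h8 hD0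
    have h10 : ζ ^ 2 * D' ≤ ζ / 400 * (r + R) := mul_le_mul hz2 hD3 hD0 (by positivity)
    linarith

theorem price_free (hζ0 : 0 < ζ) (hζ1 : ζ ≤ 1 / 400) (hm0 : 0 ≤ m) (hm1 : m ≤ 1) (hs : 0 ≤ s) (hr : 0 ≤ r) (hR : 0 < R)
    (hD : 0 ≤ D) (hc : D ≤ r + (1 + ζ) * R) :
    cB (2 * ζ ^ 2) a b m s D r + ζ ^ 2 * (cA (2 * ζ ^ 2) m * D) ≤ cL a b σ m s r R 0 + 24 * ζ * (r + R + s) := by
  have hz2 : ζ ^ 2 ≤ ζ / 400 := by nlinarith
  have hz0 : 0 < ζ ^ 2 := by positivity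
  obtain ⟨hA0, hA1⟩ := cA_bnd (κ := 2 * ζ ^ 2) (by positivity) (by linarith) hm0 hm1
  obtain ⟨hB0, hB1⟩ := cA1_bnd (κ := 2 * ζ ^ 2) (by positivity) hm0 hm1
  unfold cB cL
  generalize cA (2 * ζ ^ 2) m = A at *
  generalize cA1 (2 * ζ ^ 2) m = A1 at *
  have h1 : A1 * D ≤ (1 + 2 * ζ ^ 2) * D := mul_le_mul_of_nonneg_right hB1 hD
  have h2 : A * D ≤ 2 * D := mul_le_mul_of_nonneg_right hA1 hD
  have h3 : ζ ^ 2 * (A * D) ≤ ζ ^ 2 * (2 * D) := mul_le_mul_of_nonneg_left h2 hz0.le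
  have hζr : 0 ≤ ζ * r := by positivity
  have hζs : 0 ≤ ζ * s := by positivity
  have hζR : 0 ≤ ζ * R := by positivity
  have h4 : D ≤ 2 * (r + R) := by nlinarith
  have h5 : ζ ^ 2 * D ≤ ζ / 400 * (2 * (r + R)) := mul_le_mul hz2 h4 hD (by positivity)
  rw [zero_div]
  linarith

/-- `ro o` distance of `o` to the client, `dd o` distance of `o` to the facility -/
theorem price_exists (hζ0 : 0 < ζ) (hζ1 : ζ ≤ 1 / 400) (ha0 : 0 ≤ a) (ha1 : a ≤ 3) (hb0 : 0 ≤ b) (hb1 : b ≤ 1) (hσ : 0 < σ)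
    (hm0 : 0 ≤ m) (hm1 : m ≤ 1) (hs : 0 ≤ s) (hr : 0 ≤ r) (hR : 0 < R) (hD : 0 ≤ D) (hc : (1 + ζ) * R ≤ r + D)
    {F : List ℕ} {τ ro dd : ℕ → ℚ} {ρ : ℚ} (hτ : ∀ o ∈ F, 1 - ζ ^ 2 ≤ τ o ∧ τ o ≤ 1 + ζ ^ 2)
    (hro : ∀ o ∈ F, 0 ≤ ro o ∧ ro o ≤ r + dd o) (hρ : 0 < ρ → D ≤ r + (1 + ζ) * R) :
    ∃ Λ φ : ℚ, 0 ≤ φ ∧ φ ≤ 1 ∧
      (∀ o ∈ F, 0 < ff σ (dd o / R) → τ o * (cB (2 * ζ ^ 2) a b m s (min D (ro o)) r + ff σ (dd o / R) * cK b m s r -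
        cA (2 * ζ ^ 2) m * (D - min D (ro o))) ≤ Λ) ∧
      (0 < ρ → cB (2 * ζ ^ 2) a b m s D r ≤ Λ) ∧
      Λ ≤ cB (2 * ζ ^ 2) a b m s D r + φ * cK b m s r + 24 * ζ * (r + s) ∧
      Λ + ζ ^ 2 * (cA (2 * ζ ^ 2) m * D) ≤ cL a b σ m s r R φ + 24 * ζ * (r + R + s) := by
  have hζrs : 0 ≤ 24 * ζ * (r + s) := by positivity
  have hζrs' : 0 ≤ 24 * ζ * (r + R + s) := by positivity
  induction F with
  | nil =>
    by_cases h : 0 < ρ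
    · refine ⟨cB (2 * ζ ^ 2) a b m s D r, 0, le_rfl, zero_le_one, by simp, fun _ => le_rfl, by linarith, ?_⟩
      exact price_free hζ0 hζ1 hm0 hm1 hs hr hR hD (hρ h)
    · refine ⟨min (cB (2 * ζ ^ 2) a b m s D r) (cL a b σ m s r R 0 - ζ ^ 2 * (cA (2 * ζ ^ 2) m * D)), 0, le_rfl,
        zero_le_one, by simp, fun h' => absurd h' h, ?_, ?_⟩
      · linarith [min_le_left (cB (2 * ζ ^ 2) a b m s D r) (cL a b σ m s r R 0 - ζ ^ 2 * (cA (2 * ζ ^ 2) m * D))]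
      · linarith [min_le_right (cB (2 * ζ ^ 2) a b m s D r) (cL a b σ m s r R 0 - ζ ^ 2 * (cA (2 * ζ ^ 2) m * D))]
  | cons o F ih =>
    obtain ⟨Λ, φ, h0, h1, h2, h3, h4, h5⟩ := ih (fun o' ho' => hτ o' (List.mem_cons_of_mem _ ho'))
      (fun o' ho' => hro o' (List.mem_cons_of_mem _ ho'))
    by_cases h : 0 < ff σ (dd o / R) ∧ Λ ≤ τ o * (cB (2 * ζ ^ 2) a b m s (min D (ro o)) r + ff σ (dd o / R) * cK b m s r -
        cA (2 * ζ ^ 2) m * (D - min D (ro o)))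
    · obtain ⟨hp, hle⟩ := h
      obtain ⟨ht0, ht1⟩ := hτ o List.mem_cons_self
      obtain ⟨hr0, hr1⟩ := hro o List.mem_cons_self
      obtain ⟨hf0, hf1⟩ := ff_bnd σ (dd o / R)
      have hd := le_of_ff_pos hσ hR hp
      obtain ⟨e1, e2⟩ := price_evt hζ0 hζ1 ha0 ha1 hb0 hb1 hσ hm0 hm1 hs hr hR hc ht0 ht1 hf0 hf1
        (D' := min D (ro o)) (le_min hD hr0) (min_le_left _ _) ((min_le_right _ _).trans (by linarith))
      refine ⟨_, ff σ (dd o / R), hf0, hf1, ?_, fun hρ' => (h3 hρ').trans hle, e1, e2⟩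
      intro o' ho' hp'
      rcases List.mem_cons.1 ho' with rfl | ho'
      · exact le_rfl
      · exact (h2 o' ho' hp').trans hle
    · refine ⟨Λ, φ, h0, h1, ?_, h3, h4, h5⟩
      intro o' ho' hp'
      rcases List.mem_cons.1 ho' with rfl | ho'
      · by_contra hlt
        exact h ⟨hp', (not_le.1 hlt).le⟩
      · exact h2 o' ho' hp'

theorem pair_le (hζ0 : 0 < ζ) (hζ1 : ζ ≤ 1 / 400) (ha0 : 0 ≤ a) (hb0 : 0 ≤ b) (hσ : 3 / 2 ≤ σ) (hm0 : 0 ≤ m) (hm1 : m ≤ 1)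
    (hs : 0 ≤ s) (hR : 0 < R) {ε rl ri d X φ : ℚ} (hε : 0 ≤ ε) (hl : 0 ≤ rl) (hi : 0 ≤ ri) (hd : d ≤ rl + ri)
    (hX : X ≤ cL (a + ε) b σ m s ri R φ + 24 * ζ * (ri + R + s)) :
    (1 - ff σ (d / R)) * (X - max 0 (cA1 (2 * ζ ^ 2) m * rl - (a + ε + b * m) * ri)) ≤
      (1 - ff σ ((rl + ri) / R)) * max 0 (cL a b σ m s ri R φ - max 0 (rl - (a + b * m) * ri)) +
        100 * ζ * (ri + rl + s) := by
  have hz2 : ζ ^ 2 ≤ ζ / 400 := by nlinarith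
  obtain ⟨hB0, hB1⟩ := cA1_bnd (κ := 2 * ζ ^ 2) (by positivity) hm0 hm1
  obtain ⟨hf0, hf1⟩ := ff_bnd σ (d / R)
  obtain ⟨hg0, hg1⟩ := ff_bnd σ ((rl + ri) / R)
  have hle : ff σ ((rl + ri) / R) ≤ ff σ (d / R) := ff_anti (by linarith) (div_le_div_of_nonneg_right hd hR.le)
  have hM : 0 ≤ max 0 (cL a b σ m s ri R φ - max 0 (rl - (a + b * m) * ri)) := le_max_left _ _
  have hE : 0 ≤ 100 * ζ * (ri + rl + s) := by positivity
  rcases eq_or_lt_of_le hf1 with h1 | h1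
  · rw [h1, sub_self, zero_mul]
    exact add_nonneg (mul_nonneg (by linarith) hM) hE
  · have h2 : σ * (1 - (rl + ri) / R) < 1 := by
      by_contra hc
      have : ff σ ((rl + ri) / R) = 1 := by
        unfold ff
        rw [min_eq_left (not_lt.1 hc), max_eq_right zero_le_one]
      linarith
    have h3 : 1 / 3 ≤ (rl + ri) / R := by
      by_contra hc
      have : 2 / 3 ≤ 1 - (rl + ri) / R := by linarith
      nlinarith
    have h4 : R ≤ 3 * (rl + ri) := by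
      rw [le_div_iff₀ hR] at h3
      linarith
    have h5 : cL (a + ε) b σ m s ri R φ = cL a b σ m s ri R φ - ε * ri := by unfold cL; ring
    have hεr : 0 ≤ ε * ri := mul_nonneg hε hi
    have h6 : max 0 (rl - (a + b * m) * ri) ≤
        max 0 (cA1 (2 * ζ ^ 2) m * rl - (a + ε + b * m) * ri) + ε * ri + 2 * ζ ^ 2 * rl := by
      have h7 : 0 ≤ 2 * ζ ^ 2 * rl := by positivity
      have h8 : (1 - 2 * ζ ^ 2) * rl ≤ cA1 (2 * ζ ^ 2) m * rl := mul_le_mul_of_nonneg_right hB0 hl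
      apply max_le
      · linarith [le_max_left 0 (cA1 (2 * ζ ^ 2) m * rl - (a + ε + b * m) * ri)]
      · nlinarith [le_max_right 0 (cA1 (2 * ζ ^ 2) m * rl - (a + ε + b * m) * ri)]
    have h9 : ζ ^ 2 * rl ≤ ζ / 400 * rl := mul_le_mul_of_nonneg_right hz2 hl
    have h10 : ζ * R ≤ ζ * (3 * (rl + ri)) := mul_le_mul_of_nonneg_left h4 hζ0.le
    have hζ1 : 0 ≤ ζ * rl := by positivity
    have hζ2 : 0 ≤ ζ * ri := by positivity
    have hζ3 : 0 ≤ ζ * s := by positivity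
    have h11 : X - max 0 (cA1 (2 * ζ ^ 2) m * rl - (a + ε + b * m) * ri) ≤
        max 0 (cL a b σ m s ri R φ - max 0 (rl - (a + b * m) * ri)) + 100 * ζ * (ri + rl + s) := by
      linarith [le_max_right 0 (cL a b σ m s ri R φ - max 0 (rl - (a + b * m) * ri))]
    generalize max 0 (cL a b σ m s ri R φ - max 0 (rl - (a + b * m) * ri)) = M at *
    generalize X - max 0 (cA1 (2 * ζ ^ 2) m * rl - (a + ε + b * m) * ri) = Y at *
    generalize 100 * ζ * (ri + rl + s) = E at *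
    nlinarith [mul_le_mul_of_nonneg_left h11 (sub_nonneg.2 hf1), mul_nonneg (sub_nonneg.2 hle) hM, mul_nonneg hf0 hE]

end Crest.Agent.R310
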