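import Crest.Agent.R310.CIL
import Crest.Agent.R310.CClk
import Crest.Agent.R310.CEvt
import Crest.Agent.R310.CPrice

/-! # R310 / CGen : the drift of the potential (owner helper33) -/

set_option autoImplicit false

namespace Crest.Agent.R310

theorem cg_ff (σ s : ℚ) : 0 ≤ ff σ s ∧ ff σ s ≤ 1 := by
  unfold ff
  exact ⟨le_max_left _ _, max_le zero_le_one (min_le_left _ _)⟩

theorem cg_isN {Λ : ℕ} {x : ℚ} (h : IsN Λ x) : 0 ≤ x := by
  obtain ⟨m, -, rfl⟩ := h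
  exact Nat.cast_nonneg m

/-- the bookkeeping of the rates -/
theorem cg_rates (S : Finset ℕ) (y ν ρ Λ : ℕ → ℚ) (f : ℕ → ℕ → ℚ)
    (hbal : ∀ i ∈ S, ν i ≠ 0 → ∑ o ∈ S, y o * f o i + ρ i = 1) :
    ∑ o ∈ S, (y o - ν o) * ∑ i ∈ S, ν i * f o i * Λ i + ∑ i ∈ S, ν i * ρ i * Λ i =
      (1 - ∑ o ∈ S, ν o) * ∑ i ∈ S, ν i * Λ i + ∑ i ∈ S, ν i * ∑ o ∈ S, ν o * ((1 - f o i) * Λ i) := by
  simp only [Finset.mul_sum]
  rw [Finset.sum_comm, ← Finset.sum_add_distrib, ← Finset.sum_add_distrib]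
  refine Finset.sum_congr rfl fun i hi => ?_
  by_cases h0 : ν i = 0
  · simp [h0]
  · have h1 := hbal i hi h0
    have e1 : ∑ o ∈ S, (y o - ν o) * (ν i * f o i * Λ i) =
        ν i * Λ i * ∑ o ∈ S, y o * f o i - ν i * Λ i * ∑ o ∈ S, ν o * f o i := by
      simp only [Finset.mul_sum, ← Finset.sum_sub_distrib]
      exact Finset.sum_congr rfl fun o _ => by ring
    have e2 : ∑ o ∈ S, ν i * (ν o * ((1 - f o i) * Λ i)) =
        ν i * Λ i * ∑ o ∈ S, ν o - ν i * Λ i * ∑ o ∈ S, ν o * f o i := by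
      simp only [Finset.mul_sum, ← Finset.sum_sub_distrib]
      exact Finset.sum_congr rfl fun o _ => by ring
    rw [e1, e2]
    linear_combination ν i * Λ i * h1

/-- the own events -/
theorem cg_own (S : Finset ℕ) (ν r : ℕ → ℚ) (f w : ℕ → ℕ → ℚ) (c V η E : ℚ) :
    ∑ o ∈ S, ν o * (c * r o - ∑ i ∈ S, ν i * (1 - f o i) * w o i - V + 2 * η * r o +
        η * (1 - ∑ i ∈ S, ν i * f o i) * E) =
      (c + 2 * η) * ∑ o ∈ S, ν o * r o - (∑ o ∈ S, ν o) * V + η * E * ((∑ o ∈ S, ν o) * (1 - ∑ o ∈ S, ν o)) +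
        ∑ i ∈ S, ν i * ∑ o ∈ S, ν o * ((1 - f o i) * (η * E - w o i)) := by
  have e1 : ∑ i ∈ S, ν i * ∑ o ∈ S, ν o * ((1 - f o i) * (η * E - w o i)) =
      ∑ o ∈ S, ν o * (η * E * (∑ i ∈ S, ν i - ∑ i ∈ S, ν i * f o i) - ∑ i ∈ S, ν i * (1 - f o i) * w o i) := by
    simp only [Finset.mul_sum, ← Finset.sum_sub_distrib]
    rw [Finset.sum_comm]
    exact Finset.sum_congr rfl fun o _ => Finset.sum_congr rfl fun i _ => by ring
  have e2 : ∀ m : ℚ, (c + 2 * η) * ∑ o ∈ S, ν o * r o - (∑ o ∈ S, ν o) * V + η * E * ((∑ o ∈ S, ν o) * (1 - m)) =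
      ∑ o ∈ S, ν o * ((c + 2 * η) * r o - V + η * E * (1 - m)) := fun m => by
    simp only [Finset.mul_sum, Finset.sum_mul, ← Finset.sum_sub_distrib, ← Finset.sum_add_distrib]
    exact Finset.sum_congr rfl fun o _ => by ring
  rw [e1, e2, ← Finset.sum_add_distrib]
  exact Finset.sum_congr rfl fun o _ => by ring

theorem cg_base (S : Finset ℕ) (ν r : ℕ → ℚ) (c0 c1 c2 : ℚ) :
    ∑ i ∈ S, ν i * ∑ o ∈ S, ν o * (c0 + c1 * r i + c2 * r o) =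
      c0 * (∑ o ∈ S, ν o) ^ 2 + (c1 + c2) * (∑ o ∈ S, ν o) * ∑ o ∈ S, ν o * r o := by
  have e1 : ∀ i, ∑ o ∈ S, ν o * (c0 + c1 * r i + c2 * r o) =
      (c0 + c1 * r i) * ∑ o ∈ S, ν o + c2 * ∑ o ∈ S, ν o * r o := fun i => by
    simp only [Finset.mul_sum, ← Finset.sum_add_distrib]
    exact Finset.sum_congr rfl fun o _ => by ring
  simp only [e1]
  generalize hm : ∑ o ∈ S, ν o = m
  generalize hs : ∑ o ∈ S, ν o * r o = s
  have e2 : ∑ i ∈ S, ν i * ((c0 + c1 * r i) * m + c2 * s) =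
      (c0 * m + c2 * s) * ∑ o ∈ S, ν o + c1 * m * ∑ o ∈ S, ν o * r o := by
    simp only [Finset.mul_sum, ← Finset.sum_add_distrib]
    exact Finset.sum_congr rfl fun o _ => by ring
  rw [e2, hm, hs]
  ring

theorem cg_lin (S : Finset ℕ) (ν r k : ℕ → ℚ) (c0 c1 : ℚ) :
    ∑ i ∈ S, ν i * (c0 + c1 * r i + k i) =
      c0 * ∑ o ∈ S, ν o + c1 * ∑ o ∈ S, ν o * r o + ∑ o ∈ S, ν o * k o := by
  simp only [Finset.mul_sum, ← Finset.sum_add_distrib]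
  exact Finset.sum_congr rfl fun o _ => by ring

theorem cg_err {ζ m : ℚ} (hζ0 : 0 < ζ) (hζ1 : ζ ≤ 1 / 400) (hm0 : 0 ≤ m) (hm1 : m ≤ 1) :
    2 * ζ ^ 2 * m ^ 2 + 2 * ζ ^ 2 + 4 * ζ ^ 2 * m + (1 - m) * (24 * ζ * (m + 1)) + 100 * ζ * m ^ 2 + 200 * ζ * m +
      2 * ζ - 400 * ζ ≤ 0 := by
  have hζ2 : ζ ^ 2 ≤ ζ / 400 := by nlinarith
  have e1 : m ^ 2 ≤ 1 := by nlinarith
  have e2 : ζ ^ 2 * m ^ 2 ≤ ζ ^ 2 := mul_le_of_le_one_right (by positivity) e1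
  have e3 : ζ ^ 2 * m ≤ ζ ^ 2 := mul_le_of_le_one_right (by positivity) hm1
  have e4 : ζ * m ^ 2 ≤ ζ := mul_le_of_le_one_right hζ0.le e1
  have e5 : ζ * m ≤ ζ := mul_le_of_le_one_right hζ0.le hm1
  have e6 : 0 ≤ ζ * m ^ 2 := by positivity
  linarith

set_option maxHeartbeats 1000000 in
theorem gen_main {ζ x a b a' b' σ L h : ℚ} (hζ0 : 0 < ζ) (hζ1 : ζ ≤ 1 / 400) (hB : Box x a b) (hσ0 : 197 / 100 ≤ σ * b)
    (hσ1 : σ * b ≤ 2) (hb0 : 0 ≤ b') (hb1 : b' ≤ 1) (hh : 0 < h) (hL : h * (3 * L + 1) ≤ ζ)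
    (ha' : |a' - a| ≤ L * h) (hb' : |b' - b| ≤ L * h)
    (hstep : ∀ m : ℚ, 0 ≤ m → m ≤ 1 → a' - a + m * (b' - b) ≤
      h * (-1 + (1 + m) * a + b * m ^ 2 + 2 * b * m - 3 * m - b * (m - x) ^ 2 + ζ))
    {Λ : ℕ} {F : List ℕ} {d : ℕ → ℕ → ℚ} {j : ℕ} {y μ : ℕ → ℚ} {D : ℚ} {c R ρ θ τ : ℕ → ℚ}
    (G : Game ζ (ζ ^ 2) σ Λ F d j y μ D c R ρ θ τ) :
    h * sm F (fun o => τ o * y o / θ o *
        (Phi (2 * ζ ^ 2) (a + 400 * ζ) b Λ F (d j) (fun i => μ i * (1 - θ o * ff σ (d o i / R i))) (min D (d j o)) -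
          Phi (2 * ζ ^ 2) (a + 400 * ζ) b Λ F (d j) μ D)) +
      (Phi (2 * ζ ^ 2) (a' + 400 * ζ) b' Λ F (d j) (fun i => μ i * (1 - h * ρ i)) D -
        Phi (2 * ζ ^ 2) (a + 400 * ζ) b Λ F (d j) μ D) ≤ 0 := by
  obtain ⟨b0, b1, a0, a1⟩ := hB.bnd
  have hσ : 3 / 2 ≤ σ := by
    by_contra hc
    have : σ * b ≤ 3 / 2 * b := mul_le_mul_of_nonneg_right (not_le.1 hc).le (by linarith)
    linarith
  have hζ2 : ζ ^ 2 ≤ ζ / 400 := by nlinarith
  have hζ3 : 0 < ζ ^ 2 := by positivity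
  obtain ⟨t, ht, hV⟩ := Phi_eq (2 * ζ ^ 2) (a + 400 * ζ) b Λ F (d j) μ D
  rw [hV]
  have hrN : ∀ i ∈ F, IsN Λ (d j i) := fun i _ => G.int j i
  have hr0 : ∀ i, 0 ≤ d j i := fun i => G.pm.nonneg j i
  have hD0 : 0 ≤ D := cg_isN G.intD
  have hsm : ∀ g : ℕ → ℚ, sm F g = ∑ i ∈ F.toFinset, g i := sm_eq G.nodup
  have hmem : ∀ {i}, i ∈ F.toFinset → i ∈ F := fun hi => List.mem_toFinset.1 hi
  have hev := fun (o : ℕ) (ho : o ∈ F) (hτ : 0 ≤ τ o) => evt_foreign (κ := 2 * ζ ^ 2) (a := a + 400 * ζ) (b := b) (D := D)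
    (D' := min D (d j o)) (f := fun i => ff σ (d o i / R i)) (by positivity) (by linarith) ht hrN G.μ0 G.mass
    (fun i _ => cg_ff _ _) (le_min hD0 (hr0 o)) (min_le_left _ _) (G.θ0 o ho) (G.θ1 o ho) hτ
  have hown := fun (o : ℕ) (ho : o ∈ F) => evt_own (κ := 2 * ζ ^ 2) (a := a + 400 * ζ) (b := b) (D := D) (τ := τ o)
    (η := ζ ^ 2) (ro := d j o) (D' := min D (d j o)) (f := fun i => ff σ (d o i / R i)) (by positivity) (by linarith)
    (by linarith) (by linarith) ht hrN G.μ0 G.mass (fun i _ => cg_ff _ _) (le_min hD0 (hr0 o)) (min_le_left _ _)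
    (min_le_right _ _) (G.θ0 o ho) (G.θ1 o ho) hζ3.le (by linarith) (G.τ1 o ho)
  have hfree := evt_free (κ := 2 * ζ ^ 2) (a := a + 400 * ζ) (a' := a' + 400 * ζ) (b := b) (b' := b') (h := h) (L := L)
    (ρ := ρ) (D := D) (by positivity) hb0 hb1 ht hrN G.μ0 G.mass (fun i hi => ⟨G.ρ0 i hi, G.ρ1 i hi⟩) hD0 hh.le
    (by rwa [add_sub_add_right_eq_sub]) hb'
  have hν0 : ∀ i ∈ F, 0 ≤ pre (d j) μ t i := fun i hi => by
    unfold pre
    split_ifs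
    exacts [G.μ0 i hi, le_rfl]
  have hνμ : ∀ i ∈ F, pre (d j) μ t i ≤ μ i := fun i hi => by
    unfold pre
    split_ifs
    exacts [le_rfl, G.μ0 i hi]
  have hVe : val (2 * ζ ^ 2) (a + 400 * ζ) b F (d j) μ D t = cA (2 * ζ ^ 2) (sm F (pre (d j) μ t)) * D +
    (a + 400 * ζ + b * sm F (pre (d j) μ t)) * mom F (pre (d j) μ t) (d j) := rfl
  generalize val (2 * ζ ^ 2) (a + 400 * ζ) b F (d j) μ D t = V at *
  generalize pre (d j) μ t = ν at *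
  have hνy : ∀ i ∈ F, ν i ≤ y i := fun i hi => (hνμ i hi).trans (G.μy i hi)
  have hm1 : sm F ν ≤ 1 := le_trans (List.sum_le_sum hνμ) G.mass
  have hm0 : 0 ≤ sm F ν := by
    rw [hsm]
    exact Finset.sum_nonneg fun i hi => hν0 i (hmem hi)
  have hs0 : 0 ≤ mom F ν (d j) := by
    unfold mom
    rw [hsm]
    exact Finset.sum_nonneg fun i hi => mul_nonneg (hν0 i (hmem hi)) (hr0 i)
  have hK : ∀ o, 0 ≤ sm F (fun i => ν i * ff σ (d o i / R i)) ∧ sm F (fun i => ν i * ff σ (d o i / R i)) ≤ 1 := fun o => by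
    refine ⟨?_, le_trans (List.sum_le_sum fun i hi => mul_le_of_le_one_right (hν0 i hi) (cg_ff _ _).2) hm1⟩
    rw [hsm]
    exact Finset.sum_nonneg fun i hi => mul_nonneg (hν0 i (hmem hi)) (cg_ff _ _).1
  have hτ0 : ∀ o ∈ F, 1 - ζ ^ 2 * (1 - sm F fun i => ν i * ff σ (d o i / R i)) ≤ τ o := fun o ho => by
    refine le_trans ?_ (G.τ0 o ho)
    have h1 : sm F (fun i => ν i * ff σ (d o i / R i)) ≤ sm F fun i => y i * ff σ (d o i / R i) :=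
      List.sum_le_sum fun i hi => mul_le_mul_of_nonneg_right (hνy i hi) (cg_ff _ _).1
    have h2 : max 0 (1 - sm F fun i => y i * ff σ (d o i / R i)) ≤ 1 - sm F fun i => ν i * ff σ (d o i / R i) :=
      max_le (by linarith [(hK o).2]) (by linarith)
    have := mul_le_mul_of_nonneg_left h2 hζ3.le
    linarith
  have hτ : ∀ o ∈ F, 1 - ζ ^ 2 ≤ τ o ∧ τ o ≤ 1 + ζ ^ 2 := fun o ho => by
    refine ⟨le_trans ?_ (hτ0 o ho), G.τ1 o ho⟩
    have := mul_nonneg hζ3.le (hK o).1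
    linarith
  -- prices
  have hpr : ∀ i, ∃ Λ φ : ℚ, 0 ≤ φ ∧ φ ≤ 1 ∧ (i ∈ F → 0 < ν i →
      (∀ o ∈ F, 0 < ff σ (d o i / R i) → τ o * (cB (2 * ζ ^ 2) (a + 400 * ζ) b (sm F ν) (mom F ν (d j)) (min D (d j o)) (d j i) +
        ff σ (d o i / R i) * cK b (sm F ν) (mom F ν (d j)) (d j i) - cA (2 * ζ ^ 2) (sm F ν) * (D - min D (d j o))) ≤ Λ) ∧
      (0 < ρ i → cB (2 * ζ ^ 2) (a + 400 * ζ) b (sm F ν) (mom F ν (d j)) D (d j i) ≤ Λ) ∧
      Λ ≤ cB (2 * ζ ^ 2) (a + 400 * ζ) b (sm F ν) (mom F ν (d j)) D (d j i) + φ * cK b (sm F ν) (mom F ν (d j)) (d j i) +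
        24 * ζ * (d j i + mom F ν (d j)) ∧
      Λ + ζ ^ 2 * (cA (2 * ζ ^ 2) (sm F ν) * D) ≤ cL (a + 400 * ζ) b σ (sm F ν) (mom F ν (d j)) (d j i) (R i) φ +
        24 * ζ * (d j i + R i + mom F ν (d j))) := fun i => by
    by_cases hi : i ∈ F ∧ 0 < ν i
    · obtain ⟨hi, hp⟩ := hi
      have hy : 0 < y i := hp.trans_le (hνy i hi)
      obtain ⟨Λ, φ, h1, h2, h3⟩ := price_exists (ζ := ζ) (a := a + 400 * ζ) (b := b) (σ := σ) (m := sm F ν)
        (s := mom F ν (d j)) (r := d j i) (R := R i) (D := D) hζ0 hζ1 (by linarith) (by linarith) (by linarith) b1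
        (by linarith) hm0 hm1 hs0 (hr0 i) (G.R0 i hi hy) hD0 ((G.Rc i hi hy).trans (G.c2 i hi)) (F := F) (τ := τ)
        (ro := d j) (dd := fun o => d o i) (ρ := ρ i) hτ
        (fun o _ => ⟨hr0 o, by rw [G.pm.symm o i]; exact G.pm.tri j i o⟩)
        (fun hρ => by rw [G.ρc i hi hy hρ]; exact G.c1 i hi)
      exact ⟨Λ, φ, h1, h2, fun _ _ => h3⟩
    · exact ⟨0, 0, le_rfl, zero_le_one, fun h1 h2 => absurd ⟨h1, h2⟩ hi⟩
  choose Λp φ hφ0 hφ1 hP using hpr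
  have hI := ideal hB hσ0 hσ1 G.nodup (ν := ν) (r := d j) (R := fun i => if 0 < ν i then R i else 1) (φ := φ) hν0 hm1
    (fun i _ => hr0 i) (fun i hi => by
      split_ifs with hp
      · exact G.R0 i hi (hp.trans_le (hνy i hi))
      · exact one_pos) fun i _ => ⟨hφ0 i, hφ1 i⟩
  have hst := hstep _ hm0 hm1
  have hme : sm F ν = ∑ i ∈ F.toFinset, ν i := hsm ν
  have hse : mom F ν (d j) = ∑ i ∈ F.toFinset, ν i * d j i := hsm _
  generalize sm F ν = m at *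
  generalize mom F ν (d j) = s at *
  have hA0 : 0 ≤ cA (2 * ζ ^ 2) m := mul_nonneg (by linarith) (by positivity)
  have hg : a + 400 * ζ + b * m ≤ 4 := by nlinarith
  have hg0 : 0 ≤ a + 400 * ζ + b * m := by nlinarith
  -- events
  have hE : ∀ o ∈ F.toFinset, τ o * y o / θ o *
      (Phi (2 * ζ ^ 2) (a + 400 * ζ) b Λ F (d j) (fun i => μ i * (1 - θ o * ff σ (d o i / R i))) (min D (d j o)) - V) ≤
      (y o - ν o) * ∑ i ∈ F.toFinset, ν i * ff σ (d o i / R i) * Λp i +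
        (ν o * ((1 + 2 * ζ ^ 2 * m ^ 2) * d j o - ∑ i ∈ F.toFinset, ν i * (1 - ff σ (d o i / R i)) *
          max 0 (cA1 (2 * ζ ^ 2) m * d j o - (a + 400 * ζ + b * m) * d j i) - V + 2 * ζ ^ 2 * d j o +
          ζ ^ 2 * (1 - ∑ i ∈ F.toFinset, ν i * ff σ (d o i / R i)) * (cA (2 * ζ ^ 2) m * D)) + ν o * (4 * ζ ^ 2 * s)) := by
    intro o ho'
    have ho := hmem ho'
    have h1 := hev o ho (by linarith [(hτ o ho).1])
    have h2 := hown o ho (hτ0 o ho)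
    have h3 := hK o
    rw [hsm] at h1 h3
    rw [hsm, hsm] at h2
    have h4 : ∑ i ∈ F.toFinset, ν i * ff σ (d o i / R i) * (τ o * (cB (2 * ζ ^ 2) (a + 400 * ζ) b m s (min D (d j o)) (d j i) +
        ff σ (d o i / R i) * cK b m s (d j i) - cA (2 * ζ ^ 2) m * (D - min D (d j o)))) ≤
        ∑ i ∈ F.toFinset, ν i * ff σ (d o i / R i) * Λp i := Finset.sum_le_sum fun i hi => by
      rcases (hν0 i (hmem hi)).eq_or_lt with h0 | h0
      · rw [← h0]; simp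
      rcases (cg_ff σ (d o i / R i)).1.eq_or_lt with h5 | h5
      · rw [← h5]; simp
      exact mul_le_mul_of_nonneg_left ((hP i (hmem hi) h0).1 o ho h5) (mul_pos h0 h5).le
    have h5 : ζ ^ 2 * (1 - ∑ i ∈ F.toFinset, ν i * ff σ (d o i / R i)) * ((a + 400 * ζ + b * m) * s) ≤ 4 * ζ ^ 2 * s := by
      have e1 : (1 - ∑ i ∈ F.toFinset, ν i * ff σ (d o i / R i)) * (a + 400 * ζ + b * m) ≤ 1 * 4 :=
        mul_le_mul (by linarith [h3.1]) hg hg0 zero_le_one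
      have e2 := mul_le_mul_of_nonneg_left e1 (mul_nonneg hζ3.le hs0)
      linarith
    have h6 := mul_le_mul_of_nonneg_left (h1.trans h4) (sub_nonneg.2 (hνy o ho))
    have h7 : τ o / θ o * (Phi (2 * ζ ^ 2) (a + 400 * ζ) b Λ F (d j) (fun i => μ i * (1 - θ o * ff σ (d o i / R i)))
        (min D (d j o)) - V) ≤ (1 + 2 * ζ ^ 2 * m ^ 2) * d j o - ∑ i ∈ F.toFinset, ν i * (1 - ff σ (d o i / R i)) *
          max 0 (cA1 (2 * ζ ^ 2) m * d j o - (a + 400 * ζ + b * m) * d j i) - V + 2 * ζ ^ 2 * d j o +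
          ζ ^ 2 * (1 - ∑ i ∈ F.toFinset, ν i * ff σ (d o i / R i)) * (cA (2 * ζ ^ 2) m * D) + 4 * ζ ^ 2 * s := by
      refine h2.trans ?_
      have e1 : ζ ^ 2 * (1 - ∑ i ∈ F.toFinset, ν i * ff σ (d o i / R i)) * V =
          ζ ^ 2 * (1 - ∑ i ∈ F.toFinset, ν i * ff σ (d o i / R i)) * (cA (2 * ζ ^ 2) m * D) +
          ζ ^ 2 * (1 - ∑ i ∈ F.toFinset, ν i * ff σ (d o i / R i)) * ((a + 400 * ζ + b * m) * s) := by
        rw [hVe]; ring
      linarith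
    have h8 := mul_le_mul_of_nonneg_left h7 (hν0 o ho)
    have e3 : ∀ z : ℚ, τ o * y o / θ o * z = (y o - ν o) * (τ o / θ o * z) + ν o * (τ o / θ o * z) := fun z => by ring
    rw [e3]
    linarith
  have hE' := Finset.sum_le_sum hE
  rw [Finset.sum_add_distrib, Finset.sum_add_distrib, cg_own, ← Finset.sum_mul, ← hme, ← hse] at hE'
  -- free decay
  have hF : sm F (fun i => ν i * ρ i * cB (2 * ζ ^ 2) (a + 400 * ζ) b m s D (d j i)) ≤
      ∑ i ∈ F.toFinset, ν i * ρ i * Λp i := by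
    rw [hsm]
    refine Finset.sum_le_sum fun i hi => ?_
    rcases (hν0 i (hmem hi)).eq_or_lt with h0 | h0
    · rw [← h0]; simp
    rcases (G.ρ0 i (hmem hi)).eq_or_lt with h5 | h5
    · rw [← h5]; simp
    exact mul_le_mul_of_nonneg_left ((hP i (hmem hi) h0).2.1 h5) (mul_pos h0 h5).le
  have hR := cg_rates F.toFinset y ν ρ Λp (fun o i => ff σ (d o i / R i)) fun i hi h0 => by
    rw [← hsm]
    exact G.bal i (hmem hi) (((hν0 i (hmem hi)).lt_of_ne' h0).trans_le (hνy i (hmem hi)))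
  rw [← hme] at hR
  -- the prices
  have h1 : ∑ i ∈ F.toFinset, ν i * Λp i ≤ (cA1 (2 * ζ ^ 2) m * D - b * s + 24 * ζ * s) * m +
      (24 * ζ - (a + 400 * ζ + b * m)) * s + ∑ i ∈ F.toFinset, ν i * (φ i * cK b m s (d j i)) := by
    have e := cg_lin F.toFinset ν (d j) (fun i => φ i * cK b m s (d j i)) (cA1 (2 * ζ ^ 2) m * D - b * s + 24 * ζ * s)
      (24 * ζ - (a + 400 * ζ + b * m))
    rw [← hme, ← hse] at e
    rw [← e]
    refine Finset.sum_le_sum fun i hi => ?_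
    rcases (hν0 i (hmem hi)).eq_or_lt with h0 | h0
    · rw [← h0]; simp
    refine mul_le_mul_of_nonneg_left (((hP i (hmem hi) h0).2.2.1).trans (le_of_eq ?_)) h0.le
    unfold cB
    ring
  -- the pairs
  have h2 : ∑ i ∈ F.toFinset, ν i * ∑ o ∈ F.toFinset, ν o * ((1 - ff σ (d o i / R i)) * Λp i) +
      ∑ i ∈ F.toFinset, ν i * ∑ o ∈ F.toFinset, ν o * ((1 - ff σ (d o i / R i)) * (ζ ^ 2 * (cA (2 * ζ ^ 2) m * D) -
        max 0 (cA1 (2 * ζ ^ 2) m * d j o - (a + 400 * ζ + b * m) * d j i))) ≤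
      ∑ i ∈ F.toFinset, ν i * ∑ l ∈ F.toFinset, ν l * cT a b σ m s (d j l) (d j i) (if 0 < ν i then R i else 1) (φ i) +
        ((100 * ζ * s - b * s) * m ^ 2 + ((100 * ζ + (2 - (a + b * m))) + (100 * ζ + 1)) * m * s) := by
    have e := cg_base F.toFinset ν (d j) (100 * ζ * s - b * s) (100 * ζ + (2 - (a + b * m))) (100 * ζ + 1)
    rw [← hme, ← hse] at e
    rw [← e, ← Finset.sum_add_distrib, ← Finset.sum_add_distrib]
    refine Finset.sum_le_sum fun i hi => ?_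
    rcases (hν0 i (hmem hi)).eq_or_lt with h0 | h0
    · rw [← h0]; simp
    rw [← mul_add, ← mul_add, ← Finset.sum_add_distrib, ← Finset.sum_add_distrib, if_pos h0]
    refine mul_le_mul_of_nonneg_left (Finset.sum_le_sum fun o ho => ?_) h0.le
    rw [← mul_add (ν o), ← mul_add (ν o)]
    refine mul_le_mul_of_nonneg_left ?_ (hν0 o (hmem ho))
    have h3 := pair_le (ζ := ζ) (a := a) (b := b) (σ := σ) (m := m) (s := s) (R := R i) hζ0 hζ1 (by linarith) (by linarith)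
      hσ hm0 hm1 hs0 (G.R0 i (hmem hi) (h0.trans_le (hνy i (hmem hi)))) (ε := 400 * ζ) (rl := d j o) (ri := d j i)
      (d := d o i) (by positivity) (hr0 o) (hr0 i) (by rw [G.pm.symm j o]; exact G.pm.tri o j i) (hP i (hmem hi) h0).2.2.2
    unfold cT
    linarith
  simp only [hsm] at hI
  rw [hsm]
  generalize ∑ o ∈ F.toFinset, τ o * y o / θ o * (Phi (2 * ζ ^ 2) (a + 400 * ζ) b Λ F (d j)
    (fun i => μ i * (1 - θ o * ff σ (d o i / R i))) (min D (d j o)) - V) = X1 at *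
  generalize Phi (2 * ζ ^ 2) (a' + 400 * ζ) b' Λ F (d j) (fun i => μ i * (1 - h * ρ i)) D = X2 at *
  generalize ∑ i ∈ F.toFinset, ν i * (φ i * cK b m s (d j i)) = X3 at *
  generalize ∑ i ∈ F.toFinset, ν i * Λp i = X4 at *
  have h3 := mul_le_mul_of_nonneg_left h1 (sub_nonneg.2 hm1)
  have h4 := mul_le_mul_of_nonneg_right hst hs0
  have h5 : h ^ 2 * (3 * L + 1) * s ≤ h * (ζ * s) := by
    have := mul_le_mul_of_nonneg_left hL (mul_nonneg hh.le hs0)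
    linarith
  have h6 := mul_le_mul_of_nonneg_left hF hh.le
  -- the terms with `D`
  have h7 : -(m * (cA (2 * ζ ^ 2) m * D)) + ζ ^ 2 * (cA (2 * ζ ^ 2) m * D) * (m * (1 - m)) +
      (1 - m) * (cA1 (2 * ζ ^ 2) m * D * m) ≤ 0 := by
    have e1 : -(m * (cA (2 * ζ ^ 2) m * D)) + ζ ^ 2 * (cA (2 * ζ ^ 2) m * D) * (m * (1 - m)) +
        (1 - m) * (cA1 (2 * ζ ^ 2) m * D * m) = -(ζ ^ 2 * (m * (1 - m) ^ 2 * D) * (1 - 2 * ζ ^ 2 * m)) := by
      unfold cA cA1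
      ring
    rw [e1, neg_nonpos]
    exact mul_nonneg (by positivity) (by nlinarith)
  have h8 := cg_err hζ0 hζ1 hm0 hm1
  have h9 := mul_le_mul_of_nonneg_right h8 hs0
  have key : X1 + ∑ i ∈ F.toFinset, ν i * ρ i * Λp i +
      (-1 + (1 + m) * a + b * m ^ 2 + 2 * b * m - 3 * m - b * (m - x) ^ 2 + ζ) * s + ζ * s ≤ 0 := by
    rw [hVe] at hE'
    linarith
  have h10 := mul_le_mul_of_nonneg_left key hh.le
  linarith

end Crest.Agent.R310
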