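import Crest.Agent.R310.CILe1
import Crest.Agent.R310.CILe2
import Crest.Agent.R310.CILe3
import Crest.Agent.R310.CILe4
import Crest.Agent.R310.CILe5
import Crest.Agent.R310.CILe6

/-!
# R310 / CILe : the cells cover the unit square (helper52)
-/

set_option autoImplicit false

namespace Crest.Agent.R310

theorem cover_all : Cover 0 1 0 1 :=
  ((cilC1.sm ((cilC2.sm (cilC3.sx (cilC4.sm cilC5))).sx (cilC6.sm ((cilC7.sm (cilC8.sx cilC9)).sx (cilC10.sm ((cilC11.sm cilC12).sx (cilC13.sm (cilC14.sx cilC15)))))))).sx (cilC16.sm ((cilC17.sm ((cilC18.sm ((cilC19.sm (cilC20.sx cilC21)).sx (cilC22.sm (cilC23.sx cilC24)))).sx (cilC25.sm ((cilC26.sm (cilC27.sx cilC28)).sx cilC29)))).sx (cilC30.sm ((cilC31.sm ((cilC32.sm cilC33).sx (cilC34.sm (cilC35.sx cilC36)))).sx (cilC37.sm (cilC38.sx cilC39)))))))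

end Crest.Agent.R310
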