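import Crest.Agent.R310.CRed
import Crest.Agent.R310.CILe

/-! # R310 / CIL : the ideal inequality (owner helper52) -/

set_option autoImplicit false

namespace Crest.Agent.R310

theorem ideal {x a b σ : ℚ} (hB : Box x a b) (hσ0 : 197 / 100 ≤ σ * b) (hσ1 : σ * b ≤ 2)
    {F : List ℕ} (hF : F.Nodup) {ν r R φ : ℕ → ℚ} (hν : ∀ i ∈ F, 0 ≤ ν i) (hm : sm F ν ≤ 1) (hr : ∀ i ∈ F, 0 ≤ r i)
    (hR : ∀ i ∈ F, 0 < R i) (hφ : ∀ i ∈ F, 0 ≤ φ i ∧ φ i ≤ 1) :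
    sm F (fun i => ν i * sm F fun l => ν l * cT a b σ (sm F ν) (mom F ν r) (r l) (r i) (R i) (φ i)) +
        (1 - sm F ν) * sm F (fun i => ν i * (φ i * cK b (sm F ν) (mom F ν r) (r i))) ≤
      b * (sm F ν - x) ^ 2 * mom F ν r := by
  have hb1 : b ≤ 1 := by
    have h1 : b ≤ bU x := hB.b1
    have h2 := bU_anti le_rfl hB.x0 hB.x1
    have h3 : bU 0 = 1 := by unfold bU; norm_num
    linarith
  have hb0 : 0 < b := by
    have h1 : bL x ≤ b := hB.b0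
    have h2 := bL_anti hB.x0 hB.x1 le_rfl
    have h3 : 0 < bL 1 := by unfold bL; norm_num
    linarith
  have hσ : 1 ≤ σ := by
    by_contra hn
    push Not at hn
    nlinarith
  refine ideal_of_cert hσ (fun m m0 m1 => ?_) hF hν hm hr hR hφ
  obtain ⟨h, hh⟩ := cover_all x a b σ m hB hσ0 hσ1 hB.x0 hB.x1 m0.le m1 m0
  refine ⟨fun u v => b * (m - x) ^ 2 / m + h u - h v, 0, fun u v _ _ => by linarith, fun u R φ hu hR f0 f1 => ?_⟩
  obtain ⟨ψ, hψ⟩ := hh u R φ hu hR f0 f1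
  refine ⟨ψ, fun v hv => ?_⟩
  have := hψ v hv
  unfold cN
  linarith

end Crest.Agent.R310
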