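import Mathlib

/-!
# R310 / CILa : elementary inequalities for the ideal inequality (helper52)
-/

set_option autoImplicit false

namespace Crest.Agent.R310

theorem cil_seg {F : ℚ → ℚ} (hF : ∀ u, F u = F 0 + (F 1 - F 0) * u) {u1 u2 u : ℚ} (h1 : u1 ≤ u) (h2 : u ≤ u2)
    (a1 : 0 ≤ F u1) (a2 : 0 ≤ F u2) : 0 ≤ F u := by
  rw [hF] at a1 a2 ⊢
  rcases le_total 0 (F 1 - F 0) with h | h <;> nlinarith

theorem cil_ray {F : ℚ → ℚ} (hF : ∀ u, F u = F 0 + (F 1 - F 0) * u) {u1 u : ℚ} (h1 : u1 ≤ u)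
    (a1 : 0 ≤ F u1) (a2 : 0 ≤ F 1 - F 0) : 0 ≤ F u := by
  rw [hF] at a1 ⊢
  nlinarith

/-- concave quadratic above the square of a positive part -/
theorem cil_conc {G X : ℚ → ℚ} {g2 : ℚ} (hg : 0 ≤ g2)
    (hG : ∀ u, G u = G 0 + (G 1 - G 0 + g2) * u - g2 * u ^ 2) (hX : ∀ u, X u = X 0 + (X 1 - X 0) * u)
    {u1 u2 u : ℚ} (h1 : u1 ≤ u) (h2 : u ≤ u2) (a1 : max 0 (X u1) ^ 2 ≤ G u1) (a2 : max 0 (X u2) ^ 2 ≤ G u2) :
    max 0 (X u) ^ 2 ≤ G u := by
  rcases eq_or_lt_of_le (h1.trans h2) with h | h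
  · have : u = u1 := le_antisymm (h ▸ h2) h1
    rw [this]
    exact a1
  obtain ⟨t, ht⟩ : ∃ t, t = (u - u1) / (u2 - u1) := ⟨_, rfl⟩
  have hd : 0 < u2 - u1 := by linarith
  have t0 : 0 ≤ t := ht ▸ div_nonneg (by linarith) hd.le
  have t1 : t ≤ 1 := ht ▸ (div_le_one hd).2 (by linarith)
  have hu : u = u1 + t * (u2 - u1) := by
    rw [ht, div_mul_cancel₀ _ hd.ne']
    ring
  have e1 : G u = (1 - t) * G u1 + t * G u2 + g2 * (t * (1 - t)) * (u2 - u1) ^ 2 := by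
    rw [hG u, hG u1, hG u2, hu]
    ring
  have e2 : X u = (1 - t) * X u1 + t * X u2 := by
    rw [hX u, hX u1, hX u2, hu]
    ring
  set A := max 0 (X u1)
  set B := max 0 (X u2)
  have hA0 : 0 ≤ A := le_max_left _ _
  have hB0 : 0 ≤ B := le_max_left _ _
  have hA : X u1 ≤ A := le_max_right _ _
  have hB : X u2 ≤ B := le_max_right _ _
  have t2 : 0 ≤ 1 - t := by linarith
  have h3 : max 0 (X u) ≤ (1 - t) * A + t * B := by
    refine max_le (by positivity) ?_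
    rw [e2]
    nlinarith
  have h4 : max 0 (X u) ^ 2 ≤ ((1 - t) * A + t * B) ^ 2 := pow_le_pow_left₀ (le_max_left _ _) h3 2
  have h5 : 0 ≤ g2 * (t * (1 - t)) * (u2 - u1) ^ 2 := by positivity
  have h6 : 0 ≤ t * (1 - t) * (A - B) ^ 2 := by positivity
  have h7 := mul_le_mul_of_nonneg_left a1 t2
  have h8 := mul_le_mul_of_nonneg_left a2 t0
  nlinarith

theorem cil_pby {th sg p y c ρ s q T : ℚ} (hth : 0 < th) (hsg : 1 < sg)
    (hy : y * (1 - p) ^ 2 ≤ 4 * (sg - 1) * p) (hρ : 0 ≤ ρ) (hs : 0 < s)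
    (hq : q = 0 ∨ q * (ρ + s) ≤ ρ - (sg - 1) * s) (hY : th * ρ - sg * c ≤ y * (th * ρ)) (T0 : 0 ≤ T) (Tc : c ≤ T)
    (TL : c + p * (th * ρ - sg * c) ≤ T) : q * max 0 (c + th * s) ≤ T := by
  rcases hq with hq | hq
  · simp [hq, T0]
  rcases le_total (c + th * s) 0 with hc | hc
  · simp [max_eq_left hc, T0]
  rw [max_eq_right hc]
  have hR : 0 < ρ + s := by linarith
  obtain ⟨Y, hYd⟩ : ∃ Y, Y = th * ρ - sg * c := ⟨_, rfl⟩
  obtain ⟨a, ha⟩ : ∃ a, a = (sg - 1) * th := ⟨_, rfl⟩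
  have ha0 : 0 < a := by
    rw [ha]
    exact mul_pos (by linarith) hth
  have h1 : q * (c + th * s) * (ρ + s) ≤ c * (ρ + s) + s * (Y - a * s) := by
    have := mul_le_mul_of_nonneg_right hq hc
    rw [hYd, ha]
    linarith
  rw [← hYd] at hY TL
  refine le_of_mul_le_mul_right (h1.trans ?_) hR
  rcases le_total Y 0 with h | h
  · have h2 := mul_le_mul_of_nonneg_right Tc hR.le
    have h3 : 0 ≤ a * s := by positivity
    nlinarith
  · have h2 := mul_le_mul_of_nonneg_right TL hR.le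
    have h3 : 0 ≤ th * ρ * Y := by positivity
    have h4 := mul_le_mul_of_nonneg_right hy h3
    have h5 : 0 ≤ (1 - p) ^ 2 * Y := by positivity
    have h6 := mul_le_mul_of_nonneg_right hY h5
    have h7 : 0 ≤ 4 * a * (a * s ^ 2 - (1 - p) * Y * s + p * Y * ρ) := by
      have : 4 * a * (a * s ^ 2 - (1 - p) * Y * s + p * Y * ρ) =
          (2 * a * s - (1 - p) * Y) ^ 2 + (4 * (sg - 1) * p * (th * ρ * Y) - Y * ((1 - p) ^ 2 * Y)) := by
        rw [ha]
        ring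
      rw [this]
      have := sq_nonneg (2 * a * s - (1 - p) * Y)
      linarith
    have h8 : 0 ≤ a * s ^ 2 - (1 - p) * Y * s + p * Y * ρ :=
      nonneg_of_mul_nonneg_right h7 (by positivity) |> fun h => by
        by_contra hn
        push Not at hn
        have := mul_neg_of_pos_of_neg (show 0 < 4 * a by positivity) hn
        linarith
    linarith

theorem cil_pbn {th sg p c ρ s q T : ℚ} (hth : 0 < th) (hsg : 1 < sg)
    (hy : (1 - p) ^ 2 ≤ 4 * (sg - 1) * p) (hs : 0 < s) (hq0 : 0 ≤ q) (hρ : 0 ≤ ρ)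
    (hq : q = 0 ∨ q * (ρ + s) ≤ ρ - (sg - 1) * s) (hc0 : c ≤ 0) (T0 : 0 ≤ T)
    (TL : p * (th * ρ + (sg - 1) * c) ≤ T) : q * max 0 (c + th * s) ≤ T := by
  rcases hq with hq | hq
  · simp [hq, T0]
  rcases le_total (c + th * s) 0 with hc | hc
  · simp [max_eq_left hc, T0]
  rw [max_eq_right hc]
  have hR : 0 < ρ + s := by linarith
  have hb : 0 < sg - 1 := by linarith
  obtain ⟨n, hn⟩ : ∃ n, n = ρ - (sg - 1) * s := ⟨_, rfl⟩
  rw [← hn] at hq
  have hn0 : 0 ≤ n := le_trans (by positivity) hq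
  have hbs : 0 < (sg - 1) * s := by positivity
  have hρ0 : 0 < ρ := by linarith
  have f0 : 0 ≤ (sg - 1) * s ^ 2 - (1 - p) * ρ * s + p * ρ ^ 2 := by
    by_contra hneg
    push Not at hneg
    have h1 := mul_neg_of_pos_of_neg (show 0 < 4 * (sg - 1) by positivity) hneg
    have h2 := sq_nonneg (2 * (sg - 1) * s - (1 - p) * ρ)
    have h3 := mul_le_mul_of_nonneg_right hy (sq_nonneg ρ)
    linarith
  have h1 : 0 ≤ th * ρ + (sg - 1) * c := by
    have h2 := mul_nonneg hb.le hc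
    have h3 := mul_nonneg hth.le hn0
    rw [hn] at h3
    linarith
  have h2 : 0 ≤ th * ρ * (p * (th * ρ + (sg - 1) * c) * (ρ + s) - n * (c + th * s)) := by
    have e : th * ρ * (p * (th * ρ + (sg - 1) * c) * (ρ + s) - n * (c + th * s)) =
        (th * ρ + (sg - 1) * c) * (th * ((sg - 1) * s ^ 2 - (1 - p) * ρ * s + p * ρ ^ 2)) + (-c) * (th * n ^ 2) := by
      rw [hn]
      ring
    rw [e]
    have : 0 ≤ -c := by linarith
    positivity
  have h3 : 0 ≤ p * (th * ρ + (sg - 1) * c) * (ρ + s) - n * (c + th * s) := by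
    by_contra hneg
    push Not at hneg
    have := mul_neg_of_pos_of_neg (show 0 < th * ρ by positivity) hneg
    linarith
  refine le_of_mul_le_mul_right ?_ hR
  have h4 := mul_le_mul_of_nonneg_right hq hc
  have h5 := mul_le_mul_of_nonneg_right TL hR.le
  linarith

theorem cil_le {th q c c' T z v : ℚ} (hth : 0 < th) (hq0 : 0 ≤ q) (hq1 : q ≤ 1) (hz : z ≤ v) (hc : c' = c + th * (z - v))
    (T0 : 0 ≤ T) (Tc : c ≤ T) : q * max 0 c' ≤ T := by
  have h1 : max 0 c' ≤ T := max_le T0 (by rw [hc]; nlinarith)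
  have h2 : 0 ≤ max 0 c' := le_max_left _ _
  nlinarith

/-- the bound with the two chords -/
theorem cil_pb {th sg p c c' u v z q T : ℚ} (hth : 0 < th) (hsg : 1 < sg) (hy : (1 - p) ^ 2 ≤ 4 * (sg - 1) * p)
    (hu : 0 ≤ u) (hv : 0 ≤ v) (hq0 : 0 ≤ q) (hq1 : q ≤ 1) (hq : q = 0 ∨ q * (u + z) ≤ u + z - sg * (z - v))
    (hc : c' = c + th * (z - v)) (T0 : 0 ≤ T) (Tc : c ≤ T) (T1 : th * p * (u + v) + (1 - sg * p) * c ≤ T)
    (T2 : th * p * (u + v) + p * (sg - 1) * c ≤ T) : q * max 0 c' ≤ T := by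
  rcases le_or_gt z v with hz | hz
  · exact cil_le hth hq0 hq1 hz hc T0 Tc
  have hq' : q = 0 ∨ q * (u + v + (z - v)) ≤ u + v - (sg - 1) * (z - v) :=
    hq.imp_right fun h => by linarith
  rw [hc]
  rcases le_total 0 c with h | h
  · refine cil_pby (p := p) (y := 1) hth hsg (by linarith) (by linarith) (by linarith) hq' ?_ T0 Tc (by linarith)
    have : 0 ≤ sg * c := mul_nonneg (by linarith) h
    linarith
  · exact cil_pbn hth hsg hy (by linarith) hq0 (by linarith) hq' h T0 (by linarith)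

/-- the bound with one chord -/
theorem cil_pbY {th sg p y c c' u v z q T : ℚ} (hth : 0 < th) (hsg : 1 < sg)
    (hy : y * (1 - p) ^ 2 ≤ 4 * (sg - 1) * p)
    (hu : 0 ≤ u) (hv : 0 ≤ v) (hq0 : 0 ≤ q) (hq1 : q ≤ 1) (hq : q = 0 ∨ q * (u + z) ≤ u + z - sg * (z - v))
    (hc : c' = c + th * (z - v)) (hY : th * (u + v) - sg * c ≤ y * (th * (u + v))) (T0 : 0 ≤ T) (Tc : c ≤ T)
    (T1 : c + p * (th * (u + v) - sg * c) ≤ T) : q * max 0 c' ≤ T := by
  rcases le_or_gt z v with hz | hz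
  · exact cil_le hth hq0 hq1 hz hc T0 Tc
  have hq' : q = 0 ∨ q * (u + v + (z - v)) ≤ u + v - (sg - 1) * (z - v) :=
    hq.imp_right fun h => by linarith
  rw [hc]
  exact cil_pby hth hsg hy (by linarith) (by linarith) hq' hY T0 Tc T1

/-- the product bound -/
theorem cil_prod {th sg n K s ρ T G : ℚ} (hth : 0 < th) (hsg : 1 < sg) (hs : 0 ≤ s) (T0 : 0 ≤ T)
    (hG : max 0 (th * n - (sg - 1) * K) ^ 2 ≤ 4 * th * (sg - 1) * (G - n * K)) (hT : G ≤ T * ρ) :
    (n - (sg - 1) * s) * (K + th * s) ≤ T * (ρ + s) := by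
  have hb : 0 < sg - 1 := by linarith
  set X := max 0 (th * n - (sg - 1) * K)
  have hX : th * n - (sg - 1) * K ≤ X := le_max_right _ _
  have h1 := mul_le_mul_of_nonneg_left hX hs
  have h2 : s * X - th * (sg - 1) * s ^ 2 ≤ G - n * K := by
    refine le_of_mul_le_mul_left ?_ (show 0 < 4 * th * (sg - 1) by positivity)
    have := sq_nonneg (2 * th * (sg - 1) * s - X)
    linarith
  have h3 := mul_nonneg T0 hs
  linarith

end Crest.Agent.R310
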