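import Crest.Agent.R310.CILa

/-!
# R310 / CILb : the one-body certificate for constant parameters (helper52)
-/

set_option autoImplicit false

namespace Crest.Agent.R310

/-- the one-body function -/
def hf (A1 vA ga v : ℚ) : ℚ := ga * max 0 (v - 1) - A1 * max 0 (vA - v)

/-- constants of the certificate -/
structure CPar where
  k0 : ℚ
  k1 : ℚ
  th : ℚ
  g : ℚ
  S : ℚ
  sg : ℚ
  A1 : ℚ
  vA : ℚ
  gu : ℚ
  gv : ℚ
  pi0 : ℚ
  ph0 : ℚ
  lc : ℚ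
  l1 : ℚ
  l2 : ℚ
  ps : ℚ
  uF : ℚ
  uB : ℚ
  y0 : ℚ
  p0 : ℚ
  yA : ℚ
  pA : ℚ
  y1 : ℚ
  p1 : ℚ

namespace CPar

variable (P : CPar)

def K (u : ℚ) : ℚ := P.k0 + P.k1 * u

def fA (α β lam u v : ℚ) : ℚ :=
  P.K u + P.S - P.A1 * (P.vA - u) + P.ph0 * (v - 1) -
    (α * (u + v) + β * (P.K u + P.th * (v - 1) - lam * (v - P.g * u)))

def okA (α β lam : ℚ) : Prop :=
  0 ≤ β ∧ 0 ≤ lam ∧ lam ≤ 1 ∧ 0 ≤ P.fA α β lam 0 0 + P.A1 * P.vA ∧ 0 ≤ P.fA α β lam P.vA 0 + P.A1 * P.vA ∧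
    0 ≤ P.fA α β lam 0 P.vA ∧ 0 ≤ P.fA α β lam P.vA P.vA ∧ 0 ≤ P.fA α β lam 0 1 ∧ 0 ≤ P.fA α β lam P.vA 1 ∧
    0 ≤ P.fA α β 1 0 1 ∧ 0 ≤ P.fA α β 1 P.vA 1 ∧ α + β * (P.th - 1) + P.gv ≤ P.ph0

def okG : Prop :=
  0 < P.th ∧ 1 < P.sg ∧ 0 ≤ P.k0 ∧ 0 ≤ P.k1 ∧ 0 ≤ P.S ∧ 0 ≤ P.gu ∧ 0 ≤ P.gv ∧ 0 ≤ P.A1 ∧ 0 ≤ P.vA ∧
    P.vA ≤ 1 ∧ 1 ≤ P.uF ∧ P.uF ≤ P.uB ∧ 0 < P.g ∧ 0 ≤ P.ps ∧ 0 ≤ P.pi0 ∧ P.th ≤ 1 ∧
    P.pi0 * (P.sg - 1) ≤ 1 - P.sg * P.pi0 ∧ (1 - P.pi0) ^ 2 ≤ 4 * (P.sg - 1) * P.pi0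

def okI : Prop :=
  P.gv ≤ P.th ∧ P.gv * (P.sg + P.vA + 1) ≤ P.sg * (P.K P.vA + P.S) ∧ P.gv * (P.sg + 2) ≤ P.sg * (P.K 1 + P.S) ∧
    P.gv ≤ P.sg * (P.k1 + P.gu)

/-- value of the right side at `v = 1 - δ` without the bonus, for `u ≤ uF` -/
def tz (δ A u : ℚ) : ℚ := P.K u + P.S + A - (P.th + P.gv - P.ps * (P.uF - u)) * δ

/-- value of the right side at `v = 1 - δ` without the bonus, for `uF ≤ u` -/
def tw (δ A u : ℚ) : ℚ := P.K u + P.S + A - (P.th + P.gv) * δ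

def gq (δ t b u : ℚ) : ℚ := 4 * P.th * (P.sg - 1) * (t * (u + 1) + b - (u + 1 - P.sg * δ) * P.K u)

def xq (δ u : ℚ) : ℚ := P.th * (u + 1 - P.sg * δ) - (P.sg - 1) * P.K u

def yq (δ u : ℚ) : ℚ := P.th * (u + (1 - δ)) - P.sg * (P.K u - P.th * δ)

def okF (δ A y p : ℚ) : Prop :=
  y * (1 - p) ^ 2 ≤ 4 * (P.sg - 1) * p ∧ P.yq δ P.uB ≤ y * (P.th * (P.uB + (1 - δ))) ∧
    P.th - P.sg * P.k1 ≤ y * P.th ∧ P.gv * δ ≤ P.S + P.gu * (P.uB - 1) + A ∧
    P.gv * δ + p * P.yq δ P.uB ≤ P.S + P.gu * (P.uB - 1) + A ∧ p * (P.th - P.sg * P.k1) ≤ P.gu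

def okE (δ A : ℚ) : Prop :=
  0 ≤ P.tz δ A P.vA ∧ 0 ≤ P.tz δ A 1 ∧ 0 ≤ P.tz δ A P.uF + P.gu * (P.uF - 1) ∧
    max 0 (P.xq δ P.vA) ^ 2 ≤ P.gq δ (P.tz δ A P.vA) 0 P.vA ∧
    max 0 (P.xq δ 1) ^ 2 ≤ P.gq δ (P.tz δ A 1) 0 1 ∧
    max 0 (P.xq δ P.uF) ^ 2 ≤ P.gq δ (P.tw δ A P.uF) (2 * P.gu * (P.uF - 1)) P.uF ∧
    max 0 (P.xq δ P.uB) ^ 2 ≤ P.gq δ (P.tw δ A P.uB) (2 * P.gu * (P.uB - 1)) P.uB

def okB : Prop :=
  P.ps * (P.g * P.uF - 1) ^ 2 ≤ 4 * P.g * P.S ∧ P.ps * (P.uF - P.vA) ≤ P.th * P.pi0 * (P.sg - 1) ∧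
    P.pi0 * P.yq 0 P.vA ≤ P.S ∧ P.pi0 * P.yq 0 1 ≤ P.S ∧ P.pi0 * P.yq 0 P.uB ≤ P.S + P.gu * (P.uB - 1) ∧
    0 ≤ P.p0

def ok : Prop :=
  P.okG ∧ P.okA 0 0 0 ∧ P.okA 0 1 P.lc ∧ P.okA (P.th * P.pi0) (1 - P.sg * P.pi0) P.l1 ∧
    P.okA (P.th * P.pi0) (P.pi0 * (P.sg - 1)) P.l2 ∧ P.okI ∧ P.okB ∧ P.okE 1 (P.A1 * P.vA) ∧ P.okE (1 - P.vA) 0 ∧
    P.okF 0 0 P.y0 P.p0 ∧ P.okF (1 - P.vA) 0 P.yA P.pA ∧ P.okF 1 (P.A1 * P.vA) P.y1 P.p1

instance (α β lam : ℚ) : Decidable (P.okA α β lam) := by unfold okA; infer_instance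
instance : Decidable P.okG := by unfold okG; infer_instance
instance : Decidable P.okI := by unfold okI; infer_instance
instance : Decidable P.okB := by unfold okB; infer_instance
instance (δ A : ℚ) : Decidable (P.okE δ A) := by unfold okE; infer_instance
instance (δ A y p : ℚ) : Decidable (P.okF δ A y p) := by unfold okF; infer_instance
instance : Decidable P.ok := by unfold ok; infer_instance

variable {P}

theorem max_ge_lam {lam t : ℚ} (h0 : 0 ≤ lam) (h1 : lam ≤ 1) : lam * t ≤ max 0 t := by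
  rcases le_total 0 t with h | h
  · rw [max_eq_right h]
    nlinarith
  · rw [max_eq_left h]
    nlinarith

/-- small `u` -/
theorem branchA {α β lam u v : ℚ} (hG : P.okG) (h : P.okA α β lam) (hu0 : 0 ≤ u) (hu1 : u ≤ P.vA) (hv : 0 ≤ v) :
    α * (u + v) + β * (P.K u + P.th * (v - 1) - max 0 (v - P.g * u)) ≤
      P.K u + P.S + hf P.A1 P.vA P.gu u + P.ph0 * (v - 1) - hf P.A1 P.vA P.gv v := by
  obtain ⟨hβ, l0, l1, c1, c2, c3, c4, c5, c6, c7, c8, c9⟩ := h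
  obtain ⟨-, -, -, -, -, -, -, -, -, hvA, -⟩ := hG
  have e1 : hf P.A1 P.vA P.gu u = -(P.A1 * (P.vA - u)) := by
    unfold hf
    rw [max_eq_left (by linarith), max_eq_right (by linarith)]
    ring
  have hl : ∀ l u v, P.fA α β l u v = P.fA α β l 0 v + (P.fA α β l 1 v - P.fA α β l 0 v) * u := by
    intro l u v
    unfold fA K
    ring
  have r0 : 0 ≤ P.fA α β lam u 0 + P.A1 * P.vA :=
    cil_seg (F := fun u => P.fA α β lam u 0 + P.A1 * P.vA) (fun u => by rw [hl lam u 0]; ring) hu0 hu1 c1 c2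
  have rA : 0 ≤ P.fA α β lam u P.vA := cil_seg (F := fun u => P.fA α β lam u P.vA) (fun u => hl lam u _) hu0 hu1 c3 c4
  have r1 : 0 ≤ P.fA α β lam u 1 := cil_seg (F := fun u => P.fA α β lam u 1) (fun u => hl lam u _) hu0 hu1 c5 c6
  have r2 : 0 ≤ P.fA α β 1 u 1 := cil_seg (F := fun u => P.fA α β 1 u 1) (fun u => hl 1 u _) hu0 hu1 c7 c8
  have m1 := mul_le_mul_of_nonneg_left (max_ge_lam (t := v - P.g * u) l0 l1) hβ
  have m2 := mul_le_mul_of_nonneg_left (le_max_right 0 (v - P.g * u)) hβ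
  rw [e1]
  rcases le_total v P.vA with h1 | h1
  · have := cil_seg (F := fun v => P.fA α β lam u v + P.A1 * (P.vA - v)) (fun v => by unfold fA; ring) hv h1
      (by simpa using r0) (by simpa using rA)
    unfold hf
    rw [max_eq_left (show v - 1 ≤ 0 by linarith), max_eq_right (show 0 ≤ P.vA - v by linarith)]
    unfold fA at this
    linarith
  rcases le_total v 1 with h2 | h2
  · have := cil_seg (F := fun v => P.fA α β lam u v) (fun v => by unfold fA; ring) h1 h2 rA r1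
    unfold hf
    rw [max_eq_left (show v - 1 ≤ 0 by linarith), max_eq_left (show P.vA - v ≤ 0 by linarith)]
    unfold fA at this
    linarith
  · have := cil_ray (F := fun v => P.fA α β 1 u v - P.gv * (v - 1)) (fun v => by unfold fA; ring) h2
      (by simpa using r2) (by unfold fA; linarith)
    unfold hf
    rw [max_eq_right (show 0 ≤ v - 1 by linarith), max_eq_left (show P.vA - v ≤ 0 by linarith)]
    unfold fA at this
    linarith

theorem caseA (h : P.ok) {u z v q : ℚ} (hu0 : 0 ≤ u) (hu1 : u ≤ P.vA) (hv : 0 ≤ v) (hq0 : 0 ≤ q) (hq1 : q ≤ 1)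
    (hq : q = 0 ∨ q * (u + z) ≤ u + z - P.sg * (z - v)) :
    q * max 0 (P.K u + P.th * (z - 1) - max 0 (v - P.g * u)) + hf P.A1 P.vA P.gv v ≤
      P.K u + P.S + hf P.A1 P.vA P.gu u + P.ph0 * (v - 1) := by
  obtain ⟨hG, a0, a1, a2, a3, -⟩ := h
  have b0 := branchA hG a0 hu0 hu1 hv
  have b1 := branchA hG a1 hu0 hu1 hv
  have b2 := branchA hG a2 hu0 hu1 hv
  have b3 := branchA hG a3 hu0 hu1 hv
  obtain ⟨hth, hsg, -, -, -, -, -, -, -, -, -, -, -, -, -, -, -, hpi⟩ := hG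
  have := cil_pb (c := P.K u + P.th * (v - 1) - max 0 (v - P.g * u))
    (c' := P.K u + P.th * (z - 1) - max 0 (v - P.g * u))
    (T := P.K u + P.S + hf P.A1 P.vA P.gu u + P.ph0 * (v - 1) - hf P.A1 P.vA P.gv v) hth hsg hpi hu0 hv hq0 hq1 hq
    (by ring) (by linarith) (by linarith) b2 b3
  linarith

theorem hf_large {A1 vA ga u : ℚ} (h : vA ≤ u) : hf A1 vA ga u = ga * max 0 (u - 1) := by
  unfold hf
  rw [max_eq_left (show vA - u ≤ 0 by linarith)]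
  ring

theorem K_nonneg (hG : P.okG) {u : ℚ} (hu : 0 ≤ u) : 0 ≤ P.K u := by
  obtain ⟨-, -, h0, h1, -⟩ := hG
  unfold K
  positivity

/-- a function which is affine on `[vA, 1]` and on `[1, b]` after adding the bonus -/
theorem two_seg {F : ℚ → ℚ} (hF : ∀ u, F u = F 0 + (F 1 - F 0) * u) {a b c u : ℚ} (h1 : a ≤ u) (h2 : u ≤ b)
    (a1 : 0 ≤ F a) (a2 : 0 ≤ F 1) (a3 : 0 ≤ F b + c * (b - 1)) : 0 ≤ F u + c * max 0 (u - 1) := by
  rcases le_total u 1 with h | h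
  · rw [max_eq_left (by linarith)]
    have := cil_seg hF h1 h a1 a2
    linarith
  · rw [max_eq_right (by linarith)]
    exact cil_seg (F := fun u => F u + c * (u - 1)) (fun u => by rw [hF u]; ring) h h2 (by simpa using a2) a3

/-- small kill radius -/
theorem caseI (h : P.ok) {u z v q : ℚ} (hu1 : P.vA ≤ u) (hz : z ≤ 1) (hR : 0 < u + z) (hv : 0 ≤ v) (hq0 : 0 ≤ q)
    (hq1 : q ≤ 1) (hq : q = 0 ∨ q * (u + z) ≤ u + z - P.sg * (z - v)) :
    q * max 0 (P.K u + P.th * (z - 1) - max 0 (v - P.g * u)) + hf P.A1 P.vA P.gv v ≤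
      P.K u + P.S + hf P.A1 P.vA P.gu u + P.gv * (v - 1) := by
  obtain ⟨hG, -, -, -, -, ⟨i1, i2, i3, i4⟩, -⟩ := h
  have hG' := hG
  obtain ⟨hth, hsg, -, -, hS, hgu, hgv, hA1, hvA0, hvA1, -⟩ := hG'
  have hu0 : 0 ≤ u := hvA0.trans hu1
  have hK := K_nonneg hG hu0
  rw [hf_large hu1]
  set B := P.gu * max 0 (u - 1) with hB
  have hB0 : 0 ≤ B := mul_nonneg hgu (le_max_left _ _)
  have hw : 0 ≤ max 0 (v - P.g * u) := le_max_left _ _
  have hM : q * max 0 (P.K u + P.th * (z - 1) - max 0 (v - P.g * u)) ≤ q * max 0 (P.K u + P.th * (z - 1)) :=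
    mul_le_mul_of_nonneg_left (max_le_max le_rfl (by linarith)) hq0
  have hM0 : 0 ≤ max 0 (P.K u + P.th * (z - 1)) := le_max_left _ _
  have hM1 : q * max 0 (P.K u + P.th * (z - 1)) ≤ max 0 (P.K u + P.th * (z - 1)) := by nlinarith
  have hA : 0 ≤ P.A1 * max 0 (P.vA - v) := mul_nonneg hA1 (le_max_left _ _)
  have key : P.gv * (P.sg + u + 1) ≤ P.sg * (P.K u + P.S + B) := by
    rcases le_total u 1 with h1 | h1
    · have := cil_seg (F := fun u => P.sg * (P.K u + P.S) - P.gv * (P.sg + u + 1)) (fun u => by unfold K; ring) hu1 h1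
        (by linarith) (by linarith)
      have h2 := mul_nonneg (show 0 ≤ P.sg by linarith) hB0
      linarith
    · have := cil_ray (F := fun u => P.sg * (P.K u + P.S + P.gu * (u - 1)) - P.gv * (P.sg + u + 1))
        (fun u => by unfold K; ring) h1 (by linarith) (by unfold K; linarith)
      rw [hB, max_eq_right (show 0 ≤ u - 1 by linarith)]
      linarith
  unfold hf
  rcases le_total 1 v with h1 | h1
  · rw [max_eq_right (show 0 ≤ v - 1 by linarith)]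
    have : max 0 (P.K u + P.th * (z - 1)) ≤ P.K u := max_le hK (by nlinarith)
    linarith
  rw [max_eq_left (show v - 1 ≤ 0 by linarith)]
  have hsg0 : 0 < P.sg := by linarith
  -- the target
  have T1 : P.gv * (u + 1) ≤ P.sg * (P.K u + P.S + B + P.gv * (v - 1)) := by
    have := mul_nonneg (mul_nonneg hsg0.le hgv) hv
    linarith
  have T0 : 0 ≤ P.K u + P.S + B + P.gv * (v - 1) := by
    by_contra hn
    push Not at hn
    have := mul_neg_of_pos_of_neg hsg0 hn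
    have := mul_nonneg hgv (show 0 ≤ u + 1 by linarith)
    linarith
  suffices q * max 0 (P.K u + P.th * (z - 1)) ≤ P.K u + P.S + B + P.gv * (v - 1) by linarith
  have hgz := mul_le_mul_of_nonneg_right i1 (show 0 ≤ 1 - z by linarith)
  rcases le_total z v with h2 | h2
  · refine hM1.trans (max_le T0 ?_)
    have h3 := mul_le_mul_of_nonneg_right i1 (show 0 ≤ 1 - v by linarith)
    have h4 := mul_le_mul_of_nonneg_left h2 hth.le
    linarith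
  rcases hq with hq | hq
  · rw [hq, zero_mul]
    exact T0
  rcases le_total (P.gv * (u + z)) (P.sg * (P.K u + P.th * (z - 1))) with h3 | h3
  · have hMp : 0 ≤ P.K u + P.th * (z - 1) := by
      by_contra hn
      push Not at hn
      have := mul_neg_of_pos_of_neg hsg0 hn
      have := mul_nonneg hgv hR.le
      linarith
    rw [max_eq_right hMp]
    refine le_of_mul_le_mul_right ?_ hR
    have h4 := mul_le_mul_of_nonneg_right hq hMp
    have h5 := mul_le_mul_of_nonneg_right h3 (show 0 ≤ z - v by linarith)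
    have h6 : P.K u + P.th * (z - 1) - P.gv * (z - v) ≤ P.K u + P.S + B + P.gv * (v - 1) := by linarith
    have h7 := mul_le_mul_of_nonneg_right h6 hR.le
    linarith
  · refine hM1.trans (max_le T0 ?_)
    refine le_of_mul_le_mul_left ?_ hsg0
    have := mul_le_mul_of_nonneg_left hz hgv
    linarith

end CPar

end Crest.Agent.R310
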