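import Crest.Agent.R310.CILb

/-!
# R310 / CILc : the one-body certificate, large kill radius (helper52)
-/

set_option autoImplicit false

namespace Crest.Agent.R310

theorem cil_conv {n R M T : ℚ} (hR : 0 < R) (hn : n ≤ R) (hM : 0 ≤ M) (hT : 0 ≤ T)
    (h : ∀ q : ℚ, 0 ≤ q → q ≤ 1 → (q = 0 ∨ q * R ≤ n) → q * max 0 M ≤ T) : n * M ≤ T * R := by
  rcases le_total n 0 with h0 | h0
  · have h1 := mul_nonneg hT hR.le
    have h2 := mul_nonneg (show 0 ≤ -n by linarith) hM
    linarith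
  · have e : n / R * R = n := div_mul_cancel₀ _ hR.ne'
    have := h (n / R) (div_nonneg h0 hR.le) ((div_le_one hR).2 hn) (Or.inr e.le)
    rw [max_eq_right hM] at this
    have h1 := mul_le_mul_of_nonneg_right this hR.le
    calc n * M = n / R * R * M := by rw [e]
      _ = n / R * M * R := by ring
      _ ≤ _ := h1

namespace CPar

variable {P : CPar}

/-- the multiplier -/
def ph (P : CPar) (u : ℚ) : ℚ := P.th + P.gv - P.ps * max 0 (P.uF - u)

/-- the right side at `v = 1 - δ` -/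
def tt (P : CPar) (δ A u : ℚ) : ℚ := P.K u + P.S + A + P.gu * max 0 (u - 1) - P.ph u * δ

theorem tt_low {δ A u : ℚ} (h : u ≤ P.uF) : P.tt δ A u = P.tz δ A u + P.gu * max 0 (u - 1) := by
  unfold tt tz ph
  rw [max_eq_right (show 0 ≤ P.uF - u by linarith)]
  ring

theorem tt_high {δ A u : ℚ} (hF : 1 ≤ P.uF) (h : P.uF ≤ u) : P.tt δ A u = P.tw δ A u + P.gu * (u - 1) := by
  unfold tt tw ph
  rw [max_eq_left (show P.uF - u ≤ 0 by linarith), max_eq_right (show 0 ≤ u - 1 by linarith)]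
  ring

theorem tt_nonneg (hG : P.okG) {δ A u : ℚ} (hE : P.okE δ A) (hu : P.vA ≤ u) : 0 ≤ P.tt δ A u := by
  obtain ⟨e1, e2, e3, -⟩ := hE
  obtain ⟨-, -, -, hk1, -, hgu, -, -, -, -, hF, -⟩ := hG
  rcases le_total u P.uF with h | h
  · rw [tt_low h]
    exact two_seg (F := P.tz δ A) (fun u => by unfold tz K; ring) hu h e1 e2 e3
  · rw [tt_high hF h]
    exact cil_ray (F := fun u => P.tw δ A u + P.gu * (u - 1)) (fun u => by unfold tw K; ring) h
      (by unfold tz at e3; unfold tw; linarith) (by unfold tw K; linarith)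

theorem end_mid (hG : P.okG) {δ A u s : ℚ} (hE : P.okE δ A) (hδ : 0 ≤ δ) (hu : P.vA ≤ u) (huB : u ≤ P.uB)
    (hs : 0 ≤ s) : (u + 1 - P.sg * δ - (P.sg - 1) * s) * (P.K u + P.th * s) ≤ P.tt δ A u * (u + 1 + s) := by
  have T0 := tt_nonneg hG hE hu
  obtain ⟨-, -, -, e1, e2, e3, e4⟩ := hE
  obtain ⟨hth, hsg, -, -, -, hgu, -, -, -, -, hF, -, -, hps, -⟩ := hG
  have hb : 0 < P.sg - 1 := by linarith
  have hg2 : 0 ≤ 4 * P.th * (P.sg - 1) * (P.ps * δ) := by positivity
  have hX : ∀ u, P.xq δ u = P.xq δ 0 + (P.xq δ 1 - P.xq δ 0) * u := fun u => by unfold xq K; ring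
  rcases le_total u 1 with h1 | h1
  · have := cil_conc (G := fun u => P.gq δ (P.tz δ A u) 0 u) hg2 (fun u => by unfold gq tz K; ring) hX hu h1 e1 e2
    refine cil_prod (G := P.tz δ A u * (u + 1) + 0) hth hsg hs T0 this ?_
    rw [tt_low (h1.trans hF), max_eq_left (show u - 1 ≤ 0 by linarith)]
    linarith
  have hb2 : 0 ≤ P.gu * (u - 1) * (u - 1) := by
    have : 0 ≤ u - 1 := by linarith
    positivity
  rcases le_total u P.uF with h2 | h2
  · have := cil_conc (G := fun u => P.gq δ (P.tz δ A u) (2 * P.gu * (u - 1)) u) hg2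
      (fun u => by unfold gq tz K; ring) hX h1 h2 (by simpa using e2)
      (e3.trans_eq (by unfold gq tz tw; ring))
    refine cil_prod (G := P.tz δ A u * (u + 1) + 2 * P.gu * (u - 1)) hth hsg hs T0 this ?_
    rw [tt_low h2, max_eq_right (show 0 ≤ u - 1 by linarith)]
    linarith
  · have := cil_conc (G := fun u => P.gq δ (P.tw δ A u) (2 * P.gu * (u - 1)) u) (g2 := 0) le_rfl
      (fun u => by unfold gq tw K; ring) hX h2 huB e3 e4
    refine cil_prod (G := P.tw δ A u * (u + 1) + 2 * P.gu * (u - 1)) hth hsg hs T0 this ?_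
    rw [tt_high hF h2]
    linarith

theorem far_facts {δ A y p u : ℚ} (hG : P.okG) (hF : P.okF δ A y p) (hu : P.uB ≤ u) :
    P.yq δ u ≤ y * (P.th * (u + (1 - δ))) ∧ P.gv * δ ≤ P.S + P.gu * (u - 1) + A ∧
      P.gv * δ + p * P.yq δ u ≤ P.S + P.gu * (u - 1) + A := by
  obtain ⟨-, f2, f3, f4, f5, f6⟩ := hF
  obtain ⟨-, -, -, -, -, hgu, -⟩ := hG
  refine ⟨?_, ?_, ?_⟩
  · have := cil_ray (F := fun u => y * (P.th * (u + (1 - δ))) - P.yq δ u) (fun u => by unfold yq K; ring) hu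
      (by linarith) (by unfold yq K; linarith)
    linarith
  · have := mul_le_mul_of_nonneg_left hu hgu
    linarith
  · have := cil_ray (F := fun u => P.S + P.gu * (u - 1) + A - (P.gv * δ + p * P.yq δ u))
      (fun u => by unfold yq K; ring) hu (by linarith) (by unfold yq K; linarith)
    linarith

theorem end_far (hG : P.okG) {δ A y p u s : ℚ} (hF : P.okF δ A y p) (hδ : 0 ≤ δ) (hδ1 : δ ≤ 1) (hu : P.uB ≤ u)
    (hs : 0 ≤ s) (T0 : 0 ≤ P.tt δ A u) :
    (u + 1 - P.sg * δ - (P.sg - 1) * s) * (P.K u + P.th * s) ≤ P.tt δ A u * (u + 1 + s) := by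
  obtain ⟨g1, g2, g3⟩ := far_facts hG hF hu
  have hG' := hG
  obtain ⟨hth, hsg, -, -, -, -, -, -, -, -, hF1, hFB, -⟩ := hG'
  have hu0 : 0 ≤ u := by linarith
  have hK := K_nonneg hG hu0
  have h1 := mul_nonneg (show 0 ≤ P.sg by linarith) hδ
  have h2 := mul_nonneg (show 0 ≤ P.sg by linarith) hs
  refine cil_conv (by linarith) (by linarith) (by positivity) T0 fun q q0 q1 hq => ?_
  refine cil_pbY (c := P.K u - P.th * δ) (u := u) (v := 1 - δ) (z := 1 + s) hth hsg hF.1 hu0 (by linarith) q0 q1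
    (hq.imp_right fun h => by linarith) (by ring) g1 T0 ?_ ?_
  · rw [tt_high hF1 (hFB.trans hu)]
    unfold tw
    linarith
  · rw [tt_high hF1 (hFB.trans hu)]
    unfold yq at g3
    unfold tw
    linarith

theorem mid_fact (hB : P.okB) {u : ℚ} (hu : P.vA ≤ u) (huB : u ≤ P.uB) :
    P.pi0 * P.yq 0 u ≤ P.S + P.gu * max 0 (u - 1) := by
  obtain ⟨-, -, b3, b4, b5, -⟩ := hB
  have := two_seg (F := fun u => P.S - P.pi0 * P.yq 0 u) (c := P.gu) (fun u => by unfold yq K; ring) hu huB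
    (by linarith) (by linarith) (by linarith)
  linarith

/-- `1 ≤ v`; `w` is any number above `v - g u` and `0`, or `v = 1` -/
theorem large_v (h : P.ok) {u z v q w : ℚ} (hu1 : P.vA ≤ u) (hv : 1 ≤ v) (hw0 : 0 ≤ w)
    (hw : v - P.g * u ≤ w ∨ v = 1) (hq0 : 0 ≤ q) (hq1 : q ≤ 1)
    (hq : q = 0 ∨ q * (u + z) ≤ u + z - P.sg * (z - v)) :
    q * max 0 (P.K u + P.th * (z - 1) - w) ≤ P.K u + P.S + P.gu * max 0 (u - 1) + (P.ph u - P.gv) * (v - 1) := by
  obtain ⟨hG, -, -, -, -, -, hB, -, -, hF, -⟩ := h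
  have hG' := hG
  obtain ⟨hth, hsg, -, -, hS, hgu, -, -, hvA0, hvA1, hF1, hFB, hg, hps, hpi0, hth1, hpi1, hpi⟩ := hG'
  have hu0 : 0 ≤ u := hvA0.trans hu1
  have hK := K_nonneg hG hu0
  set B := P.gu * max 0 (u - 1) with hBd
  have hB0 : 0 ≤ B := mul_nonneg hgu (le_max_left _ _)
  have hv1 : 0 ≤ v - 1 := by linarith
  have hthv := mul_nonneg hth.le hv1
  rcases le_total u P.uB with h1 | h1
  · have m1 := mid_fact hB hu1 h1
    rw [← hBd] at m1
    obtain ⟨b1, b2, -⟩ := hB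
    obtain ⟨ψ, hψ⟩ : ∃ ψ, ψ = P.ps * max 0 (P.uF - u) := ⟨_, rfl⟩
    have e : P.ph u - P.gv = P.th - ψ := by
      unfold ph
      rw [hψ]
      ring
    rw [e]
    have ψ0 : 0 ≤ ψ := hψ ▸ mul_nonneg hps (le_max_left _ _)
    have ψ1 : ψ ≤ P.th * P.pi0 * (P.sg - 1) := by
      refine le_trans ?_ b2
      rw [hψ]
      exact mul_le_mul_of_nonneg_left (max_le (by linarith) (by linarith)) hps
    have hsp : 0 ≤ P.sg * P.pi0 := mul_nonneg (by linarith) hpi0
    have ψ2 : ψ ≤ P.th := by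
      have := mul_le_mul_of_nonneg_left (show P.pi0 * (P.sg - 1) ≤ 1 by linarith) hth.le
      linarith
    have ψ3 : ψ * (P.g * u - 1) ≤ P.S := by
      rcases le_total u P.uF with h2 | h2
      · rw [hψ, max_eq_right (show 0 ≤ P.uF - u by linarith)]
        refine le_of_mul_le_mul_left ?_ (show 0 < 4 * P.g by positivity)
        have := mul_nonneg hps (sq_nonneg (P.g * P.uF - P.g * u - (P.g * u - 1)))
        linarith
      · rw [hψ, max_eq_left (show P.uF - u ≤ 0 by linarith)]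
        linarith
    have hψv := mul_le_mul_of_nonneg_right ψ1 hv1
    have hψv2 := mul_le_mul_of_nonneg_right ψ2 hv1
    have β2 : 0 ≤ P.pi0 * (P.sg - 1) := mul_nonneg hpi0 (by linarith)
    have L1 : P.th * P.pi0 * (u + v) + (1 - P.sg * P.pi0) * (P.K u + P.th * (v - 1)) ≤
        P.K u + P.S + B + (P.th - ψ) * (v - 1) := by
      unfold yq at m1
      linarith
    have c1 := mul_nonneg (show 0 ≤ 1 - P.sg * P.pi0 by linarith) hw0
    have c2 := mul_nonneg β2 hw0
    have c3 := mul_le_mul_of_nonneg_right hpi1 (show 0 ≤ P.K u + P.th * (v - 1) by linarith)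
    refine cil_pb (c := P.K u + P.th * (v - 1) - w) hth hsg hpi hu0 (by linarith) hq0 hq1 hq (by ring) (by linarith) ?_
      (by linarith) (by linarith)
    rcases hw with hw | hw
    · have h2 := mul_le_mul_of_nonneg_left hw ψ0
      have h3 := mul_le_mul_of_nonneg_right (ψ2.trans hth1) hw0
      linarith
    · rw [hw]
      linarith
  · obtain ⟨g1, -, g3⟩ := far_facts hG hF h1
    have e : P.ph u - P.gv = P.th := by
      unfold ph
      rw [max_eq_left (show P.uF - u ≤ 0 by linarith)]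
      ring
    rw [e]
    have eB : B = P.gu * (u - 1) := by rw [hBd, max_eq_right (show 0 ≤ u - 1 by linarith)]
    have hp0 : 0 ≤ P.p0 := hB.2.2.2.2.2
    have hM : q * max 0 (P.K u + P.th * (z - 1) - w) ≤ q * max 0 (P.K u + P.th * (z - 1)) :=
      mul_le_mul_of_nonneg_left (max_le_max le_rfl (by linarith)) hq0
    refine hM.trans ?_
    unfold yq at g1 g3
    have d1 : 0 ≤ (P.sg - 1) * (P.th * (v - 1)) := mul_nonneg (by linarith) hthv
    have d2 := mul_nonneg hp0 d1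
    rcases le_total 0 P.y0 with hy | hy
    · have d3 := mul_nonneg hy hthv
      exact cil_pbY (c := P.K u + P.th * (v - 1)) hth hsg hF.1 hu0 (by linarith) hq0 hq1 hq (by ring) (by linarith)
        (by linarith) (by linarith) (by linarith)
    · have d3 : P.y0 * (P.th * (u + (1 - 0))) ≤ 0 := mul_nonpos_of_nonpos_of_nonneg hy (by positivity)
      exact cil_pbY (c := P.K u + P.th * (v - 1)) (y := 0) (p := 0) hth hsg (by simp) hu0 (by linarith) hq0 hq1 hq
        (by ring) (by linarith) (by linarith) (by linarith) (by linarith)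

theorem caseII (h : P.ok) {u z v q : ℚ} (hu1 : P.vA ≤ u) (hz : 1 ≤ z) (hv : 0 ≤ v) (hq0 : 0 ≤ q)
    (hq1 : q ≤ 1) (hq : q = 0 ∨ q * (u + z) ≤ u + z - P.sg * (z - v)) :
    q * max 0 (P.K u + P.th * (z - 1) - max 0 (v - P.g * u)) + hf P.A1 P.vA P.gv v ≤
      P.K u + P.S + hf P.A1 P.vA P.gu u + P.ph u * (v - 1) := by
  have h' := h
  obtain ⟨hG, -, -, -, -, -, -, E1, EA, -, FA, F1⟩ := h'
  have hG' := hG
  obtain ⟨hth, hsg, -, -, hS, hgu, -, -, hvA0, hvA1, -⟩ := hG'
  have hu0 : 0 ≤ u := hvA0.trans hu1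
  have hK := K_nonneg hG hu0
  rw [hf_large hu1]
  rcases le_total 1 v with h1 | h1
  · have := large_v h hu1 h1 (le_max_left 0 (v - P.g * u)) (Or.inl (le_max_right _ _)) hq0 hq1 hq
    rw [hf_large (hvA1.trans h1), max_eq_right (show 0 ≤ v - 1 by linarith)]
    linarith
  obtain ⟨s, rfl⟩ : ∃ s, z = 1 + s := ⟨z - 1, by ring⟩
  have hs : 0 ≤ s := by linarith
  have hR : 0 < u + 1 + s := by linarith
  have hM0 : 0 ≤ P.K u + P.th * s := by positivity
  have hB0 : 0 ≤ P.gu * max 0 (u - 1) := mul_nonneg hgu (le_max_left _ _)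
  have hw : 0 ≤ max 0 (v - P.g * u) := le_max_left _ _
  have hM : q * max 0 (P.K u + P.th * (1 + s - 1) - max 0 (v - P.g * u)) ≤ q * (P.K u + P.th * s) :=
    mul_le_mul_of_nonneg_left (max_le hM0 (by linarith)) hq0
  have T1 := tt_nonneg hG E1 hu1
  have TA := tt_nonneg hG EA hu1
  have T0 : 0 ≤ P.tt 0 0 u := by
    unfold tt
    linarith
  have e1 : (u + 1 - P.sg * 1 - (P.sg - 1) * s) * (P.K u + P.th * s) ≤ P.tt 1 (P.A1 * P.vA) u * (u + 1 + s) := by
    rcases le_total u P.uB with h2 | h2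
    · exact end_mid hG E1 zero_le_one hu1 h2 hs
    · exact end_far hG F1 zero_le_one le_rfl h2 hs T1
  have eA : (u + 1 - P.sg * (1 - P.vA) - (P.sg - 1) * s) * (P.K u + P.th * s) ≤
      P.tt (1 - P.vA) 0 u * (u + 1 + s) := by
    rcases le_total u P.uB with h2 | h2
    · exact end_mid hG EA (by linarith) hu1 h2 hs
    · exact end_far hG FA (by linarith) (by linarith) h2 hs TA
  have e0 : (u + 1 - (P.sg - 1) * s) * (P.K u + P.th * s) ≤ P.tt 0 0 u * (u + 1 + s) := by
    have h2 := mul_nonneg (show 0 ≤ P.sg by linarith) hs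
    refine cil_conv hR (by linarith) hM0 T0 fun q q0 q1 hq => ?_
    have := large_v h (z := 1 + s) (w := 0) hu1 le_rfl le_rfl (Or.inr rfl) q0 q1 (hq.imp_right fun h => by linarith)
    unfold tt
    simpa using this
  -- interpolation
  obtain ⟨T, hT, hT0, hT1⟩ : ∃ T, T = P.K u + P.S + P.gu * max 0 (u - 1) + P.ph u * (v - 1) - hf P.A1 P.vA P.gv v ∧
      0 ≤ T ∧ (u + 1 + s - P.sg * (1 + s - v)) * (P.K u + P.th * s) ≤ T * (u + 1 + s) := by
    refine ⟨_, rfl, ?_⟩
    unfold tt at T1 TA T0 e1 eA e0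
    unfold hf
    generalize P.gu * max 0 (u - 1) = B at *
    rw [max_eq_left (show v - 1 ≤ 0 by linarith)]
    rcases le_total v P.vA with h2 | h2
    · rw [max_eq_right (show 0 ≤ P.vA - v by linarith)]
      constructor
      · have := cil_seg (F := fun v => P.K u + P.S + B + P.ph u * (v - 1) + P.A1 * (P.vA - v)) (fun v => by ring) hv h2
          (by linarith) (by linarith)
        linarith
      · have := cil_seg (F := fun v => (P.K u + P.S + B + P.ph u * (v - 1) + P.A1 * (P.vA - v)) * (u + 1 + s) -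
          (u + 1 + s - P.sg * (1 + s - v)) * (P.K u + P.th * s)) (fun v => by ring) hv h2 (by linarith) (by linarith)
        linarith
    · rw [max_eq_left (show P.vA - v ≤ 0 by linarith)]
      constructor
      · have := cil_seg (F := fun v => P.K u + P.S + B + P.ph u * (v - 1)) (fun v => by ring) h2 h1
          (by linarith) (by linarith)
        linarith
      · have := cil_seg (F := fun v => (P.K u + P.S + B + P.ph u * (v - 1)) * (u + 1 + s) -
          (u + 1 + s - P.sg * (1 + s - v)) * (P.K u + P.th * s)) (fun v => by ring) h2 h1 (by linarith) (by linarith)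
        linarith
  suffices q * (P.K u + P.th * s) ≤ T by linarith
  rcases hq with hq | hq
  · rw [hq, zero_mul]
    exact hT0
  · refine le_of_mul_le_mul_right ?_ hR
    have := mul_le_mul_of_nonneg_right hq hM0
    linarith

theorem core (h : P.ok) {u z : ℚ} (hu : 0 ≤ u) (hR : 0 < u + z) : ∃ φ : ℚ, ∀ v q : ℚ, 0 ≤ v → 0 ≤ q → q ≤ 1 →
    (q = 0 ∨ q * (u + z) ≤ u + z - P.sg * (z - v)) →
    q * max 0 (P.K u + P.th * (z - 1) - max 0 (v - P.g * u)) + hf P.A1 P.vA P.gv v ≤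
      P.K u + P.S + hf P.A1 P.vA P.gu u + φ * (v - 1) := by
  rcases le_total u P.vA with h1 | h1
  · exact ⟨P.ph0, fun v q hv q0 q1 hq => caseA h hu h1 hv q0 q1 hq⟩
  rcases le_total z 1 with h2 | h2
  · exact ⟨P.gv, fun v q hv q0 q1 hq => caseI h h1 h2 hR hv q0 q1 hq⟩
  · exact ⟨P.ph u, fun v q hv q0 q1 hq => caseII h h1 h2 hv q0 q1 hq⟩

end CPar

end Crest.Agent.R310
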