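import Crest.Agent.R310.CILc
import Crest.Agent.R310.CDefs

/-!
# R310 / CILd : cells of parameters (helper52)
-/

set_option autoImplicit false

namespace Crest.Agent.R310

/-- the pointwise certificate, mean radius `1` -/
def PtW (a b σ m S : ℚ) : Prop :=
  ∃ h : ℚ → ℚ, ∀ u R φ : ℚ, 0 ≤ u → 0 < R → 0 ≤ φ → φ ≤ 1 → ∃ ψ : ℚ, ∀ v : ℚ, 0 ≤ v →
    cT a b σ m m v u R φ + (1 - m) * (φ * (b * (u + 1) / 2)) + h v ≤ S + h u + ψ * (v - 1)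

def dq (n : ℕ) : ℚ := (n : ℚ) / 10000

structure Sub where
  ph0 : ℕ
  l1 : ℕ
  l2 : ℕ
  ps : ℕ
  uF : ℕ
  uB : ℕ
  y0 : ℕ
  p0 : ℕ
  yA : ℕ
  pA : ℕ
  y1 : ℕ
  p1 : ℕ

structure Leaf where
  g : ℕ
  ka : ℕ
  mu : ℕ
  sg : ℕ
  S : ℕ
  t1 : ℕ
  A1 : ℕ
  vA : ℕ
  gv : ℕ
  pi0 : ℕ
  s0 : Sub
  s1 : Sub

namespace Leaf

variable (L : Leaf)

def r0 (τ : ℚ) : ℚ := 1 - dq L.ka - dq L.mu * τ

def r1 (τ : ℚ) : ℚ := 2 - dq L.g - dq L.mu * τ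

def par (τ : ℚ) (s : Sub) : CPar where
  k0 := max 0 (L.r0 τ)
  k1 := max 0 (L.r1 τ)
  th := 1 - τ
  g := dq L.g
  S := dq L.S - (max 0 (L.r0 τ) - L.r0 τ) - (max 0 (L.r1 τ) - L.r1 τ)
  sg := dq L.sg
  A1 := dq L.A1
  vA := dq L.vA
  gu := dq L.gv - (max 0 (L.r1 τ) - L.r1 τ)
  gv := dq L.gv
  pi0 := dq L.pi0
  ph0 := dq s.ph0
  lc := 1 - τ - dq s.ph0
  l1 := dq s.l1
  l2 := dq s.l2
  ps := dq s.ps
  uF := dq s.uF
  uB := dq s.uB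
  y0 := dq s.y0
  p0 := dq s.p0
  yA := dq s.yA
  pA := dq s.pA
  y1 := dq s.y1
  p1 := dq s.p1

theorem par_core {τ : ℚ} {s : Sub} (h : (L.par τ s).ok) {u z : ℚ} (hu : 0 ≤ u) (hR : 0 < u + z) :
    ∃ φ : ℚ, ∀ v q : ℚ, 0 ≤ v → 0 ≤ q → q ≤ 1 → (q = 0 ∨ q * (u + z) ≤ u + z - dq L.sg * (z - v)) →
      q * max 0 (L.r0 τ + L.r1 τ * u + (1 - τ) * (z - 1) - max 0 (v - dq L.g * u)) +
          hf (dq L.A1) (dq L.vA) (dq L.gv) v ≤
        L.r0 τ + L.r1 τ * u + dq L.S + hf (dq L.A1) (dq L.vA) (dq L.gv) u + φ * (v - 1) := by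
  obtain ⟨φ, hφ⟩ := CPar.core h hu hR
  refine ⟨φ, fun v q hv q0 q1 hq => ?_⟩
  have := hφ v q hv q0 q1 hq
  simp only [par, CPar.K] at this
  have n0 : L.r0 τ ≤ max 0 (L.r0 τ) := le_max_right _ _
  have n1 : L.r1 τ ≤ max 0 (L.r1 τ) := le_max_right _ _
  generalize max 0 (L.r0 τ) = k0 at *
  generalize max 0 (L.r1 τ) = k1 at *
  have h1 := mul_le_mul_of_nonneg_right n1 hu
  have h2 : q * max 0 (L.r0 τ + L.r1 τ * u + (1 - τ) * (z - 1) - max 0 (v - dq L.g * u)) ≤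
      q * max 0 (k0 + k1 * u + (1 - τ) * (z - 1) - max 0 (v - dq L.g * u)) :=
    mul_le_mul_of_nonneg_left (max_le_max le_rfl (by linarith)) q0
  have h3 := mul_le_mul_of_nonneg_left (le_max_right 0 (u - 1)) (show 0 ≤ k1 - L.r1 τ by linarith)
  unfold hf at this ⊢
  linarith

theorem ptw {a b σ m S : ℚ} (h0 : (L.par 0 L.s0).ok) (h1 : (L.par (dq L.t1) L.s1).ok) (hm1 : m ≤ 1)
    (hg : a + b * m ≤ dq L.g) (hk : b * m ≤ dq L.ka) (hmu : 1 - m ≤ dq L.mu) (hsg : dq L.sg ≤ σ)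
    (hσ : σ * b ≤ 2) (ht : 1 ≤ dq L.t1 * dq L.sg) (hS : dq L.S ≤ S) : PtW a b σ m S := by
  refine ⟨hf (dq L.A1) (dq L.vA) (dq L.gv), fun u R φ hu hR f0 f1 => ?_⟩
  have hsg1 : 1 < dq L.sg := h0.1.2.1
  have hσ0 : 0 < σ := by linarith
  have ht0 : 0 < dq L.t1 := by
    by_contra hn
    push Not at hn
    nlinarith
  obtain ⟨z, rfl⟩ : ∃ z, R = u + z := ⟨R - u, by ring⟩
  obtain ⟨φ0, c0⟩ := L.par_core h0 hu hR
  obtain ⟨φ1, c1⟩ := L.par_core h1 hu hR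
  obtain ⟨τ, hτ⟩ : ∃ τ, τ = φ / σ := ⟨_, rfl⟩
  have eφ : φ = τ * σ := by rw [hτ, div_mul_cancel₀ _ hσ0.ne']
  have τ0 : 0 ≤ τ := hτ ▸ div_nonneg f0 hσ0.le
  have τ1 : τ ≤ dq L.t1 := by
    rw [hτ, div_le_iff₀ hσ0]
    have := mul_le_mul_of_nonneg_left hsg ht0.le
    linarith
  obtain ⟨t, ht'⟩ : ∃ t, t = τ / dq L.t1 := ⟨_, rfl⟩
  have eτ : τ = t * dq L.t1 := by rw [ht', div_mul_cancel₀ _ ht0.ne']
  have t0 : 0 ≤ t := ht' ▸ div_nonneg τ0 ht0.le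
  have t1 : 0 ≤ 1 - t := by
    have : t ≤ 1 := ht' ▸ (div_le_one ht0).2 τ1
    linarith
  refine ⟨(1 - t) * φ0 + t * φ1 - 1, fun v hv => ?_⟩
  obtain ⟨q, hq⟩ : ∃ q, q = 1 - ff σ ((v + u) / (u + z)) := ⟨_, rfl⟩
  have q0 : 0 ≤ q := by
    have : ff σ ((v + u) / (u + z)) ≤ 1 := max_le zero_le_one (min_le_left _ _)
    linarith
  have q1 : q ≤ 1 := by
    have : 0 ≤ ff σ ((v + u) / (u + z)) := le_max_left _ _
    linarith
  have q2 : q = 0 ∨ q * (u + z) ≤ u + z - dq L.sg * (z - v) := by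
    rcases le_total z v with h | h
    · right
      have := mul_le_mul_of_nonneg_right q1 hR.le
      have := mul_nonneg (show 0 ≤ dq L.sg by linarith) (show 0 ≤ v - z by linarith)
      linarith
    rcases le_total 1 (σ * (1 - (v + u) / (u + z))) with h2 | h2
    · left
      rw [hq, ff, min_eq_left h2, max_eq_right zero_le_one, sub_self]
    · right
      have h3 : σ * (1 - (v + u) / (u + z)) ≤ ff σ ((v + u) / (u + z)) := by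
        rw [ff, min_eq_right h2]
        exact le_max_right _ _
      have h4 : q ≤ 1 - σ * (1 - (v + u) / (u + z)) := by linarith
      have h5 := mul_le_mul_of_nonneg_right h4 hR.le
      have e : (1 - σ * (1 - (v + u) / (u + z))) * (u + z) = u + z - σ * (z - v) := by
        field_simp
        ring
      have h6 := mul_le_mul_of_nonneg_right hsg (show 0 ≤ z - v by linarith)
      linarith
  have d0 := c0 v q hv q0 q1 q2
  have d1 := c1 v q hv q0 q1 q2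
  unfold cT cL cK
  rw [← hq, ← hτ]
  obtain ⟨w, hw⟩ : ∃ w, w = max 0 (v - dq L.g * u) := ⟨_, rfl⟩
  rw [← hw] at d0 d1
  have hgu := mul_le_mul_of_nonneg_right hg hu
  have w1 : w ≤ max 0 (v - (a + b * m) * u) := hw ▸ max_le_max le_rfl (by linarith)
  generalize max 0 (v - (a + b * m) * u) = w' at *
  have hu1 : 0 ≤ u + 1 := by linarith
  have b1 : φ * (b * (u + 1) / 2) ≤ τ * (u + 1) := by
    have := mul_le_mul_of_nonneg_left hσ (mul_nonneg τ0 hu1)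
    rw [eφ]
    linarith
  obtain ⟨E, hE⟩ : ∃ E, E = φ * (b * (u + 1) / 2) := ⟨_, rfl⟩
  have eE : φ * (b * (m * u + m) / 2) = m * E := by
    rw [hE]
    ring
  rw [eE, ← hE]
  rw [← hE] at b1
  have b2 := mul_le_mul_of_nonneg_left b1 (show 0 ≤ 1 - m by linarith)
  have b3 := mul_le_mul_of_nonneg_right hmu (mul_nonneg τ0 hu1)
  obtain ⟨X0, hX0⟩ : ∃ X0, X0 = max 0 (L.r0 0 + L.r1 0 * u + (1 - 0) * (z - 1) - w) := ⟨_, rfl⟩
  obtain ⟨X1, hX1⟩ : ∃ X1, X1 = max 0 (L.r0 (dq L.t1) + L.r1 (dq L.t1) * u + (1 - dq L.t1) * (z - 1) - w) := ⟨_, rfl⟩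
  rw [← hX0] at d0
  rw [← hX1] at d1
  have x0 : 0 ≤ X0 := hX0 ▸ le_max_left _ _
  have x1 : 0 ≤ X1 := hX1 ▸ le_max_left _ _
  have x2 : L.r0 0 + L.r1 0 * u + (1 - 0) * (z - 1) - w ≤ X0 := hX0 ▸ le_max_right _ _
  have x3 : L.r0 (dq L.t1) + L.r1 (dq L.t1) * u + (1 - dq L.t1) * (z - 1) - w ≤ X1 := hX1 ▸ le_max_right _ _
  have x4 := mul_le_mul_of_nonneg_left x2 t1
  have x5 := mul_le_mul_of_nonneg_left x3 t0
  -- the gap between the true and the worst parameters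
  obtain ⟨Δ, hΔ⟩ : ∃ Δ, Δ = (2 - (a + b * m)) * u - b * m - (1 - m) * E -
    ((2 - dq L.g) * u - dq L.ka - dq L.mu * (τ * (u + 1))) := ⟨_, rfl⟩
  have Δ0 : 0 ≤ Δ := by
    rw [hΔ]
    linarith
  have k1 : max 0 (u + (u + z) * (1 - τ) - (a + b * m) * u - b * m + m * E - w') ≤ (1 - t) * X0 + t * X1 + Δ := by
    refine max_le (by positivity) ?_
    unfold r0 r1 at x4 x5
    rw [hΔ]
    rw [eτ] at b1 ⊢
    linarith
  have k2 := mul_le_mul_of_nonneg_left k1 q0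
  have k3 := mul_le_mul_of_nonneg_right q1 Δ0
  have k4 := mul_le_mul_of_nonneg_left d0 t1
  have k5 := mul_le_mul_of_nonneg_left d1 t0
  unfold r0 r1 at k4 k5
  rw [eτ] at hΔ
  rw [hΔ] at k2 k3
  linarith

end Leaf

def bL (x : ℚ) : ℚ := 1 - 2 * x / 3 + x ^ 2 / 4 - x ^ 3 / 15 + x ^ 4 / 72 - x ^ 5 / 420

def bU (x : ℚ) : ℚ := 1 - 2 * x / 3 + x ^ 2 / 4 - x ^ 3 / 15 + x ^ 4 / 72 - x ^ 5 / 420 + x ^ 6 / 2880

def aU (x : ℚ) : ℚ := 1 + x ^ 2 / 3 - x ^ 3 / 6 + x ^ 4 / 20 - x ^ 5 / 90 + x ^ 6 / 504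

theorem cil_pow {x y : ℚ} (h0 : 0 ≤ x) (h : x ≤ y) (h1 : y ≤ 1) (n : ℕ) :
    0 ≤ y ^ n - x ^ n ∧ y ^ (n + 1) - x ^ (n + 1) ≤ (n + 1) * (y - x) ∧
      y ^ (n + 2) - x ^ (n + 2) ≤ (n + 1) * (y ^ 2 - x ^ 2) := by
  have hy : 0 ≤ y := h0.trans h
  refine ⟨sub_nonneg.2 (pow_le_pow_left₀ h0 h n), ?_, ?_⟩
  · induction n with
    | zero => simp
    | succ n ih =>
      have h2 : x ^ (n + 1) ≤ 1 := pow_le_one₀ h0 (h.trans h1)
      have h3 : 0 ≤ y ^ (n + 1) - x ^ (n + 1) := sub_nonneg.2 (pow_le_pow_left₀ h0 h _)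
      have h4 := mul_le_mul_of_nonneg_right h1 h3
      have h5 := mul_le_mul_of_nonneg_right h2 (sub_nonneg.2 h)
      push_cast
      have e : y ^ (n + 1 + 1) - x ^ (n + 1 + 1) = y * (y ^ (n + 1) - x ^ (n + 1)) + x ^ (n + 1) * (y - x) := by ring
      linarith
  · induction n with
    | zero => simp
    | succ n ih =>
      have h2 : x ^ (n + 1) ≤ 1 := pow_le_one₀ h0 (h.trans h1)
      have h3 : 0 ≤ y ^ (n + 2) - x ^ (n + 2) := sub_nonneg.2 (pow_le_pow_left₀ h0 h _)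
      have h4 := mul_le_mul_of_nonneg_right h1 h3
      have h6 : 0 ≤ x * (y - x) := mul_nonneg h0 (sub_nonneg.2 h)
      have h5 := mul_le_mul_of_nonneg_right h2 h6
      have h7 : 0 ≤ y * (y - x) := mul_nonneg hy (sub_nonneg.2 h)
      push_cast
      have e : y ^ (n + 1 + 2) - x ^ (n + 1 + 2) = y * (y ^ (n + 2) - x ^ (n + 2)) + x ^ (n + 1) * (x * (y - x)) := by
        ring
      nlinarith

theorem bU_anti {x y : ℚ} (h0 : 0 ≤ x) (h : x ≤ y) (h1 : y ≤ 1) : bU y ≤ bU x := by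
  have a2 := (cil_pow h0 h h1 1).2.1
  have a3 := (cil_pow h0 h h1 3).1
  have a4 := (cil_pow h0 h h1 3).2.1
  have a5 := (cil_pow h0 h h1 5).1
  have a6 := (cil_pow h0 h h1 5).2.1
  unfold bU
  norm_num at a2 a4 a6
  linarith

theorem bL_anti {x y : ℚ} (h0 : 0 ≤ x) (h : x ≤ y) (h1 : y ≤ 1) : bL y ≤ bL x := by
  have a2 := (cil_pow h0 h h1 1).2.1
  have a3 := (cil_pow h0 h h1 3).1
  have a4 := (cil_pow h0 h h1 3).2.1
  have a5 := (cil_pow h0 h h1 5).1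
  unfold bL
  norm_num at a2 a4
  linarith

theorem aU_mono {x y : ℚ} (h0 : 0 ≤ x) (h : x ≤ y) (h1 : y ≤ 1) : aU x ≤ aU y := by
  have a2 := (cil_pow h0 h h1 2).1
  have a3 : y ^ 3 - x ^ 3 ≤ 3 / 2 * (y ^ 2 - x ^ 2) := by
    have hy : 0 ≤ y := h0.trans h
    have h2 : x ^ 2 + x * y + y ^ 2 ≤ 3 / 2 * (x + y) := by nlinarith
    have := mul_le_mul_of_nonneg_left h2 (sub_nonneg.2 h)
    linarith
  have a4 := (cil_pow h0 h h1 4).1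
  have a5 := (cil_pow h0 h h1 3).2.2
  have a6 := (cil_pow h0 h h1 6).1
  unfold aU
  norm_num at a5
  linarith

/-- the certificate exists on a rectangle of parameters -/
def Cover (x1 x2 m1 m2 : ℚ) : Prop :=
  ∀ x a b σ m : ℚ, Box x a b → 197 / 100 ≤ σ * b → σ * b ≤ 2 → x1 ≤ x → x ≤ x2 → m1 ≤ m → m ≤ m2 → 0 < m →
    PtW a b σ m (b * (m - x) ^ 2 / m)

def Leaf.ok (L : Leaf) (x1 x2 m1 m2 : ℚ) : Prop :=
  0 ≤ x1 ∧ x2 ≤ 1 ∧ m2 ≤ 1 ∧ aU x2 + bU x1 * m2 ≤ dq L.g ∧ bU x1 * m2 ≤ dq L.ka ∧ 1 - m1 ≤ dq L.mu ∧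
    dq L.sg * bU x1 ≤ 197 / 100 ∧ 1 ≤ dq L.t1 * dq L.sg ∧
    dq L.S * m2 ≤ bL x2 * max 0 (max (m1 - x2) (x1 - m2)) ^ 2 ∧ (L.par 0 L.s0).ok ∧ (L.par (dq L.t1) L.s1).ok

instance (L : Leaf) (x1 x2 m1 m2 : ℚ) : Decidable (L.ok x1 x2 m1 m2) := by unfold Leaf.ok; infer_instance

theorem Leaf.cover {L : Leaf} {x1 x2 m1 m2 : ℚ} (h : L.ok x1 x2 m1 m2) : Cover x1 x2 m1 m2 := by
  obtain ⟨h1, h2, h3, h4, h5, h6, h7, h8, h9, p0, p1⟩ := h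
  intro x a b σ m hB s0 s1 hx1 hx2 hm1 hm2 hm0
  have b1 : b ≤ bU x1 := le_trans hB.b1 (bU_anti h1 hx1 hB.x1)
  have b0 : bL x2 ≤ b := le_trans (bL_anti hB.x0 hx2 h2) hB.b0
  have a1 : a ≤ aU x2 := le_trans hB.a1 (aU_mono hB.x0 hx2 h2)
  have bl : bL 1 ≤ bL x2 := bL_anti (hB.x0.trans hx2) h2 le_rfl
  have bl1 : 0 < bL 1 := by unfold bL; norm_num
  have bp : 0 < b := by linarith
  have c1 : b * m ≤ bU x1 * m2 := mul_le_mul b1 hm2 hm0.le (by linarith)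
  have hsg1 : 1 < dq L.sg := p0.1.2.1
  have hS0 : 0 ≤ dq L.S := by unfold dq; positivity
  refine L.ptw p0 p1 (hm2.trans h3) (by linarith) (by linarith) (by linarith) ?_ s1 h8 ?_
  · refine le_of_mul_le_mul_right ?_ bp
    have := mul_le_mul_of_nonneg_left b1 (show 0 ≤ dq L.sg by linarith)
    linarith
  · rw [le_div_iff₀ hm0]
    have d1 : max 0 (max (m1 - x2) (x1 - m2)) ^ 2 ≤ (m - x) ^ 2 := by
      rw [← sq_abs (m - x)]
      refine pow_le_pow_left₀ (le_max_left _ _) (max_le (abs_nonneg _) (max_le ?_ ?_)) 2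
      · linarith [le_abs_self (m - x)]
      · linarith [neg_abs_le (m - x)]
    have d2 := mul_le_mul b0 d1 (by positivity) bp.le
    have d3 := mul_le_mul_of_nonneg_left hm2 hS0
    linarith

theorem Cover.sx {x1 x2 m1 m2 c : ℚ} (h1 : Cover x1 c m1 m2) (h2 : Cover c x2 m1 m2) : Cover x1 x2 m1 m2 := by
  intro x a b σ m hB s0 s1 hx1 hx2 hm1 hm2 hm0
  rcases le_total x c with h | h
  · exact h1 x a b σ m hB s0 s1 hx1 h hm1 hm2 hm0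
  · exact h2 x a b σ m hB s0 s1 h hx2 hm1 hm2 hm0

theorem Cover.sm {x1 x2 m1 m2 c : ℚ} (h1 : Cover x1 x2 m1 c) (h2 : Cover x1 x2 c m2) : Cover x1 x2 m1 m2 := by
  intro x a b σ m hB s0 s1 hx1 hx2 hm1 hm2 hm0
  rcases le_total m c with h | h
  · exact h1 x a b σ m hB s0 s1 hx1 hx2 hm1 h hm0
  · exact h2 x a b σ m hB s0 s1 hx1 hx2 h hm2 hm0

inductive Tr where
  | lf : Leaf → Tr
  | sx : Tr → Tr → Tr
  | sm : Tr → Tr → Tr

def Tr.chk : Tr → ℚ → ℚ → ℚ → ℚ → Bool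
  | .lf L, x1, x2, m1, m2 => decide (L.ok x1 x2 m1 m2)
  | .sx l r, x1, x2, m1, m2 => l.chk x1 ((x1 + x2) / 2) m1 m2 && r.chk ((x1 + x2) / 2) x2 m1 m2
  | .sm l r, x1, x2, m1, m2 => l.chk x1 x2 m1 ((m1 + m2) / 2) && r.chk x1 x2 ((m1 + m2) / 2) m2

theorem Tr.cover (t : Tr) : ∀ x1 x2 m1 m2 : ℚ, t.chk x1 x2 m1 m2 = true → Cover x1 x2 m1 m2 := by
  induction t with
  | lf L => exact fun _ _ _ _ h => Leaf.cover (of_decide_eq_true h)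
  | sx l r ihl ihr =>
    intro x1 x2 m1 m2 h
    simp only [Tr.chk, Bool.and_eq_true] at h
    exact (ihl _ _ _ _ h.1).sx (ihr _ _ _ _ h.2)
  | sm l r ihl ihr =>
    intro x1 x2 m1 m2 h
    simp only [Tr.chk, Bool.and_eq_true] at h
    exact (ihl _ _ _ _ h.1).sm (ihr _ _ _ _ h.2)

end Crest.Agent.R310
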