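import Crest.Agent.R310.CDefs

/-! # R310 / CRed : the ideal inequality follows from a pointwise certificate (normalisation and averaging) -/

set_option autoImplicit false

namespace Crest.Agent.R310

/-- normalised pair term: mean radius `1`, `v` opens, `u` is protected -/
def cN (a b σ m u v R φ : ℚ) : ℚ := cT a b σ m m v u R φ + (1 - m) * (φ * (b * (u + 1) / 2))

theorem cT_scale (a b σ m : ℚ) {k : ℚ} (hk : 0 < k) (u v R φ : ℚ) :
    cT a b σ m (m * k) (k * v) (k * u) (k * R) φ = k * cT a b σ m m v u R φ := by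
  have e1 : (k * v + k * u) / (k * R) = (v + u) / R := by
    rw [← mul_add, mul_div_mul_left _ _ hk.ne']
  have e2 : max 0 (k * v - (a + b * m) * (k * u)) = k * max 0 (v - (a + b * m) * u) := by
    rw [mul_max_of_nonneg _ _ hk.le]
    congr 1 <;> ring
  have e3 : cL a b σ m (m * k) (k * u) (k * R) φ = k * cL a b σ m m u R φ := by
    unfold cL cK
    ring
  unfold cT
  rw [e1, e2, e3, ← mul_sub, show max 0 (k * (cL a b σ m m u R φ - max 0 (v - (a + b * m) * u))) =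
    k * max 0 (cL a b σ m m u R φ - max 0 (v - (a + b * m) * u)) by rw [mul_max_of_nonneg _ _ hk.le, mul_zero]]
  ring

theorem cr_avg (S : Finset ℕ) (ν u ψ : ℕ → ℚ) (J : ℚ → ℚ → ℚ) {m s c : ℚ} (hν : ∀ i ∈ S, 0 ≤ ν i) (hu : ∀ i ∈ S, 0 ≤ u i)
    (hm : ∑ i ∈ S, ν i = m) (hs : ∑ i ∈ S, ν i * u i = m)
    (hJ : ∀ u v : ℚ, 0 ≤ u → 0 ≤ v → J u v + J v u ≤ 2 * s + c * (u + v - 2)) :
    ∑ i ∈ S, ν i * ∑ l ∈ S, ν l * (J (u i) (u l) + ψ i * (u l - 1)) ≤ m ^ 2 * s := by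
  have e1 : ∀ i, ∑ l ∈ S, ν l * (J (u i) (u l) + ψ i * (u l - 1)) = ∑ l ∈ S, ν l * J (u i) (u l) := fun i => by
    have : ∑ l ∈ S, ν l * (J (u i) (u l) + ψ i * (u l - 1)) =
        ∑ l ∈ S, ν l * J (u i) (u l) + ψ i * (∑ l ∈ S, ν l * u l - ∑ l ∈ S, ν l) := by
      simp only [Finset.mul_sum, ← Finset.sum_sub_distrib, ← Finset.sum_add_distrib]
      exact Finset.sum_congr rfl fun l _ => by ring
    rw [this, hm, hs]
    ring
  simp only [e1]
  have e2 : ∑ i ∈ S, ν i * ∑ l ∈ S, ν l * J (u i) (u l) = ∑ i ∈ S, ν i * ∑ l ∈ S, ν l * J (u l) (u i) := by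
    simp only [Finset.mul_sum]
    rw [Finset.sum_comm]
    exact Finset.sum_congr rfl fun i _ => Finset.sum_congr rfl fun l _ => by ring
  have e3 : ∑ i ∈ S, ν i * ∑ l ∈ S, ν l * J (u i) (u l) + ∑ i ∈ S, ν i * ∑ l ∈ S, ν l * J (u l) (u i) ≤
      ∑ i ∈ S, ν i * ∑ l ∈ S, ν l * (2 * s + c * (u i + u l - 2)) := by
    rw [← Finset.sum_add_distrib]
    refine Finset.sum_le_sum fun i hi => ?_
    rw [← mul_add, ← Finset.sum_add_distrib]
    refine mul_le_mul_of_nonneg_left (Finset.sum_le_sum fun l hl => ?_) (hν i hi)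
    rw [← mul_add]
    exact mul_le_mul_of_nonneg_left (hJ _ _ (hu i hi) (hu l hl)) (hν l hl)
  have e4 : ∀ i, ∑ l ∈ S, ν l * (2 * s + c * (u i + u l - 2)) = (2 * s - c) * m + c * m * u i := fun i => by
    have : ∑ l ∈ S, ν l * (2 * s + c * (u i + u l - 2)) =
        (2 * s + c * (u i - 2)) * ∑ l ∈ S, ν l + c * ∑ l ∈ S, ν l * u l := by
      simp only [Finset.mul_sum, ← Finset.sum_add_distrib]
      exact Finset.sum_congr rfl fun l _ => by ring
    rw [this, hm, hs]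
    ring
  simp only [e4] at e3
  have e5 : ∑ i ∈ S, ν i * ((2 * s - c) * m + c * m * u i) =
      (2 * s - c) * m * ∑ l ∈ S, ν l + c * m * ∑ l ∈ S, ν l * u l := by
    simp only [Finset.mul_sum, ← Finset.sum_add_distrib]
    exact Finset.sum_congr rfl fun l _ => by ring
  rw [e5, hm, hs] at e3
  linarith

/-- convexity in the lump level -/
theorem cN_convex (a b σ m u v R : ℚ) {φ : ℚ} (h0 : 0 ≤ φ) (h1 : φ ≤ 1) :
    cN a b σ m u v R φ ≤ (1 - φ) * cN a b σ m u v R 0 + φ * cN a b σ m u v R 1 := by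
  have hq : 0 ≤ 1 - ff σ ((v + u) / R) := sub_nonneg.2 (max_le zero_le_one (min_le_left _ _))
  have e : cL a b σ m m u R φ = (1 - φ) * cL a b σ m m u R 0 + φ * cL a b σ m m u R 1 := by
    unfold cL
    ring
  unfold cN cT
  generalize max 0 (v - (a + b * m) * u) = w
  have h2 : max 0 (cL a b σ m m u R φ - w) ≤
      (1 - φ) * max 0 (cL a b σ m m u R 0 - w) + φ * max 0 (cL a b σ m m u R 1 - w) := by
    have a0 := mul_le_mul_of_nonneg_left (le_max_right 0 (cL a b σ m m u R 0 - w)) (sub_nonneg.2 h1)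
    have a1 := mul_le_mul_of_nonneg_left (le_max_right 0 (cL a b σ m m u R 1 - w)) h0
    refine max_le (add_nonneg (mul_nonneg (sub_nonneg.2 h1) (le_max_left _ _)) (mul_nonneg h0 (le_max_left _ _))) ?_
    rw [e]
    linarith
  have h3 := mul_le_mul_of_nonneg_left h2 hq
  linarith

/-- it is enough to treat `φ = 0` and `φ = 1` -/
theorem cert_of_ends {a b σ m u R : ℚ} {J : ℚ → ℚ} (H0 : ∃ ψ : ℚ, ∀ v : ℚ, 0 ≤ v → cN a b σ m u v R 0 ≤ J v + ψ * (v - 1))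
    (H1 : ∃ ψ : ℚ, ∀ v : ℚ, 0 ≤ v → cN a b σ m u v R 1 ≤ J v + ψ * (v - 1)) {φ : ℚ} (h0 : 0 ≤ φ) (h1 : φ ≤ 1) :
    ∃ ψ : ℚ, ∀ v : ℚ, 0 ≤ v → cN a b σ m u v R φ ≤ J v + ψ * (v - 1) := by
  obtain ⟨ψ0, H0⟩ := H0
  obtain ⟨ψ1, H1⟩ := H1
  refine ⟨(1 - φ) * ψ0 + φ * ψ1, fun v hv => (cN_convex a b σ m u v R h0 h1).trans ?_⟩
  have a0 := mul_le_mul_of_nonneg_left (H0 v hv) (sub_nonneg.2 h1)
  have a1 := mul_le_mul_of_nonneg_left (H1 v hv) h0
  linarith

/-- the form `B + q (Z - w - B)₊ - v`, `τ = φ / σ`, `B ≥ b m + (1 - m) (1 + u) τ - (2 - g) u`, `Z = 1 + (R - u - 1) (1 - τ)` -/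
theorem cN_le {a b σ m u v R φ B : ℚ} (hσ : 0 < σ) (hσ1 : σ * b ≤ 2) (hm0 : 0 ≤ m) (hm1 : m ≤ 1) (hu : 0 ≤ u) (h0 : 0 ≤ φ)
    (hB : b * m + (1 - m) * (1 + u) * (φ / σ) - (2 - (a + b * m)) * u ≤ B) :
    cN a b σ m u v R φ ≤ B + (1 - ff σ ((v + u) / R)) *
      max 0 (1 + (R - u - 1) * (1 - φ / σ) - max 0 (v - (a + b * m) * u) - B) - v := by
  have hq0 : 0 ≤ 1 - ff σ ((v + u) / R) := sub_nonneg.2 (max_le zero_le_one (min_le_left _ _))
  have hq1 : 0 ≤ ff σ ((v + u) / R) := le_max_left _ _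
  have hτ : φ * (b / 2) ≤ φ / σ := by
    rw [div_eq_mul_one_div φ σ]
    refine mul_le_mul_of_nonneg_left ?_ h0
    rw [div_le_div_iff₀ two_pos hσ]
    linarith
  have a1 := mul_le_mul_of_nonneg_left hτ (mul_nonneg (sub_nonneg.2 hm1) (show 0 ≤ 1 + u by linarith))
  have a2 := mul_le_mul_of_nonneg_left hτ (show 0 ≤ 1 + u by linarith)
  unfold cN cT cL cK
  generalize max 0 (v - (a + b * m) * u) = w
  generalize φ / σ = τ at *
  generalize ff σ ((v + u) / R) = p at *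
  obtain ⟨B0, hB0⟩ : ∃ B0, B0 = b * m + (1 - m) * (φ * (b * (u + 1) / 2)) - (2 - (a + b * m)) * u := ⟨_, rfl⟩
  have b1 : B0 ≤ B := by rw [hB0]; linarith
  have b2 : max 0 (u + R * (1 - τ) - (a + b * m) * u - b * m + φ * (b * (m * u + m) / 2) - w) ≤
      B - B0 + max 0 (1 + (R - u - 1) * (1 - τ) - w - B) := by
    refine max_le (add_nonneg (sub_nonneg.2 b1) (le_max_left _ _)) ?_
    have := le_max_right 0 (1 + (R - u - 1) * (1 - τ) - w - B)
    rw [hB0]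
    linarith
  have b3 := mul_le_mul_of_nonneg_left b2 hq0
  have b4 := mul_nonneg hq1 (sub_nonneg.2 b1)
  rw [hB0] at b3 b4
  linarith

/-- Two-body certificate (one-body: `J u v = S + h u - h v`, `c = 0`). -/
theorem ideal_of_cert {x a b σ : ℚ} (hσ : 1 ≤ σ)
    (H : ∀ m : ℚ, 0 < m → m ≤ 1 → ∃ (J : ℚ → ℚ → ℚ) (c : ℚ),
      (∀ u v : ℚ, 0 ≤ u → 0 ≤ v → J u v + J v u ≤ 2 * (b * (m - x) ^ 2 / m) + c * (u + v - 2)) ∧
      ∀ u R φ : ℚ, 0 ≤ u → 0 < R → 0 ≤ φ → φ ≤ 1 → ∃ ψ : ℚ, ∀ v : ℚ, 0 ≤ v → cN a b σ m u v R φ ≤ J u v + ψ * (v - 1))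
    {F : List ℕ} (hF : F.Nodup) {ν r R φ : ℕ → ℚ} (hν : ∀ i ∈ F, 0 ≤ ν i) (hm : sm F ν ≤ 1) (hr : ∀ i ∈ F, 0 ≤ r i)
    (hR : ∀ i ∈ F, 0 < R i) (hφ : ∀ i ∈ F, 0 ≤ φ i ∧ φ i ≤ 1) :
    sm F (fun i => ν i * sm F fun l => ν l * cT a b σ (sm F ν) (mom F ν r) (r l) (r i) (R i) (φ i)) +
        (1 - sm F ν) * sm F (fun i => ν i * (φ i * cK b (sm F ν) (mom F ν r) (r i))) ≤
      b * (sm F ν - x) ^ 2 * mom F ν r := by
  have hsm : ∀ g : ℕ → ℚ, sm F g = ∑ i ∈ F.toFinset, g i := sm_eq hF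
  have hmem : ∀ {i}, i ∈ F.toFinset → i ∈ F := fun hi => List.mem_toFinset.1 hi
  have hme : ∑ i ∈ F.toFinset, ν i = sm F ν := (hsm ν).symm
  have hse : ∑ i ∈ F.toFinset, ν i * r i = mom F ν r := (hsm _).symm
  generalize sm F ν = m at *
  generalize mom F ν r = s at *
  simp only [hsm]
  have hs0 : 0 ≤ s := hse ▸ Finset.sum_nonneg fun i hi => mul_nonneg (hν i (hmem hi)) (hr i (hmem hi))
  rcases hs0.eq_or_lt with h0 | h0
  · have hz : ∀ i ∈ F.toFinset, ν i * r i = 0 :=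
      (Finset.sum_eq_zero_iff_of_nonneg fun i hi => mul_nonneg (hν i (hmem hi)) (hr i (hmem hi))).1 (hse.trans h0.symm)
    subst h0
    have e1 : ∑ i ∈ F.toFinset, ν i * ∑ l ∈ F.toFinset, ν l * cT a b σ m 0 (r l) (r i) (R i) (φ i) = 0 := by
      refine Finset.sum_eq_zero fun i hi => ?_
      rcases mul_eq_zero.1 (hz i hi) with h1 | h1
      · rw [h1, zero_mul]
      refine mul_eq_zero_of_right _ (Finset.sum_eq_zero fun l hl => ?_)
      rcases mul_eq_zero.1 (hz l hl) with h2 | h2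
      · rw [h2, zero_mul]
      have : ff σ 0 = 1 := by
        unfold ff
        rw [min_eq_left (by linarith), max_eq_right zero_le_one]
      simp [cT, h1, h2, this]
    have e2 : ∑ i ∈ F.toFinset, ν i * (φ i * cK b m 0 (r i)) = 0 := by
      refine Finset.sum_eq_zero fun i hi => ?_
      rcases mul_eq_zero.1 (hz i hi) with h1 | h1
      · rw [h1, zero_mul]
      · simp [cK, h1]
    rw [e1, e2]
    simp
  · have hm0 : 0 < m := by
      rcases (hme ▸ Finset.sum_nonneg fun i hi => hν i (hmem hi) : 0 ≤ m).eq_or_lt with h1 | h1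
      · have hz : ∀ i ∈ F.toFinset, ν i = 0 :=
          (Finset.sum_eq_zero_iff_of_nonneg fun i hi => hν i (hmem hi)).1 (hme.trans h1.symm)
        rw [Finset.sum_eq_zero fun i hi => by rw [hz i hi, zero_mul]] at hse
        exact absurd hse h0.ne
      · exact h1
    obtain ⟨J, c, hJ, hH⟩ := H m hm0 hm
    obtain ⟨k, hk, rfl⟩ : ∃ k : ℚ, 0 < k ∧ s = m * k := ⟨s / m, div_pos h0 hm0, by field_simp⟩
    have hp : ∀ i, ∃ ψ : ℚ, i ∈ F → ∀ v : ℚ, 0 ≤ v → cN a b σ m (r i / k) v (R i / k) (φ i) ≤ J (r i / k) v + ψ * (v - 1) :=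
      fun i => by
        by_cases hi : i ∈ F
        · obtain ⟨ψ, h⟩ := hH (r i / k) (R i / k) (φ i) (div_nonneg (hr i hi) hk.le) (div_pos (hR i hi) hk) (hφ i hi).1
            (hφ i hi).2
          exact ⟨ψ, fun _ => h⟩
        · exact ⟨0, fun h => absurd h hi⟩
    choose ψ hψ using hp
    have h1 := cr_avg F.toFinset ν (fun i => r i / k) ψ J (fun i hi => hν i (hmem hi))
      (fun i hi => div_nonneg (hr i (hmem hi)) hk.le) hme (by
        simp only [← mul_div_assoc, ← Finset.sum_div]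
        rw [hse, mul_div_cancel_right₀ _ hk.ne']) hJ
    have h2 := mul_le_mul_of_nonneg_left h1 hk.le
    have e1 : k * (m ^ 2 * (b * (m - x) ^ 2 / m)) = b * (m - x) ^ 2 * (m * k) := by field_simp
    rw [e1] at h2
    refine le_trans ?_ h2
    rw [Finset.mul_sum, Finset.mul_sum, ← Finset.sum_add_distrib]
    refine Finset.sum_le_sum fun i hi => ?_
    have e2 : (1 - m) * (ν i * (φ i * cK b m (m * k) (r i))) =
        ν i * ∑ l ∈ F.toFinset, ν l * (k * ((1 - m) * (φ i * (b * (r i / k + 1) / 2)))) := by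
      rw [← Finset.sum_mul, hme]
      unfold cK
      field_simp
    rw [e2, ← mul_add, ← Finset.sum_add_distrib, mul_left_comm k (ν i), Finset.mul_sum _ _ k]
    refine mul_le_mul_of_nonneg_left (Finset.sum_le_sum fun l hl => ?_) (hν i (hmem hi))
    rw [← mul_add, mul_left_comm k (ν l)]
    have h3 := hψ i (hmem hi) (r l / k) (div_nonneg (hr l (hmem hl)) hk.le)
    have h4 := cT_scale a b σ m hk (r i / k) (r l / k) (R i / k) (φ i)
    rw [mul_div_cancel₀ _ hk.ne', mul_div_cancel₀ _ hk.ne', mul_div_cancel₀ _ hk.ne'] at h4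
    rw [h4, ← mul_add]
    exact mul_le_mul_of_nonneg_left (mul_le_mul_of_nonneg_left h3 hk.le) (hν l (hmem hl))

end Crest.Agent.R310
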