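import Crest.Agent.R310.CBasic
import Crest.Agent.R310.CGen

/-! # R310 / Cert : existence of the potential

`ζ` rational, `0 < ζ ≤ min (1/400) (ε/401)`, `K : Clk ζ`; `e = ζ`, `η = ζ²`, `s0 = min K.s0 (ζ / (3 L + 1))`, `B = 2 L + 2`, `N = 1000`,
`sl x = slp (K.b x)`, `Ψ Λ F r μ D x = Phi (2 ζ²) (K.a x + 400 ζ) (K.b x) Λ F r μ D`.
-/

set_option autoImplicit false

namespace Crest.Agent.R310

open Crest.Agent.Lib.PT

theorem cert_sm_nonneg {F : List ℕ} {g : ℕ → ℚ} (h : ∀ i ∈ F, 0 ≤ g i) : 0 ≤ sm F g := by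
  refine List.sum_nonneg fun x hx => ?_
  obtain ⟨i, hi, rfl⟩ := List.mem_map.1 hx
  exact h i hi

theorem cert_isN_nonneg {Λ : ℕ} {x : ℚ} (h : IsN Λ x) : 0 ≤ x := by
  obtain ⟨m, -, rfl⟩ := h
  exact Nat.cast_nonneg m

theorem exists_pot {ε : ℝ} (hε : 0 < ε) : Nonempty (Pot (1 + 2 / Real.exp 1 + ε)) := by
  obtain ⟨ζ, hζ0, hζ⟩ := exists_rat_btwn (show (0 : ℝ) < min (1 / 400) (ε / 401) by positivity)
  have hζ0 : 0 < ζ := by exact_mod_cast hζ0
  have hζ1 : ζ ≤ 1 / 400 := by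
    have : (ζ : ℝ) ≤ ((1 / 400 : ℚ) : ℝ) := by
      push_cast
      exact (hζ.trans_le (min_le_left _ _)).le
    exact_mod_cast this
  have hζ2 : (ζ : ℝ) * 401 ≤ ε := (le_div_iff₀ (by norm_num)).1 (hζ.trans_le (min_le_right _ _)).le
  obtain ⟨K⟩ := exists_clk hζ0
  have hL : (0 : ℚ) ≤ K.L := Nat.cast_nonneg _
  have bnd := fun x h0 h1 => (K.box x h0 h1).bnd
  refine ⟨{
    e := ζ
    η := ζ ^ 2
    s0 := min K.s0 (ζ / (3 * K.L + 1))
    B := 2 * K.L + 2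
    N := 1000
    sl := fun x => slp (K.b x)
    e0 := hζ0
    e1 := by linarith
    η0 := by positivity
    η1 := by nlinarith
    s00 := lt_min K.s00 (by positivity)
    N0 := by norm_num
    sl_pt := slp_pt K.b_pt
    sl_grid := fun x h0 h1 => (slp_spec (bnd x h0 h1).1 (bnd x h0 h1).2.1).1
    Ψ := fun Λ F r μ D x => Phi (2 * ζ ^ 2) (K.a x + 400 * ζ) (K.b x) Λ F r μ D
    pt := ?_
    congr := fun Λ F r r' μ μ' D x hr hμ => Phi_congr _ _ _ Λ F r r' μ μ' D hr hμ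
    budget := ?_
    zero := fun Λ F r D x _ _ _ _ _ => (Phi_zero _ _ _ Λ F r D).ge
    lip := ?_
    drop := ?_
    gen := ?_ }⟩
  · have ha := K.a_pt
    have hb := K.b_pt
    exact Phi_pt (α := Un × List ℕ × List ℚ × List ℚ × ℚ × ℚ) (2 * ζ ^ 2)
      (a := fun z => K.a z.2.2.2.2.2 + 400 * ζ) (b := fun z => K.b z.2.2.2.2.2) (D := fun z => z.2.2.2.2.1)
      (Λ := fun z => z.1) (F := fun z => z.2.1) (r := fun z => z.2.2.1) (μ := fun z => z.2.2.2.1)
      (by fun_prop) (by fun_prop) (by fun_prop) (by fun_prop) (by fun_prop) (by fun_prop) (by fun_prop)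
  · intro Λ F r μ D _ hr _ h0 h1
    have h2 := Phi_budget (2 * ζ ^ 2) (K.a 1 + 400 * ζ) (K.b 1) D hr h1
    have h3 : 0 ≤ sm F fun i => μ i * r i :=
      cert_sm_nonneg fun i hi => mul_nonneg (h0 i hi) (cert_isN_nonneg (hr i hi))
    have h4 := K.bud
    have h2' := (Rat.cast_le (K := ℝ)).2 h2
    have h3' := (Rat.cast_nonneg (K := ℝ)).2 h3
    push_cast at h2' h4
    exact h2'.trans (mul_le_mul_of_nonneg_right (by linarith) h3')
  · intro Λ F r μ μ' D x x' _ hr hD h0 h1 hm x0 x1 x2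
    have b := bnd x (x0.trans x1) x2
    have b' := bnd x' x0 (x1.trans x2)
    have h2 := Phi_lip (κ := 2 * ζ ^ 2) (a := K.a x + 400 * ζ) (b := K.b x) (a' := K.a x' + 400 * ζ) (b' := K.b x')
      (by positivity) (by nlinarith) (by linarith [b.2.2.1]) (by linarith [b.1]) (by linarith [b'.1]) hr hD h0 h1 hm
    have h3 : 0 ≤ sm F fun i => μ i - μ' i := cert_sm_nonneg fun i hi => sub_nonneg.2 (h1 i hi)
    rw [add_sub_add_right_eq_sub] at h2
    have h4 := K.lipa x x' x0 x1 x2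
    have h5 := K.lipb x x' x0 x1 x2
    have h6 : (0 : ℚ) ≤ Λ := Nat.cast_nonneg _
    have h7 : 0 ≤ x - x' := sub_nonneg.2 x1
    have h8 := mul_le_mul_of_nonneg_right (add_le_add h4 h5) h6
    refine h2.trans ?_
    push_cast
    nlinarith [mul_nonneg hL h3, mul_nonneg hL h7, mul_nonneg h6 h7, mul_nonneg (mul_nonneg hL h6) h3]
  · intro Λ F r μ μ' D x _ hr hD h0 h1 hm h2 x0 x1
    have b := bnd x x0 x1
    exact Phi_drop (by positivity) (by nlinarith [b.2.2.1]) (by linarith [b.1]) hr hD h0 h1 hm h2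
  · intro Λ F d j y μ D c R ρ θ τ x s G x0 x1 s0 s1
    have s2 : s ≤ K.s0 := s1.trans (min_le_left _ _)
    have s3 : s * (3 * K.L + 1) ≤ ζ := (le_div_iff₀ (by positivity)).1 (s1.trans (min_le_right _ _))
    have s4 : s ≤ 1 := s2.trans K.s01
    have y0 : 0 ≤ x * (1 - s) := mul_nonneg x0 (by linarith)
    have y1 : x * (1 - s) ≤ x := by nlinarith
    have b := bnd x x0 x1
    have b' := bnd (x * (1 - s)) y0 (y1.trans x1)
    have sp := slp_spec b.1 b.2.1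
    have y2 : (K.L : ℚ) * (x - x * (1 - s)) ≤ K.L * s := mul_le_mul_of_nonneg_left (by nlinarith) hL
    exact gen_main hζ0 hζ1 (K.box x x0 x1) sp.2.1 sp.2.2 (by linarith [b'.1]) b'.2.1 s0 s3
      ((K.lipa x _ y0 y1 x1).trans y2) ((K.lipb x _ y0 y1 x1).trans y2)
      (fun m m0 m1 => K.step x m s x0 x1 m0 m1 s0 s2) G

end Crest.Agent.R310
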