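import Crest.Agent.R310.Pot

/-!
# R310 / Cnt : the potential for the number of open facilities, and the tilt

`Wc_step`: `a = 1 - κ z`.  `z ≤ 0`: `Wc (z + x) ≤ 1 / (a - κ x)` (if `z + x > 0` use `1 + v ≤ 1 / (1 - v)`), `a - κ x ≥ 1/2`, and
`1 / (a - κ x) - 1 / a = κ x / a² + κ² x² / (a² (a - κ x))`.  `z > 0`, `z + x ≤ 0`: `v = -κ (z + x) ∈ [0, κ |x|]`, `1 / (1 + v) ≤ 1 - v + v²`.

`tilt`: `L = 4/η ≥ 8`, `κ = η²/64`, `x = 1 - θ K`.  `K ≤ 1`: `θ = 1`, `(1 - 2κx)(x + 2κx²) = x (1 - 4κ²x²) ≤ x`.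
`1 < K ≤ L`: `θ = 1`, `(1 + η)(x + 2κx²) ≤ x` as `4 κ |x| ≤ η`.  `K > L`: `x = 1 - L`, `(1 + η)(x + 2κx²) ≤ -L ≤ θ (1 - K)`, because
`η (L - 1) = 4 - η` and `4 κ L² = 1`.
-/

set_option autoImplicit false

namespace Crest.Agent.R310

open Crest.Agent.Lib.PT

/-- convex, positive, linear on the right -/
def Wc (κ z : ℚ) : ℚ := if z ≤ 0 then 1 / (1 - κ * z) else 1 + κ * z

/-- its derivative -/
def Wd (κ z : ℚ) : ℚ := if z ≤ 0 then κ / (1 - κ * z) ^ 2 else κ

/-- scaling of the kills -/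
def th (η K : ℚ) : ℚ := if K ≤ 4 / η then 1 else 4 / η / K

/-- tilt of the rates -/
def ta (η K : ℚ) : ℚ := if K ≤ 1 then 1 - η ^ 2 / 32 * (1 - K) else 1 + η

@[fun_prop] theorem Wc_pt {α : Type} [Enc α] (κ : ℚ) {z : α → ℚ} (hz : PT z) : PT fun a => Wc κ (z a) := by
  unfold Wc; fun_prop

@[fun_prop] theorem th_pt {α : Type} [Enc α] (η : ℚ) {z : α → ℚ} (hz : PT z) : PT fun a => th η (z a) := by
  unfold th; fun_prop

theorem Wc_pos {κ : ℚ} (hκ : 0 < κ) (z : ℚ) : 0 < Wc κ z := by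
  unfold Wc
  split_ifs with h
  · have : 0 ≤ κ * -z := mul_nonneg hκ.le (by linarith)
    exact one_div_pos.2 (by linarith)
  · have : 0 < κ * z := mul_pos hκ (not_le.1 h)
    linarith

theorem cnt_le_inv {v : ℚ} (hv : 0 < 1 - v) : 1 + v ≤ 1 / (1 - v) := by
  rw [le_div_iff₀ hv]
  nlinarith [sq_nonneg v]

theorem le_Wc {κ : ℚ} (hκ : 0 < κ) (z : ℚ) : 1 + κ * z ≤ Wc κ z := by
  unfold Wc
  split_ifs with h
  · have : 0 ≤ κ * -z := mul_nonneg hκ.le (by linarith)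
    exact cnt_le_inv (by linarith)
  · exact le_rfl

theorem Wc_mono {κ : ℚ} (hκ : 0 < κ) : Monotone (Wc κ) := by
  intro z w hzw
  have h0 : κ * z ≤ κ * w := mul_le_mul_of_nonneg_left hzw hκ.le
  unfold Wc
  split_ifs with h1 h2 h2
  · have : 0 ≤ κ * -w := mul_nonneg hκ.le (by linarith)
    exact one_div_le_one_div_of_le (by linarith) (by linarith)
  · have h3 : 0 ≤ κ * -z := mul_nonneg hκ.le (by linarith)
    have h4 : 0 < κ * w := mul_pos hκ (not_le.1 h2)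
    have h5 : 1 / (1 - κ * z) ≤ 1 := by
      rw [div_le_one (by linarith)]
      linarith
    linarith
  · exact absurd (hzw.trans h2) h1
  · linarith

theorem Wd_mem {κ : ℚ} (hκ : 0 < κ) (z : ℚ) : 0 < Wd κ z ∧ Wd κ z ≤ κ := by
  unfold Wd
  split_ifs with h
  · have h1 : 0 ≤ κ * -z := mul_nonneg hκ.le (by linarith)
    have h2 : 1 ≤ (1 - κ * z) ^ 2 := one_le_pow₀ (by linarith)
    exact ⟨div_pos hκ (by linarith), div_le_self hκ.le h2⟩
  · exact ⟨hκ, le_rfl⟩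

theorem Wc_step {κ : ℚ} (hκ : 0 < κ) (hκ1 : κ ≤ 1 / 2) (z : ℚ) {x : ℚ} (hx : x ≤ 1) :
    Wc κ (z + x) - Wc κ z ≤ Wd κ z * (x + 2 * κ * x ^ 2) := by
  by_cases h : z ≤ 0
  · have h1 : 0 ≤ κ * -z := mul_nonneg hκ.le (by linarith)
    have h2 : κ * x ≤ κ * 1 := mul_le_mul_of_nonneg_left hx hκ.le
    have hb : 1 / 2 ≤ 1 - κ * (z + x) := by linarith
    have h3 : Wc κ (z + x) ≤ 1 / (1 - κ * (z + x)) := by
      unfold Wc
      split_ifs
      · exact le_rfl
      · exact cnt_le_inv (by linarith)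
    have h4 : Wc κ z = 1 / (1 - κ * z) := if_pos h
    have h5 : Wd κ z = κ / (1 - κ * z) ^ 2 := if_pos h
    rw [h4, h5]
    obtain ⟨a, ha⟩ : ∃ a, a = 1 - κ * z := ⟨_, rfl⟩
    obtain ⟨b, hb'⟩ : ∃ b, b = 1 - κ * (z + x) := ⟨_, rfl⟩
    rw [← ha]
    rw [← hb'] at hb h3
    have ha0 : 0 < a := by linarith
    have hb0 : 0 < b := by linarith
    have hab : a = b + κ * x := by rw [ha, hb']; ring
    have e1 : 1 / b - 1 / a = κ / a ^ 2 * (x + κ * x ^ 2 / b) := by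
      field_simp
      rw [hab]
      ring
    have h6 : κ * x ^ 2 / b ≤ 2 * κ * x ^ 2 := by
      rw [div_le_iff₀ hb0]
      have : 0 ≤ κ * x ^ 2 := by positivity
      nlinarith
    have h7 : κ / a ^ 2 * (x + κ * x ^ 2 / b) ≤ κ / a ^ 2 * (x + 2 * κ * x ^ 2) :=
      mul_le_mul_of_nonneg_left (by linarith) (by positivity)
    linarith
  · have h4 : Wc κ z = 1 + κ * z := if_neg h
    have h5 : Wd κ z = κ := if_neg h
    rw [h4, h5]
    have hz : 0 < z := not_le.1 h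
    have h6 : 0 ≤ (κ * x) ^ 2 := sq_nonneg _
    by_cases h' : z + x ≤ 0
    · have h7 : Wc κ (z + x) = 1 / (1 - κ * (z + x)) := if_pos h'
      rw [h7]
      obtain ⟨v, hv⟩ : ∃ v, v = -(κ * (z + x)) := ⟨_, rfl⟩
      have hv0 : 0 ≤ v := by
        have : 0 ≤ κ * -(z + x) := mul_nonneg hκ.le (by linarith)
        linarith
      have hv1 : v ≤ -(κ * x) := by
        have : 0 < κ * z := mul_pos hκ hz
        linarith
      have h8 : 1 / (1 + v) ≤ 1 - v + v ^ 2 := by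
        rw [div_le_iff₀ (by linarith)]
        have : 0 ≤ v ^ 3 := by positivity
        nlinarith
      have h9 : v ^ 2 ≤ (κ * x) ^ 2 := by nlinarith
      rw [show 1 - κ * (z + x) = 1 + v by rw [hv]; ring]
      nlinarith
    · have h7 : Wc κ (z + x) = 1 + κ * (z + x) := if_neg h'
      rw [h7]
      nlinarith

theorem tilt {η K : ℚ} (hη : 0 < η) (hη1 : η ≤ 1 / 2) (hK : 0 ≤ K) :
    0 < th η K ∧ th η K ≤ 1 ∧ ta η K ≤ 1 + η ∧ 1 - η * max 0 (1 - K) ≤ ta η K ∧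
    1 / 2 ≤ ta η K / th η K ∧ ta η K / th η K ≤ 2 * (1 + K) ∧
    ta η K / th η K * ((1 - th η K * K) + 2 * (η ^ 2 / 64) * (1 - th η K * K) ^ 2) ≤ 1 - K := by
  have hL : 8 ≤ 4 / η := by
    rw [le_div_iff₀ hη]
    linarith
  have hη2 : η ^ 2 ≤ η / 2 := by nlinarith
  have hη3 : 0 < η ^ 2 := by positivity
  by_cases h1 : K ≤ 1
  · have e1 : th η K = 1 := if_pos (by linarith)
    have e2 : ta η K = 1 - η ^ 2 / 32 * (1 - K) := if_pos h1
    rw [e1, e2, max_eq_right (by linarith), div_one, one_mul]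
    have h2 : 0 ≤ η ^ 2 / 32 * (1 - K) := mul_nonneg (by positivity) (by linarith)
    have h3 : η ^ 2 / 32 * (1 - K) ≤ η * (1 - K) := mul_le_mul_of_nonneg_right (by linarith) (by linarith)
    have h4 : η * (1 - K) ≤ 1 / 2 := by nlinarith
    refine ⟨one_pos, le_rfl, by linarith, by linarith, by linarith, by linarith, ?_⟩
    have h5 : 0 ≤ (1 - K) * (η ^ 2 / 32 * (1 - K)) ^ 2 := mul_nonneg (by linarith) (sq_nonneg _)
    nlinarith
  · have e2 : ta η K = 1 + η := if_neg h1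
    have h1' : 1 < K := not_le.1 h1
    by_cases h2 : K ≤ 4 / η
    · have e1 : th η K = 1 := if_pos h2
      rw [e1, e2, max_eq_left (by linarith), div_one, one_mul]
      refine ⟨one_pos, le_rfl, le_rfl, by linarith, by linarith, by linarith, ?_⟩
      have h3 : K * η ≤ 4 := (le_div_iff₀ hη).1 h2
      have h4 : η * (K - 1) ≤ 4 := by nlinarith
      have h5 : 0 ≤ η * (K - 1) := mul_nonneg hη.le (by linarith)
      have h6 : (η * (K - 1)) ^ 2 ≤ 4 * (η * (K - 1)) := by nlinarith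
      have h7 : (1 + η) * (η * (K - 1)) ^ 2 ≤ 2 * (η * (K - 1)) ^ 2 :=
        mul_le_mul_of_nonneg_right (by linarith) (sq_nonneg _)
      nlinarith
    · have e1 : th η K = 4 / η / K := if_neg h2
      have h2' : 4 / η < K := not_le.1 h2
      have hK0 : 0 < K := by linarith
      have h3 : 4 < K * η := (div_lt_iff₀ hη).1 h2'
      have e3 : (1 + η) / (4 / η / K) = (1 + η) * (K * η / 4) := by field_simp
      have e4 : 4 / η / K * K = 4 / η := by field_simp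
      rw [e1, e2, max_eq_left (by linarith), e3, e4]
      refine ⟨by positivity, (div_le_one hK0).2 h2'.le, le_rfl, by linarith, by nlinarith, ?_, ?_⟩
      · have : K * η ≤ K * (1 / 2) := mul_le_mul_of_nonneg_left hη1 hK
        nlinarith
      · have e5 : (1 + η) * (K * η / 4) * ((1 - 4 / η) + 2 * (η ^ 2 / 64) * (1 - 4 / η) ^ 2) =
            K * ((1 + η) * ((η - 4) / 4 + η * (η - 4) ^ 2 / 128)) := by
          field_simp
          ring
        have h4 : (η - 4) ^ 2 ≤ 16 := by nlinarith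
        have h5 : η * (η - 4) ^ 2 ≤ η * 16 := mul_le_mul_of_nonneg_left h4 hη.le
        have h6 : (1 + η) * ((η - 4) / 4 + η * (η - 4) ^ 2 / 128) ≤ (1 + η) * ((η - 4) / 4 + η * 16 / 128) :=
          mul_le_mul_of_nonneg_left (by linarith) (by linarith)
        have h7 : (1 + η) * ((η - 4) / 4 + η * (η - 4) ^ 2 / 128) ≤ -1 := by nlinarith
        have h8 := mul_le_mul_of_nonneg_left h7 hK
        rw [e5]
        linarith

end Crest.Agent.R310
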