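import Crest.Agent.Lib.PT.All
import Crest.Prelude.Def_KMedian

/-!
# R310 / Defs : metric k-median, ratio `1 + 2/e + ε` (S0482).  Algorithmic side.  DO NOT EDIT (owner helper33).

Chain of reductions:  statement ⇐ `Bridge` ⇐ `LS` (Li–Svensson: `k + c` facilities ⇒ `k` facilities)
⇐ `Rnd` (integer metric bounded by a unary number) ⇐ `Proc` (LP solution of `LP`, deterministic rounding process).
Points are natural numbers, sets are lists.
-/

set_option autoImplicit false

namespace Crest.Agent.R310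

open Crest.Agent.Lib.PT

/-- distance table -/
abbrev Tab := List (List ℚ)

/-- entry of the table; indices are clamped so that `dd D` is a pseudometric on all of `ℕ` -/
def dd (D : Tab) (i j : ℕ) : ℚ := (D.getD (min i (D.length - 1)) []).getD (min j (D.length - 1)) 0

/-- pseudometric -/
structure PM (d : ℕ → ℕ → ℚ) : Prop where
  refl : ∀ i, d i i = 0
  symm : ∀ i j, d i j = d j i
  tri : ∀ i j l, d i l ≤ d i j + d j l

/-- a point of `S` nearest to `j` (`j` itself if `S = []`) -/
def nr (d : ℕ → ℕ → ℚ) (j : ℕ) (S : List ℕ) : ℕ := (S.argmin (d j)).getD j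

/-- distance from `j` to `S` -/
def dS (d : ℕ → ℕ → ℚ) (j : ℕ) (S : List ℕ) : ℚ := d j (nr d j S)

/-- connection cost -/
def cost (d : ℕ → ℕ → ℚ) (C S : List ℕ) : ℚ := (C.map fun j => dS d j S).sum

/-- `(k, clients, facilities, table)` -/
abbrev Raw := ℕ × List ℕ × List ℕ × Tab

/-- valid instance -/
structure Ok (k : ℕ) (F : List ℕ) (D : Tab) : Prop where
  pm : PM (dd D)
  pos : ∀ i ∈ F, ∀ i' ∈ F, i ≠ i' → 0 < dd D i i'
  lt : ∀ i ∈ F, i < D.length
  nodup : F.Nodup
  one_le : 1 ≤ k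
  ne : F ≠ []

/-- feasible solution -/
def Feas (k : ℕ) (F S : List ℕ) : Prop := S ⊆ F ∧ S ≠ [] ∧ S.Nodup ∧ S.length ≤ k

/-- `A` opens at most `k + c` facilities and pays at most `α` times the optimum for `k` -/
def Approx (α : ℝ) (c : ℕ) (A : Raw → List ℕ) : Prop :=
  ∀ k C F D, Ok k F D → Feas (k + c) F (A (k, C, F, D)) ∧
    ∀ S, Feas k F S → (cost (dd D) C (A (k, C, F, D)) : ℝ) ≤ α * cost (dd D) C S

/-- all distances are integers in `[0, Λ]` -/
def IntM (Λ : ℕ) (D : Tab) : Prop := ∀ i j, ∃ m : ℕ, m ≤ Λ ∧ dd D i j = m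

/-- the same on integer metrics bounded by a unary number, with an additive error -/
def IApprox (α : ℝ) (c : ℕ) (A : Un × Raw → List ℕ) : Prop :=
  ∀ Λ k C F D, Ok k F D → IntM Λ D → Feas (k + c) F (A (⟨Λ⟩, k, C, F, D)) ∧
    ∀ S, Feas k F S → (cost (dd D) C (A (⟨Λ⟩, k, C, F, D)) : ℝ) ≤ α * cost (dd D) C S + 1 / 2

/-- the cheapest feasible candidate (default: one facility) -/
def best (k : ℕ) (C F : List ℕ) (D : Tab) (L : List (List ℕ)) : List ℕ :=
  ((L.filter fun S => decide (S ⊆ F ∧ S ≠ [] ∧ S.Nodup ∧ S.length ≤ k)).argmin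
    (cost (dd D) C)).getD (F.take 1)

/-- all lists of length at most `m` over `l` -/
def upto {β : Type} (l : List β) (m : ℕ) : List (List β) := (List.range (m + 1)).flatMap (PT.words l)

end Crest.Agent.R310
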