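import Crest.Agent.R310.LP1

/-!
# R310 / LP : an approximate solution of the relaxation

`κ = min k |F|`, `η = 1 / (8 (|C| Λ + 1))`, `N = 128 (|C| Λ + 1)² κ² + 1`, `w` the list after `N²` steps,
`y i = min 1 (κ count i w / N²)`.  `|S| ≤ κ` for feasible `S` (`Nodup`, `⊆ F`).  `∑_{i ∈ F, p i} count i w = countP p w`
as `w ⊆ F`, `F.Nodup`.  If some `i` in the ball has `y i = 1` the positive part is `0`, else it is `max 0 (cov ..)`;
`max_le_hub`, `fw_bound`: errors `|C| Λ η / 2 ≤ 1/16` and `|C| Λ κ² / η / N ≤ 1/16`.  `1 ≤ ∑ y`: some `y i = 1`, or `∑ y = κ ≥ 1`.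
PT: `PT.iterate_grow` (one step adds an element of `F` or `0`: `List.argmin_mem`, `sz_le_of_mem`); `PB.of_un`, `PB.min_right`.
-/

set_option autoImplicit false

namespace Crest.Agent.R310

open Crest.Agent.Lib.PT

/-- number of steps is the square of this -/
def lpN (Λ κ : ℕ) (C : List ℕ) : ℕ := 128 * (C.length * Λ + 1) ^ 2 * κ ^ 2 + 1

/-- the multiset of chosen facilities -/
def lpW (Λ k : ℕ) (C F : List ℕ) (D : Tab) : List ℕ :=
  (fwStep (dd D) (1 / (8 * ((C.length * Λ + 1 : ℕ) : ℚ))) Λ (min k F.length) C F)^[lpN Λ (min k F.length) C ^ 2] []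

/-- the fractional solution, indexed by the names of the points -/
def lpY (x : Un × Raw) : List ℚ :=
  (List.range x.2.2.2.2.length).map fun i =>
    min 1 ((min x.2.1 x.2.2.2.1.length : ℕ) * ((lpW x.1.n x.2.1 x.2.2.1 x.2.2.2.1 x.2.2.2.2).count i : ℕ) /
      ((lpN x.1.n (min x.2.1 x.2.2.2.1.length) x.2.2.1 ^ 2 : ℕ) : ℚ))

/-- mass of the ball `B(j, t)` -/
def ball (d : ℕ → ℕ → ℚ) (F : List ℕ) (y : ℕ → ℚ) (j : ℕ) (t : ℚ) : ℚ :=
  sm F fun i => if d j i ≤ t then y i else 0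

section pt
variable {α : Type} [Enc α]

@[fun_prop] theorem lp_hub_pt {η x : α → ℚ} (hη : PT η) (hx : PT x) : PT fun a => hub (η a) (x a) := by
  unfold hub; fun_prop

@[fun_prop] theorem lp_cov_pt {D : α → Tab} {κ j t : α → ℕ} {w : α → List ℕ} (hD : PT D) (hκ : PT κ)
    (hw : PT w) (hj : PT j) (ht : PT t) : PT fun a => cov (dd (D a)) (κ a) (w a) (j a) (t a) := by
  unfold cov; fun_prop

@[fun_prop] theorem lp_fwG_pt {D : α → Tab} {η : α → ℚ} {Λ κ : α → ℕ} {C w : α → List ℕ} (hD : PT D)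
    (hη : PT η) (hΛ : PT Λ) (hΛ' : PB Λ) (hκ : PT κ) (hC : PT C) (hw : PT w) :
    PT fun a => fwG (dd (D a)) (η a) (Λ a) (κ a) (C a) (w a) := by
  unfold fwG; fun_prop

@[fun_prop] theorem lp_fwStep_pt {D : α → Tab} {η : α → ℚ} {Λ κ : α → ℕ} {C F w : α → List ℕ} (hD : PT D)
    (hη : PT η) (hΛ : PT Λ) (hΛ' : PB Λ) (hκ : PT κ) (hC : PT C) (hF : PT F) (hw : PT w) :
    PT fun a => fwStep (dd (D a)) (η a) (Λ a) (κ a) (C a) (F a) (w a) := by
  unfold fwStep; fun_prop

@[fun_prop] theorem lp_lpN_pt {Λ κ : α → ℕ} {C : α → List ℕ} (hΛ : PT Λ) (hκ : PT κ) (hC : PT C) :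
    PT fun a => lpN (Λ a) (κ a) (C a) := by
  unfold lpN; fun_prop

theorem lp_lpN_pb {Λ κ : α → ℕ} {C : α → List ℕ} (hΛ : PB Λ) (hκ : PB κ) (hC : PT C) :
    PB fun a => lpN (Λ a) (κ a) (C a) := by
  unfold lpN; fun_prop

theorem lp_sz_step (d : ℕ → ℕ → ℚ) (η : ℚ) (Λ κ : ℕ) (C F w : List ℕ) :
    sz (fwStep d η Λ κ C F w) ≤ sz w + (sz F + sz (0 : ℕ) + 1) := by
  unfold fwStep
  rw [sz_cons]
  cases h : F.argmin fun o => fwG d η Λ κ C (o :: w) with
  | none => rw [Option.getD_none]; omega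
  | some m =>
    have := sz_le_of_mem (List.argmin_mem h)
    rw [Option.getD_some]
    omega

@[fun_prop] theorem lp_lpW_pt {Λ k : α → ℕ} {C F : α → List ℕ} {D : α → Tab} (hΛ : PT Λ) (hΛ' : PB Λ)
    (hk : PT k) (hC : PT C) (hF : PT F) (hD : PT D) : PT fun a => lpW (Λ a) (k a) (C a) (F a) (D a) := by
  unfold lpW
  refine PT.iterate_grow (G := fun a => sz (F a) + sz (0 : ℕ) + 1) (by fun_prop)
    ((lp_lpN_pb hΛ' (PB.min_right _ (PB.length hF)) hC).pow 2) (by fun_prop) (by fun_prop) (by fun_prop)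
    fun a c => lp_sz_step _ _ _ _ _ _ _

end pt

theorem lpY_pt : PT lpY := by
  unfold lpY; fun_prop

theorem lp_fn (n : ℕ) (g : ℕ → ℚ) (i : ℕ) : fn ((List.range n).map g) i = if i < n then g i else 0 := by
  unfold fn
  split_ifs with h
  · rw [List.getD_eq_getElem _ _ (by simpa using h)]
    simp
  · rw [List.getD_eq_default _ _ (by simpa using h)]

theorem lp_sm_congr {F : List ℕ} {g g' : ℕ → ℚ} (h : ∀ i ∈ F, g i = g' i) : sm F g = sm F g' := by
  unfold sm
  rw [List.map_congr_left h]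

theorem lp_sm_le {F : List ℕ} {g g' : ℕ → ℚ} (h : ∀ i ∈ F, g i ≤ g' i) : sm F g ≤ sm F g' :=
  List.sum_le_sum h

theorem lp_sm_add_const (F : List ℕ) (g : ℕ → ℚ) (c : ℚ) : sm F (fun i => g i + c) = sm F g + F.length * c := by
  unfold sm
  induction F with
  | nil => simp
  | cons a F ih => simp only [List.map_cons, List.sum_cons, ih, List.length_cons]; push_cast; ring

theorem lp_min_sum (F : List ℕ) {g : ℕ → ℚ} (hg : ∀ i, 0 ≤ g i) :
    min 1 (sm F g) ≤ sm F fun i => min 1 (g i) := by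
  have h0 : ∀ F : List ℕ, 0 ≤ sm F fun i => min 1 (g i) := fun F =>
    List.sum_nonneg fun _ hx => by
      obtain ⟨i, -, rfl⟩ := List.mem_map.1 hx
      exact le_min zero_le_one (hg i)
  induction F with
  | nil => simp [sm]
  | cons a F ih =>
    have h1 := h0 F
    have h2 := hg a
    have e1 : sm (a :: F) g = g a + sm F g := rfl
    have e2 : sm (a :: F) (fun i => min 1 (g i)) = min 1 (g a) + sm F fun i => min 1 (g i) := rfl
    rw [e1, e2]
    rcases le_total 1 (g a) with h | h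
    · rw [min_eq_left h]
      exact (min_le_left _ _).trans (by linarith)
    · rw [min_eq_right h]
      rcases le_total 1 (sm F g) with h' | h'
      · rw [min_eq_left h'] at ih
        exact (min_le_left _ _).trans (by linarith)
      · rw [min_eq_right h'] at ih
        exact (min_le_right _ _).trans (by linarith)

theorem lp_count {F : List ℕ} (hF : F.Nodup) (q : ℕ → Prop) [DecidablePred q] (c : ℚ) {w : List ℕ}
    (hw : w ⊆ F) :
    sm F (fun i => if q i then c * (w.count i : ℕ) else 0) = c * (w.countP fun o => decide (q o) : ℕ) := by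
  rw [sm_eq hF]
  induction w with
  | nil => simp
  | cons a w ih =>
    have ha : a ∈ F.toFinset := List.mem_toFinset.2 (hw List.mem_cons_self)
    have e : ∀ i, (if q i then c * ((a :: w).count i : ℕ) else 0) =
        (if q i then c * (w.count i : ℕ) else 0) + if a = i then (if q a then c else 0) else 0 := by
      intro i
      rw [List.count_cons]
      by_cases h : a = i
      · subst h
        by_cases h' : q a <;> simp [h', mul_add]
      · by_cases h' : q i <;> simp [h, h']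
    simp only [e]
    rw [Finset.sum_add_distrib, ih fun x hx => hw (List.mem_cons_of_mem _ hx), Finset.sum_ite_eq, if_pos ha,
      List.countP_cons]
    by_cases h' : q a <;> simp [h', mul_add]

theorem lpY_spec {Λ k : ℕ} (C : List ℕ) {F : List ℕ} {D : Tab} (h : Ok k F D) (hΛ : IntM Λ D) :
    (∀ i, 0 ≤ fn (lpY (⟨Λ⟩, k, C, F, D)) i ∧ fn (lpY (⟨Λ⟩, k, C, F, D)) i ≤ 1) ∧
    1 ≤ sm F (fn (lpY (⟨Λ⟩, k, C, F, D))) ∧ sm F (fn (lpY (⟨Λ⟩, k, C, F, D))) ≤ k ∧
    ∀ S, Feas k F S → (sm C fun j => sm (List.range Λ) fun t =>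
      max 0 (1 - ball (dd D) F (fn (lpY (⟨Λ⟩, k, C, F, D))) j t)) ≤ cost (dd D) C S + 1 / 8 := by
  obtain ⟨κ, hκ⟩ : ∃ κ, κ = min k F.length := ⟨_, rfl⟩
  obtain ⟨N, hN⟩ : ∃ N, N = lpN Λ κ C := ⟨_, rfl⟩
  obtain ⟨η, hη⟩ : ∃ η : ℚ, η = 1 / (8 * ((C.length * Λ + 1 : ℕ) : ℚ)) := ⟨_, rfl⟩
  obtain ⟨w, hw⟩ : ∃ w, w = (fwStep (dd D) η Λ κ C F)^[N ^ 2] [] := ⟨_, rfl⟩
  have hN1 : 1 ≤ N := by rw [hN, lpN]; omega
  have hN0 : (0 : ℚ) < ((N ^ 2 : ℕ) : ℚ) := by positivity
  have hκ1 : 1 ≤ κ := by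
    have := List.length_pos_iff.2 h.ne
    have := h.one_le
    omega
  have hη0 : 0 < η := by rw [hη]; positivity
  obtain ⟨hlen, hsub⟩ := fw_mem (dd D) η Λ κ C h.ne (N ^ 2)
  rw [← hw] at hlen hsub
  obtain ⟨c, hc⟩ : ∃ c : ℚ, c = κ / ((N ^ 2 : ℕ) : ℚ) := ⟨_, rfl⟩
  have hc0 : 0 ≤ c := by rw [hc]; positivity
  have hy : ∀ i, fn (lpY (⟨Λ⟩, k, C, F, D)) i = if i < D.length then min 1 (c * (w.count i : ℕ)) else 0 := by
    intro i
    rw [lpY, lp_fn]
    simp only [lpW, ← hκ, ← hN, ← hη, ← hw]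
    rw [hc, div_mul_eq_mul_div]
  have hyF : ∀ i ∈ F, fn (lpY (⟨Λ⟩, k, C, F, D)) i = min 1 (c * (w.count i : ℕ)) := fun i hi => by
    rw [hy, if_pos (h.lt i hi)]
  have htot : sm F (fun i => c * (w.count i : ℕ)) = κ := by
    have h1 := lp_count h.nodup (fun _ => True) c hsub
    simp only [if_true, decide_true, List.countP_true] at h1
    rw [h1, hlen, hc, div_mul_cancel₀ _ hN0.ne']
  refine ⟨fun i => ?_, ?_, ?_, fun S hS => ?_⟩
  · rw [hy]
    split_ifs
    · exact ⟨le_min zero_le_one (by positivity), min_le_left _ _⟩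
    · exact ⟨le_rfl, zero_le_one⟩
  · rw [lp_sm_congr hyF]
    refine le_trans ?_ (lp_min_sum F fun i => by positivity)
    rw [htot]
    exact le_min le_rfl (by exact_mod_cast hκ1)
  · rw [lp_sm_congr hyF]
    refine (lp_sm_le fun i _ => min_le_right _ _).trans ?_
    rw [htot]
    exact_mod_cast hκ ▸ min_le_left _ _
  · have hSκ : S.length ≤ κ := by
      have := (List.subperm_of_subset hS.2.2.1 hS.1).length_le
      have := hS.2.2.2
      omega
    have hb := fw_bound hη0 (d := dd D) hΛ C hS.1 hS.2.1 hSκ hN1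
    rw [← hw] at hb
    have h1 : ∀ j t : ℕ, max 0 (1 - ball (dd D) F (fn (lpY (⟨Λ⟩, k, C, F, D))) j t) ≤
        hub η (cov (dd D) κ w j t) + η / 2 := by
      intro j t
      refine le_trans ?_ (max_le_hub hη0 _)
      have h2 := lp_min_sum F (g := fun i => if dd D j i ≤ t then c * (w.count i : ℕ) else 0) fun i => by
        split_ifs
        · positivity
        · exact le_rfl
      rw [lp_count h.nodup _ c hsub] at h2
      have h3 : ball (dd D) F (fn (lpY (⟨Λ⟩, k, C, F, D))) j t =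
          sm F fun i => min 1 (if dd D j i ≤ t then c * (w.count i : ℕ) else 0) := by
        refine lp_sm_congr fun i hi => ?_
        rw [hyF i hi]
        split_ifs
        · rfl
        · exact (min_eq_right zero_le_one).symm
      have h4 : cov (dd D) κ w j t = 1 - c * (w.countP fun o => decide (dd D j o ≤ t) : ℕ) := by
        rw [cov, hlen, hc, div_mul_eq_mul_div]
      rw [h3, h4]
      refine max_le (le_max_left _ _) ?_
      rcases le_total 1 (c * (w.countP fun o => decide (dd D j o ≤ t) : ℕ)) with h5 | h5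
      · rw [min_eq_left h5] at h2
        exact le_trans (by linarith) (le_max_left _ _)
      · rw [min_eq_right h5] at h2
        exact le_trans (by linarith) (le_max_right _ _)
    have h2 : (sm C fun j => sm (List.range Λ) fun t =>
        max 0 (1 - ball (dd D) F (fn (lpY (⟨Λ⟩, k, C, F, D))) j t)) ≤
        fwG (dd D) η Λ κ C w + C.length * (Λ * (η / 2)) := by
      rw [fwG, ← lp_sm_add_const]
      refine lp_sm_le fun j _ => (lp_sm_le fun t _ => h1 j t).trans_eq ?_
      rw [lp_sm_add_const, List.length_range]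
    obtain ⟨M, hM⟩ : ∃ M : ℚ, M = C.length * Λ := ⟨_, rfl⟩
    have hM0 : 0 ≤ M := by rw [hM]; positivity
    have hη' : η = 1 / (8 * (M + 1)) := by rw [hη, hM]; push_cast; rfl
    have hN' : (N : ℚ) = 128 * (M + 1) ^ 2 * κ ^ 2 + 1 := by rw [hN, lpN, hM]; push_cast; rfl
    have h3 : (C.length : ℚ) * (Λ * (η / 2)) ≤ 1 / 16 := by
      rw [← mul_assoc, ← hM, hη', show M * (1 / (8 * (M + 1)) / 2) = M / (16 * (M + 1)) by field_simp; ring,
        div_le_div_iff₀ (by positivity) (by positivity)]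
      linarith
    have h4 : (C.length : ℚ) * Λ * κ ^ 2 / (2 * η) * 2 / N ≤ 1 / 16 := by
      rw [← hM, hη', show M * κ ^ 2 / (2 * (1 / (8 * (M + 1)))) * 2 = 8 * M * (M + 1) * κ ^ 2 by field_simp,
        div_le_div_iff₀ (by positivity) (by positivity), hN']
      have : 0 ≤ (M + 1) * (κ : ℚ) ^ 2 := by positivity
      nlinarith
    linarith

end Crest.Agent.R310
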