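import Crest.Agent.R310.Pot

/-!
# R310 / LP1 : Frank–Wolfe with averaging, the analysis

`hub η` is convex with derivative `g x = max 0 (min 1 (x / η))`:  `hub (x + h) ≤ hub x + g x * h + h² / (2η)` and
`hub x + g x * (v - x) ≤ hub v ≤ max 0 v` (case analysis + `nlinarith`/`field_simp`), `max 0 x ≤ hub x + η / 2`.

`fw_step`.  `n = |w|`, `u = cov w j t`, `v o = 1 - κ [d j o ≤ t]`.  `cov (o :: w) = u + (v o - u) / (n + 1)` (also for `n = 0`, where
`u = 1`); `u, v o ∈ [1 - κ, 1]`, so `(v o - u)² ≤ κ²`.  Average over `o ∈ S`: the mean of `v o` is `v̄ = 1 - κ #{o ∈ S, d j o ≤ t} / |S|`, and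
`max 0 v̄ ≤ [t < dS j S]` as `|S| ≤ κ` (`nr_mem`).  `∑_{t < Λ} [t < dS j S] = dS j S` (an integer `≤ Λ`).  The `argmin` is at most the mean.

`fw_bound`.  Induction: `n * G (fw n) ≤ n * cost S + M * (min n N + n / N)` for `N ≥ 1`.
-/

set_option autoImplicit false

namespace Crest.Agent.R310

open Crest.Agent.Lib.PT

/-- smoothed positive part -/
def hub (η x : ℚ) : ℚ := if x ≤ 0 then 0 else if x ≤ η then x ^ 2 / (2 * η) else x - η / 2

/-- uncovered part of the ball `B(j, t)` for the empirical measure of `w`, total mass `κ` -/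
def cov (d : ℕ → ℕ → ℚ) (κ : ℕ) (w : List ℕ) (j t : ℕ) : ℚ :=
  1 - κ * (w.countP fun o => decide (d j o ≤ t) : ℕ) / (w.length : ℕ)

/-- the smoothed objective -/
def fwG (d : ℕ → ℕ → ℚ) (η : ℚ) (Λ κ : ℕ) (C w : List ℕ) : ℚ :=
  sm C fun j => sm (List.range Λ) fun t => hub η (cov d κ w j t)

/-- one step -/
def fwStep (d : ℕ → ℕ → ℚ) (η : ℚ) (Λ κ : ℕ) (C F w : List ℕ) : List ℕ :=
  (F.argmin fun o => fwG d η Λ κ C (o :: w)).getD 0 :: w

theorem max_le_hub {η : ℚ} (hη : 0 < η) (x : ℚ) : max 0 x ≤ hub η x + η / 2 := by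
  unfold hub
  split_ifs with h1 h2
  · rw [max_eq_left h1]; linarith
  · rw [max_eq_right (not_le.1 h1).le]
    have : x ^ 2 / (2 * η) + η / 2 - x = (x - η) ^ 2 / (2 * η) := by field_simp; ring
    have h3 : 0 ≤ (x - η) ^ 2 / (2 * η) := by positivity
    linarith
  · rw [max_eq_right (not_le.1 h1).le]; linarith

/-- derivative of `hub` -/
def lp1g (η x : ℚ) : ℚ := if x ≤ 0 then 0 else if x ≤ η then x / η else 1

theorem lp1g_mem {η : ℚ} (hη : 0 < η) (x : ℚ) : 0 ≤ lp1g η x ∧ lp1g η x ≤ 1 := by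
  unfold lp1g
  split_ifs with h1 h2
  · exact ⟨le_rfl, zero_le_one⟩
  · exact ⟨div_nonneg (not_le.1 h1).le hη.le, (div_le_one hη).2 h2⟩
  · exact ⟨zero_le_one, le_rfl⟩

theorem lp1_hub_eq {η : ℚ} (hη : 0 < η) (x : ℚ) :
    hub η x = lp1g η x * x - η * lp1g η x ^ 2 / 2 := by
  unfold hub lp1g
  split_ifs with h1 h2
  · ring
  · field_simp; ring
  · ring

theorem lp1_proj {η : ℚ} (hη : 0 < η) (x : ℚ) {s : ℚ} (h0 : 0 ≤ s) (h1 : s ≤ 1) :
    (s - lp1g η x) * (x - η * lp1g η x) ≤ 0 := by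
  unfold lp1g
  split_ifs with h2 h3
  · simpa using mul_nonpos_of_nonneg_of_nonpos h0 h2
  · have : x - η * (x / η) = 0 := by field_simp; ring
    rw [this, mul_zero]
  · exact mul_nonpos_of_nonpos_of_nonneg (by linarith) (by linarith [not_le.1 h3])

theorem lp1_hub_up {η : ℚ} (hη : 0 < η) (x h : ℚ) :
    hub η (x + h) ≤ hub η x + lp1g η x * h + h ^ 2 / (2 * η) := by
  rw [lp1_hub_eq hη (x + h), lp1_hub_eq hη x]
  obtain ⟨s0, s1⟩ := lp1g_mem hη (x + h)
  have h1 := lp1_proj hη x s0 s1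
  set s := lp1g η (x + h)
  set g := lp1g η x
  have h2 : h ^ 2 / (2 * η) + η * (s - g) ^ 2 / 2 - (s - g) * h =
      (h - η * (s - g)) ^ 2 / (2 * η) := by field_simp; ring
  have h3 : 0 ≤ (h - η * (s - g)) ^ 2 / (2 * η) := by positivity
  nlinarith

theorem lp1_sm_le {F : List ℕ} {f g : ℕ → ℚ} (h : ∀ i ∈ F, f i ≤ g i) : sm F f ≤ sm F g :=
  List.sum_le_sum h

theorem lp1_sm_nil (f : ℕ → ℚ) : sm [] f = 0 := rfl

theorem lp1_sm_cons (a : ℕ) (F : List ℕ) (f : ℕ → ℚ) : sm (a :: F) f = f a + sm F f := by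
  simp [sm]

theorem lp1_sm_add (F : List ℕ) (f g : ℕ → ℚ) :
    sm F (fun i => f i + g i) = sm F f + sm F g := by
  induction F with
  | nil => simp [lp1_sm_nil]
  | cons a F ih => simp only [lp1_sm_cons, ih]; ring

theorem lp1_sm_mul (F : List ℕ) (c : ℚ) (f : ℕ → ℚ) : sm F (fun i => c * f i) = c * sm F f := by
  induction F with
  | nil => simp [lp1_sm_nil]
  | cons a F ih => simp only [lp1_sm_cons, ih]; ring

theorem lp1_sm_const (F : List ℕ) (c : ℚ) : sm F (fun _ => c) = F.length * c := by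
  induction F with
  | nil => simp [lp1_sm_nil]
  | cons a F ih => simp only [lp1_sm_cons, ih, List.length_cons]; push_cast; ring

theorem lp1_sm_comm (A B : List ℕ) (f : ℕ → ℕ → ℚ) :
    sm A (fun a => sm B fun b => f a b) = sm B fun b => sm A fun a => f a b := by
  induction A with
  | nil => simp [lp1_sm_nil, lp1_sm_const]
  | cons a A ih => simp only [lp1_sm_cons, ih, lp1_sm_add]

theorem lp1_sm_ind (Λ m : ℕ) (hm : m ≤ Λ) :
    sm (List.range Λ) (fun t => if (t : ℚ) < m then 1 else 0) = m := by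
  have : ∀ L : ℕ, sm (List.range L) (fun t => if (t : ℚ) < m then 1 else 0) = (min L m : ℕ) := by
    intro L
    induction L with
    | zero => simp [sm]
    | succ L ih =>
      unfold sm at ih ⊢
      rw [List.range_succ, List.map_append, List.sum_append, ih]
      simp only [List.map_cons, List.map_nil, List.sum_cons, List.sum_nil, Nat.cast_lt, add_zero]
      split_ifs with h
      · rw [min_eq_left h.le, min_eq_left h]; push_cast; ring
      · rw [min_eq_right (not_lt.1 h), min_eq_right (by omega)]; ring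
  rw [this, min_eq_right hm]

/-- one `(o, j, t)` term -/
theorem lp1_term (d : ℕ → ℕ → ℚ) {η : ℚ} (hη : 0 < η) (κ : ℕ) (w : List ℕ) (o j t : ℕ) :
    ((w.length : ℚ) + 1) * hub η (cov d κ (o :: w) j t) ≤
      w.length * hub η (cov d κ w j t) +
        lp1g η (cov d κ w j t) * (1 - κ * if d j o ≤ t then 1 else 0) +
        κ ^ 2 / (2 * η) / (w.length + 1) := by
  set n : ℚ := (w.length : ℚ) with hn
  set c : ℚ := ((w.countP fun o => decide (d j o ≤ t) : ℕ) : ℚ) with hc
  set e : ℚ := if d j o ≤ t then 1 else 0 with he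
  have hn0 : 0 ≤ n := Nat.cast_nonneg _
  have hc0 : 0 ≤ c := Nat.cast_nonneg _
  have hcn : c ≤ n := by rw [hc, hn]; exact_mod_cast List.countP_le_length
  have hu : cov d κ w j t = 1 - κ * c / n := rfl
  have hκ : (0 : ℚ) ≤ κ := Nat.cast_nonneg _
  have hq : 0 ≤ c / n ∧ c / n ≤ 1 := ⟨div_nonneg hc0 hn0, div_le_one_of_le₀ hcn hn0⟩
  have hnq : n * (c / n) = c := by
    rcases hn0.eq_or_lt with h | h
    · have : c = 0 := le_antisymm (by linarith) hc0
      rw [this]; simp
    · field_simp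
  have he' : 0 ≤ e ∧ e ≤ 1 := by rw [he]; split_ifs <;> norm_num
  have hv : cov d κ (o :: w) j t = 1 - κ * (c + e) / (n + 1) := by
    unfold cov
    rw [List.countP_cons, List.length_cons, he]
    by_cases h : d j o ≤ t <;> simp [h, hc, hn]
  rw [mul_div_assoc] at hu
  set q := c / n with hq'
  have hn1 : 0 < n + 1 := by linarith
  have hv' : cov d κ (o :: w) j t = cov d κ w j t + κ * (q - e) / (n + 1) := by
    rw [hv, hu, ← hnq]; field_simp; ring
  have h1 := lp1_hub_up hη (cov d κ w j t) (κ * (q - e) / (n + 1))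
  have h2 := lp1_hub_eq hη (cov d κ w j t)
  rw [hv']
  set u := cov d κ w j t
  set g := lp1g η u
  have h3 : (n + 1) * ((κ * (q - e) / (n + 1)) ^ 2 / (2 * η)) ≤ κ ^ 2 / (2 * η) / (n + 1) := by
    have h4 : (n + 1) * ((κ * (q - e) / (n + 1)) ^ 2 / (2 * η)) =
        κ ^ 2 / (2 * η) / (n + 1) * (q - e) ^ 2 := by field_simp
    rw [h4]
    have h5 : (q - e) ^ 2 ≤ 1 := by nlinarith [hq.1, hq.2, he'.1, he'.2]
    exact mul_le_of_le_one_right (by positivity) h5
  have h6 : (n + 1) * (g * (κ * (q - e) / (n + 1))) = g * (κ * (q - e)) := by field_simp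
  have h7 : 0 ≤ η * g ^ 2 / 2 := by positivity
  have h8 := mul_le_mul_of_nonneg_left h1 hn1.le
  have h9 : g * (κ * (q - e)) = g * (1 - κ * e) - g * u := by rw [hu]; ring
  nlinarith

/-- sum over `o ∈ S` of one `(j, t)` term -/
theorem lp1_avg (d : ℕ → ℕ → ℚ) {η : ℚ} (hη : 0 < η) {κ : ℕ} {S : List ℕ} (hne : S ≠ [])
    (hκ : S.length ≤ κ) (w : List ℕ) (j t : ℕ) :
    sm S (fun o => ((w.length : ℚ) + 1) * hub η (cov d κ (o :: w) j t)) ≤
      S.length * (w.length * hub η (cov d κ w j t) + (if (t : ℚ) < dS d j S then 1 else 0) +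
        κ ^ 2 / (2 * η) / (w.length + 1)) := by
  refine (lp1_sm_le fun o _ => lp1_term d hη κ w o j t).trans ?_
  rw [lp1_sm_add, lp1_sm_add, lp1_sm_const, lp1_sm_const, lp1_sm_mul]
  obtain ⟨g0, g1⟩ := lp1g_mem hη (cov d κ w j t)
  have hκ0 : (0 : ℚ) ≤ κ := Nat.cast_nonneg _
  have hS0 : (0 : ℚ) ≤ S.length := Nat.cast_nonneg _
  have key : lp1g η (cov d κ w j t) * sm S (fun o => 1 - κ * if d j o ≤ t then 1 else 0) ≤
      S.length * (if (t : ℚ) < dS d j S then 1 else 0) := by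
    have e1 : sm S (fun o => 1 - κ * if d j o ≤ t then (1 : ℚ) else 0) =
        S.length - κ * sm S (fun o => if d j o ≤ t then (1 : ℚ) else 0) := by
      have := lp1_sm_add S (fun _ => 1) (fun o => -(κ : ℚ) * if d j o ≤ t then (1 : ℚ) else 0)
      rw [lp1_sm_const, lp1_sm_mul] at this
      refine Eq.trans ?_ (this.trans (by ring))
      congr 1; funext o; ring
    have e2 : ∀ x ∈ S.map (fun o => if d j o ≤ t then (1 : ℚ) else 0), 0 ≤ x := by
      intro x hx
      obtain ⟨o, -, rfl⟩ := List.mem_map.1 hx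
      split_ifs <;> norm_num
    have e3 : 0 ≤ sm S (fun o => if d j o ≤ t then (1 : ℚ) else 0) := List.sum_nonneg e2
    rw [e1]
    split_ifs with h
    · have := mul_nonneg hκ0 e3
      nlinarith [mul_nonneg g0 this]
    · have e4 : (1 : ℚ) ≤ sm S (fun o => if d j o ≤ t then (1 : ℚ) else 0) := by
        refine List.single_le_sum e2 1 (List.mem_map.2 ⟨nr d j S, nr_mem d j hne, ?_⟩)
        exact if_pos (not_lt.1 h)
      have e5 : (S.length : ℚ) ≤ κ := by exact_mod_cast hκ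
      rw [mul_zero]
      exact mul_nonpos_of_nonneg_of_nonpos g0 (by nlinarith)
  nlinarith

theorem fw_step {d : ℕ → ℕ → ℚ} {η : ℚ} (hη : 0 < η) {Λ κ : ℕ} (hd : ∀ a b, IsN Λ (d a b))
    (C : List ℕ) {F S : List ℕ} (hS : S ⊆ F) (hne : S ≠ []) (hκ : S.length ≤ κ) (w : List ℕ) :
    ((w.length : ℚ) + 1) * fwG d η Λ κ C (fwStep d η Λ κ C F w) ≤
      w.length * fwG d η Λ κ C w + cost d C S + C.length * Λ * κ ^ 2 / (2 * η) / (w.length + 1) := by
  have hF : F ≠ [] := fun h => hne (List.subset_nil.1 (h ▸ hS))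
  have hSpos : (0 : ℚ) < S.length := by exact_mod_cast List.length_pos_iff.2 hne
  have hn : (0 : ℚ) ≤ (w.length : ℚ) + 1 := by positivity
  have hmin : ∀ o ∈ S, fwG d η Λ κ C (fwStep d η Λ κ C F w) ≤ fwG d η Λ κ C (o :: w) := by
    intro o ho
    unfold fwStep
    cases h : F.argmin fun o => fwG d η Λ κ C (o :: w) with
    | none => exact absurd (List.argmin_eq_none.1 h) hF
    | some m => exact List.le_of_mem_argmin (f := fun o => fwG d η Λ κ C (o :: w)) (hS ho) h
  refine le_of_mul_le_mul_left ?_ hSpos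
  rw [← lp1_sm_const]
  refine (lp1_sm_le fun o ho => mul_le_mul_of_nonneg_left (hmin o ho) hn).trans ?_
  have e1 : sm S (fun o => ((w.length : ℚ) + 1) * fwG d η Λ κ C (o :: w)) =
      sm C fun j => sm (List.range Λ) fun t => sm S fun o =>
        ((w.length : ℚ) + 1) * hub η (cov d κ (o :: w) j t) := by
    unfold fwG
    simp only [← lp1_sm_mul]
    rw [lp1_sm_comm]
    congr 1; funext j
    rw [lp1_sm_comm]
  rw [e1]
  refine (lp1_sm_le fun j _ => lp1_sm_le fun t _ => lp1_avg d hη hne hκ w j t).trans (le_of_eq ?_)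
  have e2 : ∀ j, sm (List.range Λ) (fun t => if (t : ℚ) < dS d j S then 1 else 0) = dS d j S := by
    intro j
    obtain ⟨m, hm, e⟩ := hd j (nr d j S)
    unfold dS
    rw [e]
    exact lp1_sm_ind Λ m hm
  simp only [lp1_sm_mul, lp1_sm_add, lp1_sm_const, e2, List.length_range]
  have e3 : sm C (fun j => dS d j S) = cost d C S := rfl
  have e4 : (sm C fun j => sm (List.range Λ) fun t => hub η (cov d κ w j t)) =
    fwG d η Λ κ C w := rfl
  rw [e3, e4]
  ring

theorem fw_mem (d : ℕ → ℕ → ℚ) (η : ℚ) (Λ κ : ℕ) (C : List ℕ) {F : List ℕ} (hF : F ≠ []) (n : ℕ) :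
    ((fwStep d η Λ κ C F)^[n] []).length = n ∧ (fwStep d η Λ κ C F)^[n] [] ⊆ F := by
  induction n with
  | zero => simp
  | succ n ih =>
    rw [Function.iterate_succ_apply']
    set w := (fwStep d η Λ κ C F)^[n] []
    unfold fwStep
    refine ⟨by rw [List.length_cons, ih.1], List.cons_subset.2 ⟨?_, ih.2⟩⟩
    cases h : F.argmin fun o => fwG d η Λ κ C (o :: w) with
    | none => exact absurd (List.argmin_eq_none.1 h) hF
    | some m => exact List.argmin_mem h

theorem fw_bound {d : ℕ → ℕ → ℚ} {η : ℚ} (hη : 0 < η) {Λ κ : ℕ} (hd : ∀ a b, IsN Λ (d a b))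
    (C : List ℕ) {F S : List ℕ} (hS : S ⊆ F) (hne : S ≠ []) (hκ : S.length ≤ κ) {N : ℕ} (hN : 1 ≤ N) :
    fwG d η Λ κ C ((fwStep d η Λ κ C F)^[N ^ 2] []) ≤
      cost d C S + C.length * Λ * κ ^ 2 / (2 * η) * 2 / N := by
  have hF : F ≠ [] := fun h => hne (List.subset_nil.1 (h ▸ hS))
  set M : ℚ := C.length * Λ * κ ^ 2 / (2 * η) with hM
  have hM0 : 0 ≤ M := by positivity
  have hN0 : (0 : ℚ) < N := by exact_mod_cast hN
  have key : ∀ n : ℕ, (n : ℚ) * fwG d η Λ κ C ((fwStep d η Λ κ C F)^[n] []) ≤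
      n * cost d C S + M * ((min n N : ℕ) + n / N) := by
    intro n
    induction n with
    | zero => simp
    | succ n ih =>
      rw [Function.iterate_succ_apply']
      have h1 := fw_step hη hd C hS hne hκ ((fwStep d η Λ κ C F)^[n] [])
      rw [(fw_mem d η Λ κ C hF n).1, ← hM] at h1
      have hn1 : (0 : ℚ) < n + 1 := by positivity
      have h2 : 1 / ((n : ℚ) + 1) + (min n N : ℕ) ≤ (min (n + 1) N : ℕ) + 1 / N := by
        rcases le_or_gt (n + 1) N with h | h
        · rw [min_eq_left h, min_eq_left (by omega)]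
          have h3 : 1 / ((n : ℚ) + 1) ≤ 1 := (div_le_one hn1).2 (by linarith [Nat.cast_nonneg (α := ℚ) n])
          have h4 : (0 : ℚ) ≤ 1 / N := by positivity
          push_cast; linarith
        · rw [min_eq_right h.le, min_eq_right (by omega)]
          have h3 : 1 / ((n : ℚ) + 1) ≤ 1 / N :=
            one_div_le_one_div_of_le hN0 (by exact_mod_cast h.le)
          linarith
      have h3 := mul_le_mul_of_nonneg_left h2 hM0
      have h4 : M / ((n : ℚ) + 1) = M * (1 / ((n : ℚ) + 1)) := by ring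
      have h5 : ((n : ℚ) + 1) / N = n / N + 1 / N := by ring
      rw [Nat.cast_succ, h5]
      nlinarith
  have h := key (N ^ 2)
  rw [min_eq_right (Nat.le_self_pow two_ne_zero N)] at h
  push_cast at h
  refine le_of_mul_le_mul_left (h.trans (le_of_eq ?_)) (by positivity : (0 : ℚ) < (N : ℚ) ^ 2)
  field_simp
  ring

end Crest.Agent.R310
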