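import Crest.Agent.R310.LS3

/-!
# R310 / LS : Li–Svensson, the reduction

Choose `t ≥ 1` with `(c + 1) (18 + 36 (α + ε)) ≤ ε t`, and a rational `B` only in the proof.  For a feasible `O`
(`opt = cost O`): `exists_sparse` gives `P`; `F' = rem P F` is `Ok` (it contains `O`), `T = A (k, C, F', D)` costs `≤ α opt`.
Take `B = 18 opt / t + 36 β / t` with `β = cost T + e opt`, `e` a rational in `[ε/2, ε]`... simplest: choose rationals
`a ≥ α`, `e > 0` with `a + e ≤ α + ε` at the start, `t` with `(c + 1)(18 + 36 (a + e)) ≤ e t`, `B = e opt / (c + 1)`.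
`exists_stuck` gives `R`, `T' = del R T`, `cost T' ≤ (a + e) opt`.  Either `T'` is a feasible candidate, or `few_undet`
and `cand_spec` give a candidate of cost `≤ (5/3) opt`.  `best_le`, `best_feas`, `mem_upto`.
-/

set_option autoImplicit false

namespace Crest.Agent.R310

open Crest.Agent.Lib.PT

/-- all candidates -/
def lsCands (A : Raw → List ℕ) (c t : ℕ) (x : Raw) : List (List ℕ) :=
  (upto (x.2.2.1 ×ˢ x.2.2.1) t).flatMap fun P =>
    (upto x.2.2.1 c).flatMap fun R =>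
      del R (A (x.1, x.2.1, rem (dd x.2.2.2) P x.2.2.1, x.2.2.2)) ::
        (upto x.2.2.1 t ×ˢ upto x.2.2.1 t).map fun q =>
          cand (dd x.2.2.2) x.2.1 (rem (dd x.2.2.2) P x.2.2.1)
            (del R (A (x.1, x.2.1, rem (dd x.2.2.2) P x.2.2.1, x.2.2.2))) q.1 q.2

section pt
variable {β : Type} [Enc β]

@[fun_prop] theorem LS_rem_pt {D : β → Tab} {P : β → List (ℕ × ℕ)} {F : β → List ℕ} (hD : PT D) (hP : PT P)
    (hF : PT F) : PT fun a => rem (dd (D a)) (P a) (F a) := by unfold rem; fun_prop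

@[fun_prop] theorem LS_del_pt {R T : β → List ℕ} (hR : PT R) (hT : PT T) : PT fun a => del (R a) (T a) := by
  unfold del; fun_prop

@[fun_prop] theorem LS_gap_pt {D : β → Tab} {T : β → List ℕ} {i : β → ℕ} (hD : PT D) (hT : PT T) (hi : PT i) :
    PT fun a => gap (dd (D a)) (T a) (i a) := by unfold gap; fun_prop

@[fun_prop] theorem LS_pick_pt {D : β → Tab} {C F T V : β → List ℕ} {i : β → ℕ} (hD : PT D) (hC : PT C)
    (hF : PT F) (hT : PT T) (hV : PT V) (hi : PT i) :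
    PT fun a => pick (dd (D a)) (C a) (F a) (T a) (V a) (i a) := by unfold pick; fun_prop

@[fun_prop] theorem LS_cand_pt {D : β → Tab} {C F T U V : β → List ℕ} (hD : PT D) (hC : PT C)
    (hF : PT F) (hT : PT T) (hU : PT U) (hV : PT V) :
    PT fun a => cand (dd (D a)) (C a) (F a) (T a) (U a) (V a) := by unfold cand; fun_prop

end pt

theorem lsCands_pt {A : Raw → List ℕ} (hA : PT A) (c t : ℕ) : PT (lsCands A c t) := by
  unfold lsCands
  fun_prop

theorem ls {α ε : ℝ} {c : ℕ} {A : Raw → List ℕ} (hA : PT A) (h : Approx α c A) (hα : 5 / 3 ≤ α)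
    (hε : 0 < ε) : ∃ B : Raw → List ℕ, PT B ∧ Approx (α + ε) 0 B := by
  obtain ⟨a, a1, a2⟩ := exists_rat_btwn (show α < α + ε / 2 by linarith)
  obtain ⟨e, e1, e2⟩ := exists_rat_btwn (half_pos hε)
  obtain ⟨t, ht⟩ := exists_nat_ge ((c + 1) * (18 + 36 * (a + e)) / e)
  have e0 : 0 < e := by exact_mod_cast e1
  have a0 : 5 / 3 ≤ a := by exact_mod_cast (show (((5 / 3 : ℚ)) : ℝ) ≤ a by push_cast; linarith)
  rw [div_le_iff₀ e0] at ht
  have t0 : (0 : ℚ) < t := pos_of_mul_pos_left (lt_of_lt_of_le (by positivity) ht) e0.le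
  have t1 : 1 ≤ t := by exact_mod_cast t0
  have hL := lsCands_pt hA c t
  refine ⟨fun x => best x.1 x.2.1 x.2.2.1 x.2.2.2 (lsCands A c t x), by fun_prop, fun k C F D ok =>
    ⟨best_feas ok.one_le ok.ne _ _ _, fun O hO => ?_⟩⟩
  have o0 := cost_nonneg ok.pm C O
  suffices ∃ S ∈ lsCands A c t (k, C, F, D), Feas k F S ∧ cost (dd D) C S ≤ (a + e) * cost (dd D) C O by
    obtain ⟨S, s1, s2, s3⟩ := this
    have s4 : (cost (dd D) C (best k C F D (lsCands A c t (k, C, F, D))) : ℝ) ≤ (a + e) * cost (dd D) C O := by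
      exact_mod_cast (best_le C D s1 s2).trans s3
    exact s4.trans (mul_le_mul_of_nonneg_right (by linarith) (by exact_mod_cast o0))
  obtain ⟨P, p1, p2, p3, p4⟩ := exists_sparse ok.pm C hO.1 hO.2.1 t1
  have hF : rem (dd D) P F ⊆ F := List.filter_subset_self _
  have hO' : Feas k (rem (dd D) P F) O := ⟨p3, hO.2⟩
  obtain ⟨⟨b1, b2, b3, b4⟩, b5⟩ := h k C (rem (dd D) P F) D ⟨ok.pm, fun i hi j hj => ok.pos i (hF hi) j (hF hj),
    fun i hi => ok.lt i (hF hi), ok.nodup.filter _, ok.one_le, fun h0 => hO.2.1 (List.subset_nil.1 (h0 ▸ p3))⟩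
  have b6 : cost (dd D) C (A (k, C, rem (dd D) P F, D)) ≤ a * cost (dd D) C O := by
    exact_mod_cast (b5 O hO').trans (mul_le_mul_of_nonneg_right a1.le (by exact_mod_cast o0))
  obtain ⟨R, r1, r2, r3, r4, r5⟩ := exists_stuck (dd D) C ok.one_le
    (B := e * cost (dd D) C O / (c + 1)) (by positivity) c b3 b2 b4
  have hT : del R (A (k, C, rem (dd D) P F, D)) ⊆ rem (dd D) P F := List.Subset.trans (List.filter_subset_self _) b1
  have hN : (del R (A (k, C, rem (dd D) P F, D))).Nodup := b3.filter _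
  have r6 : cost (dd D) C (del R (A (k, C, rem (dd D) P F, D))) ≤ (a + e) * cost (dd D) C O := by
    have : c * (e * cost (dd D) C O / (c + 1)) ≤ e * cost (dd D) C O := by
      rw [mul_div_assoc', div_le_iff₀ (by positivity)]
      nlinarith [mul_nonneg e0.le o0]
    linarith
  have hm : ∀ S, S = del R (A (k, C, rem (dd D) P F, D)) ∨ (∃ q ∈ upto F t ×ˢ upto F t,
      cand (dd D) C (rem (dd D) P F) (del R (A (k, C, rem (dd D) P F, D))) q.1 q.2 = S) →
      S ∈ lsCands A c t (k, C, F, D) := fun S hS =>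
    List.mem_flatMap.2 ⟨P, mem_upto.2 ⟨p1, fun p hp => List.mem_product.2 (p2 p hp)⟩, List.mem_flatMap.2
      ⟨R, mem_upto.2 ⟨r1, fun i hi => hF (b1 (r2 hi))⟩, List.mem_cons.2 (hS.imp_right List.mem_map.2)⟩⟩
  rcases r5 with r5 | ⟨r5, r7⟩
  · exact ⟨_, hm _ (.inl rfl), ⟨List.Subset.trans hT hF, r3, hN, r5⟩, r6⟩
  have u := few_undet ok.pm t1 p4 hT hN (by have := ok.one_le; omega) (by
    rw [le_div_iff₀ (by positivity), ← mul_le_mul_iff_left₀ t0]
    field_simp
    nlinarith [mul_le_mul_of_nonneg_right ht o0, mul_le_mul_of_nonneg_left r6 (show (0 : ℚ) ≤ c + 1 by positivity)])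
    r7
  obtain ⟨V, v1, v2, v3, v4⟩ := cand_spec ok.pm C hO' hT hN r5
  exact ⟨_, hm _ (.inr ⟨(_, V), List.mem_product.2 ⟨mem_upto.2 ⟨u.le, fun i hi =>
    hF (hT (List.mem_of_mem_filter hi))⟩, mem_upto.2 ⟨v2.trans u.le, fun i hi => hF (v1 hi)⟩⟩, rfl⟩),
    ⟨List.Subset.trans v3.1 hF, v3.2⟩, v4.trans (mul_le_mul_of_nonneg_right (by linarith) o0)⟩

end Crest.Agent.R310
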