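import Crest.Agent.R310.Basic

/-!
# R310 / LS1 : Li–Svensson, sparse instances

`O` is the optimal solution, `ℓ i = dS d i O`, `opt = cost d C O`.  By induction on `m` there is a list `P` of at most `m`
pairs `(i, nr d i O)`, `i ∈ F`, such that `|P| opt / t ≤ ∑_{j ∈ C in some ball} dS j O` (strictly if `P ≠ []`; balls:
`d j i < ℓ i / 3`) and (`rem P F` is sparse or `|P| = m`).  Step: if `i ∈ rem P F` is dense, i.e.
`ℓ i · #ball > 3 opt/(2 t)`, add `(i, nr d i O)`.  Its ball is disjoint from the older ones: for `(i', o') ∈ P`,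
`ℓ i' ≤ d i i'` (`i` was not removed) and `ℓ i ≤ d i i' + ℓ i' ≤ 2 d i i'`.  Each `j` in the new ball has
`dS j O ≥ ℓ i - d j i ≥ 2 ℓ i / 3`.  For `m = t` the second alternative gives `opt < opt`.
Points of `O` are never removed (`ℓ i ≤ d i o`).
-/

set_option autoImplicit false

namespace Crest.Agent.R310

open Crest.Agent.Lib.PT

/-- remove the open balls `B(p.1, d p.1 p.2)` -/
def rem (d : ℕ → ℕ → ℚ) (P : List (ℕ × ℕ)) (F : List ℕ) : List ℕ :=
  F.filter fun i => P.all fun p => decide (d p.1 p.2 ≤ d i p.1)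

/-- number of clients at distance `< r` from `i` -/
def cnt (d : ℕ → ℕ → ℚ) (C : List ℕ) (i : ℕ) (r : ℚ) : ℕ := C.countP fun j => decide (d j i < r)

/-- no facility far from `O` has many clients close to it -/
def Sparse (d : ℕ → ℕ → ℚ) (C F O : List ℕ) (A : ℚ) : Prop :=
  ∀ i ∈ F, dS d i O * cnt d C i (dS d i O / 3) ≤ A

theorem ls1_mem_rem {d : ℕ → ℕ → ℚ} {P : List (ℕ × ℕ)} {F : List ℕ} {i : ℕ} :
    i ∈ rem d P F ↔ i ∈ F ∧ ∀ p ∈ P, d p.1 p.2 ≤ d i p.1 := by
  simp only [rem, List.mem_filter, List.all_eq_true, decide_eq_true_eq]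

/-- cost of the clients in some ball -/
def ls1W (d : ℕ → ℕ → ℚ) (C O : List ℕ) (P : List (ℕ × ℕ)) : ℚ :=
  (C.map fun j => if ∃ p ∈ P, d j p.1 < dS d p.1 O / 3 then dS d j O else 0).sum

theorem ls1_W_le {d : ℕ → ℕ → ℚ} (hd : PM d) (C O : List ℕ) (P : List (ℕ × ℕ)) : ls1W d C O P ≤ cost d C O := by
  refine List.sum_le_sum fun j _ => ?_
  split_ifs
  · exact le_rfl
  · exact dS_nonneg hd j O

theorem ls1_sum_ite (C : List ℕ) (q : ℕ → Prop) [DecidablePred q] (f : ℕ → ℚ) (a : ℚ) :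
    (C.map fun j => f j + if q j then a else 0).sum = (C.map f).sum + a * C.countP fun j => decide (q j) := by
  induction C with
  | nil => simp
  | cons j C ih =>
    rw [List.map_cons, List.sum_cons, ih, List.map_cons, List.sum_cons, List.countP_cons]
    by_cases h : q j
    · simp only [h, if_true, decide_true]; push_cast; ring
    · simp only [h, if_false, decide_false]; simp [add_assoc]

theorem ls1_step {d : ℕ → ℕ → ℚ} (hd : PM d) (C : List ℕ) {F O : List ℕ} (hne : O ≠ []) {P : List (ℕ × ℕ)}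
    (hP : ∀ p ∈ P, p.2 = nr d p.1 O) {i : ℕ} (hi : i ∈ rem d P F) :
    ls1W d C O P + 2 * dS d i O / 3 * cnt d C i (dS d i O / 3) ≤ ls1W d C O ((i, nr d i O) :: P) := by
  unfold ls1W cnt
  rw [← ls1_sum_ite C (fun j => d j i < dS d i O / 3)]
  refine List.sum_le_sum fun j _ => ?_
  by_cases h : d j i < dS d i O / 3
  · have h1 : ¬ ∃ p ∈ P, d j p.1 < dS d p.1 O / 3 := by
      rintro ⟨p, hp, hj⟩
      have a1 : dS d p.1 O ≤ d i p.1 := by
        have := (ls1_mem_rem.1 hi).2 p hp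
        rwa [hP p hp] at this
      have a2 := dS_tri hd hne p.1 i
      have a3 := hd.tri i j p.1
      rw [hd.symm i j] at a3
      linarith
    have h2 : ∃ p ∈ (i, nr d i O) :: P, d j p.1 < dS d p.1 O / 3 := ⟨_, List.mem_cons_self, h⟩
    rw [if_neg h1, if_pos h, if_pos h2]
    have a2 := dS_tri hd hne j i
    rw [hd.symm i j] at a2
    linarith
  · rw [if_neg h, add_zero]
    by_cases h1 : ∃ p ∈ P, d j p.1 < dS d p.1 O / 3
    · obtain ⟨p, hp, hj⟩ := h1
      rw [if_pos ⟨p, hp, hj⟩, if_pos ⟨p, List.mem_cons_of_mem _ hp, hj⟩]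
    · rw [if_neg h1]
      split_ifs
      · exact dS_nonneg hd j O
      · exact le_rfl

theorem ls1_ind {d : ℕ → ℕ → ℚ} (hd : PM d) (C F : List ℕ) {O : List ℕ} (hne : O ≠ []) {t : ℕ} (ht : 1 ≤ t) (m : ℕ) :
    ∃ P : List (ℕ × ℕ), P.length ≤ m ∧ (∀ p ∈ P, p.1 ∈ F ∧ p.2 = nr d p.1 O) ∧
      P.length * (cost d C O / t) ≤ ls1W d C O P ∧ (P ≠ [] → P.length * (cost d C O / t) < ls1W d C O P) ∧
      (Sparse d C (rem d P F) O (3 * cost d C O / (2 * t)) ∨ P.length = m) := by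
  have ht0 : (0 : ℚ) < t := by exact_mod_cast ht
  induction m with
  | zero => exact ⟨[], le_rfl, by simp, by simp [ls1W], by simp, Or.inr rfl⟩
  | succ m ih =>
    obtain ⟨P, h1, h2, h3, h4, h5⟩ := ih
    by_cases hs : Sparse d C (rem d P F) O (3 * cost d C O / (2 * t))
    · exact ⟨P, by omega, h2, h3, h4, Or.inl hs⟩
    · have hm : P.length = m := h5.resolve_left hs
      unfold Sparse at hs
      push Not at hs
      obtain ⟨i, hi, hlt⟩ := hs
      have h6 := ls1_step hd C hne (fun p hp => (h2 p hp).2) hi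
      have h7 : (((i, nr d i O) :: P).length : ℚ) * (cost d C O / t) < ls1W d C O ((i, nr d i O) :: P) := by
        have e : 3 * cost d C O / (2 * t) = 3 / 2 * (cost d C O / t) := by field_simp
        rw [e] at hlt
        rw [List.length_cons]
        push_cast
        linarith
      refine ⟨(i, nr d i O) :: P, by simp [hm], ?_, h7.le, fun _ => h7, Or.inr (by simp [hm])⟩
      intro p hp
      rcases List.mem_cons.1 hp with rfl | hp
      · exact ⟨(ls1_mem_rem.1 hi).1, rfl⟩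
      · exact h2 p hp

theorem exists_sparse {d : ℕ → ℕ → ℚ} (hd : PM d) (C : List ℕ) {F O : List ℕ} (hO : O ⊆ F) (hne : O ≠ [])
    {t : ℕ} (ht : 1 ≤ t) : ∃ P : List (ℕ × ℕ), P.length ≤ t ∧ (∀ p ∈ P, p.1 ∈ F ∧ p.2 ∈ F) ∧
      O ⊆ rem d P F ∧ Sparse d C (rem d P F) O (3 * cost d C O / (2 * t)) := by
  have ht0 : (0 : ℚ) < t := by exact_mod_cast ht
  obtain ⟨P, h1, h2, -, h4, h5⟩ := ls1_ind hd C F hne ht t
  refine ⟨P, h1, fun p hp => ⟨(h2 p hp).1, (h2 p hp).2 ▸ hO (nr_mem d _ hne)⟩, fun o ho => ?_, ?_⟩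
  · refine ls1_mem_rem.2 ⟨hO ho, fun p hp => ?_⟩
    rw [(h2 p hp).2, hd.symm o]
    exact dS_le d _ ho
  · rcases h5 with h5 | h5
    · exact h5
    · exfalso
      have hP : P ≠ [] := by
        rintro rfl
        simp at h5
        omega
      have h6 := h4 hP
      rw [h5, mul_div_cancel₀ _ ht0.ne'] at h6
      exact absurd (ls1_W_le hd C O P) (not_le.2 h6)

end Crest.Agent.R310
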