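import Crest.Agent.R310.LS1

/-!
# R310 / LS2 : Li–Svensson, closing facilities

`L i = gap d T i` is the distance from `i` to the other points of `T`;  `i` is *determined* if `dS d i O < L i / 12`.

`exists_stuck`: induction on `c`.  If `|T| ≤ k` take `R = []`.  Otherwise, if some `i ∈ T` can be closed at price `≤ B`, close
it (`T.erase i` is `Nodup`, has length `≤ k + (c - 1)`; `del (i :: R) T = del R (T.erase i)`), else `R = []`.

`few_undet`: suppose `U` (the undetermined points) has at least `t` elements.  Let `C i` be the clients with `nr d j T = i`;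
`∑_{i ∈ U} ∑_{j ∈ C i} d j i ≤ cost T`, so some `i ∈ U` has `∑_{j ∈ C i} d j i ≤ cost T / t`.  Closing `i` costs at most
`L i` for each `j ∈ C i` (`dS_tri`) and nothing for the others.  Clients with `d j i < L i / 36 ≤ ℓ i / 3`:
at most `cnt i (ℓ i / 3)`, and `L i ≤ 12 ℓ i`, total `≤ 12 A`.  The others have `L i ≤ 36 d j i`.
-/

set_option autoImplicit false

namespace Crest.Agent.R310

open Crest.Agent.Lib.PT

/-- `T` without the members of `R` -/
def del (R T : List ℕ) : List ℕ := T.filter fun i => decide (i ∉ R)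

/-- distance from `i` to the rest of `T` -/
def gap (d : ℕ → ℕ → ℚ) (T : List ℕ) (i : ℕ) : ℚ := dS d i (T.erase i)

theorem del_nil (T : List ℕ) : del [] T = T := by simp [del]

theorem del_cons {T : List ℕ} (hT : T.Nodup) (i : ℕ) (R : List ℕ) :
    del (i :: R) T = del R (T.erase i) := by
  rw [hT.erase_eq_filter, del, del, List.filter_filter]
  refine List.filter_congr fun x _ => ?_
  by_cases h1 : x = i <;> by_cases h2 : x ∈ R <;> simp [h1, h2]

private theorem ls2_sum (U : Finset ℕ) (g : ℕ → ℕ) {x : ℕ → ℚ} (hx : ∀ j, 0 ≤ x j) (C : List ℕ) :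
    ∑ i ∈ U, (C.map fun j => if g j = i then x j else 0).sum ≤ (C.map x).sum := by
  induction C with
  | nil => simp
  | cons j C ih =>
    simp only [List.map_cons, List.sum_cons, Finset.sum_add_distrib, Finset.sum_ite_eq]
    refine add_le_add ?_ ih
    split_ifs
    · exact le_rfl
    · exact hx j

private theorem ls2_cnt (p : ℕ → Prop) [DecidablePred p] (a : ℚ) (C : List ℕ) :
    (C.map fun j => if p j then a else 0).sum = a * C.countP fun j => decide (p j) := by
  induction C with
  | nil => simp
  | cons j C ih =>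
    by_cases h : p j <;> simp [h, ih, mul_add, add_comm]

theorem exists_stuck (d : ℕ → ℕ → ℚ) (C : List ℕ) {k : ℕ} (hk : 1 ≤ k) {B : ℚ} (hB : 0 ≤ B) (c : ℕ)
    {T : List ℕ} (hT : T.Nodup) (hne : T ≠ []) (hl : T.length ≤ k + c) :
    ∃ R : List ℕ, R.length ≤ c ∧ R ⊆ T ∧ del R T ≠ [] ∧ cost d C (del R T) ≤ cost d C T + c * B ∧
      ((del R T).length ≤ k ∨ (k < (del R T).length ∧
        ∀ i ∈ del R T, cost d C (del R T) + B < cost d C ((del R T).erase i))) := by
  induction c generalizing T with
  | zero => exact ⟨[], by simp, by simp, by rwa [del_nil], by simp [del_nil], Or.inl (by rwa [del_nil])⟩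
  | succ c ih =>
    have h0 : cost d C (del [] T) ≤ cost d C T + (c + 1 : ℕ) * B := by
      rw [del_nil]
      exact le_add_of_nonneg_right (by positivity)
    by_cases h1 : T.length ≤ k
    · exact ⟨[], by simp, by simp, by rwa [del_nil], h0, Or.inl (by rwa [del_nil])⟩
    by_cases h2 : ∃ i ∈ T, cost d C (T.erase i) ≤ cost d C T + B
    · obtain ⟨i, hi, h2⟩ := h2
      have h3 := List.length_erase_of_mem hi
      obtain ⟨R, r1, r2, r3, r4, r5⟩ := ih (hT.erase i) (List.ne_nil_of_length_pos (by omega))
        (by omega)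
      refine ⟨i :: R, by simpa using r1, List.cons_subset.2 ⟨hi, List.Subset.trans r2 List.erase_subset⟩, ?_⟩
      rw [del_cons hT]
      refine ⟨r3, r4.trans ?_, r5⟩
      push_cast
      linarith
    · push Not at h2
      exact ⟨[], by simp, by simp, by rwa [del_nil], h0, Or.inr (by rw [del_nil]; exact ⟨by omega, h2⟩)⟩

theorem few_undet {d : ℕ → ℕ → ℚ} (hd : PM d) {C F O T : List ℕ} {A B : ℚ} {t : ℕ} (ht : 1 ≤ t)
    (hS : Sparse d C F O A) (hTF : T ⊆ F) (hT : T.Nodup) (h2 : 2 ≤ T.length)
    (hB : 12 * A + 36 * cost d C T / t ≤ B) (h : ∀ i ∈ T, cost d C T + B < cost d C (T.erase i)) :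
    (T.filter fun i => decide (gap d T i / 12 ≤ dS d i O)).length < t := by
  by_contra hc
  rw [not_lt] at hc
  set U := T.filter fun i => decide (gap d T i / 12 ≤ dS d i O) with hU
  have hUn : U.Nodup := hT.filter _
  have ht' : (0 : ℚ) < t := by exact_mod_cast ht
  have hne : T ≠ [] := List.ne_nil_of_length_pos (by omega)
  obtain ⟨i, hi, h1⟩ : ∃ i ∈ U.toFinset,
      (C.map fun j => if nr d j T = i then dS d j T else 0).sum ≤ cost d C T / t := by
    refine Finset.exists_le_of_sum_le (List.toFinset_nonempty_iff _ |>.2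
      (List.ne_nil_of_length_pos (by omega))) ((ls2_sum _ _ (fun j => dS_nonneg hd j T) C).trans ?_)
    rw [Finset.sum_const, List.toFinset_card_of_nodup hUn, nsmul_eq_mul, ← mul_div_assoc,
      le_div_iff₀ ht', mul_comm]
    exact mul_le_mul_of_nonneg_right (by exact_mod_cast hc) (cost_nonneg hd C T)
  obtain ⟨hiT, h3⟩ := List.mem_filter.1 (List.mem_toFinset.1 hi)
  have h3 : gap d T i / 12 ≤ dS d i O := of_decide_eq_true h3
  have h4 := List.length_erase_of_mem hiT
  have h5 : cost d C (T.erase i) ≤ (C.map fun j => dS d j T +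
      ((if d j i < dS d i O / 3 then 12 * dS d i O else 0) +
        36 * (if nr d j T = i then dS d j T else 0))).sum := cost_le_of_le fun j _ => by
    have h6 := dS_nonneg hd i O
    by_cases h7 : nr d j T = i
    · have h8 : dS d j (T.erase i) ≤ d j i + gap d T i :=
        dS_tri hd (List.ne_nil_of_length_pos (by omega)) i j
      have h9 : dS d j T = d j i := by rw [dS, h7]
      have h10 := hd.nonneg j i
      rw [if_pos h7, h9]
      split_ifs with h11 <;> linarith
    · have h8 : dS d j (T.erase i) ≤ dS d j T :=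
        dS_le d j ((List.mem_erase_of_ne h7).2 (nr_mem d j hne))
      rw [if_neg h7]
      split_ifs <;> linarith
  rw [List.sum_map_add, List.sum_map_add, List.sum_map_mul_left, ls2_cnt] at h5
  have h6 : dS d i O * cnt d C i (dS d i O / 3) ≤ A := hS i (hTF hiT)
  have h7 := h i hiT
  rw [mul_div_assoc] at hB
  unfold cnt at h6
  unfold cost at h7 h5 hB h1
  linarith

end Crest.Agent.R310
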