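import Crest.Agent.R310.LS2

/-!
# R310 / LS3 : Li–Svensson, the candidate built from the determined facilities

`U` = undetermined points of `T`, `D₀ = del U T`, `f i = nr d i O`, `V = O` without the `f i`, `i ∈ D₀`.
`f` is injective on `D₀` (`d i i' ≤ ℓ i + ℓ i' < (L i + L i')/12 ≤ d i i' / 6`), so `|V| + |D₀| = |O| ≤ k`, and
`|D₀| = |T| - |U| > k - |U|` gives `|V| ≤ |U|`.  `cand ≠ []` because `|V| + |D₀| = |O| > 0`.
Cost: the balls `B i = {j | d j i < L i / 3}`, `i ∈ D₀`, are disjoint.  Pointwise
`dS j cand ≤ [j in no ball] (5/3) dS j O + ∑_{i ∈ D₀} [j ∈ B i] dS j (pick i :: V)`:  if `j` is in no ball and `nr j O = f i`,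
`i ∈ D₀`, then `d j (pick i) ≤ d j i + L i/12 ≤ (5/4) d j i`, `d j (f i) ≥ (3/4) d j i`.  By the choice of `pick i`
(`f i` is a competitor) `∑_{j ∈ B i} dS j (pick i :: V) ≤ ∑_{j ∈ B i} dS j (f i :: V) ≤ ∑_{j ∈ B i} dS j O`; for the last step, if
`nr j O = f i'` with `i' ≠ i` in `D₀` then `d j (f i) ≤ (5/12) d i i'` and `d j (f i') ≥ (7/12) d i i'`.
-/

set_option autoImplicit false

namespace Crest.Agent.R310

open Crest.Agent.Lib.PT

/-- the best facility close to `i` for the clients close to `i`, `V` being open -/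
def pick (d : ℕ → ℕ → ℚ) (C F T V : List ℕ) (i : ℕ) : ℕ :=
  ((F.filter fun f => decide (d i f < gap d T i / 12)).argmin fun f =>
    ((C.filter fun j => decide (d j i < gap d T i / 3)).map fun j => dS d j (f :: V)).sum).getD i

/-- the candidate -/
def cand (d : ℕ → ℕ → ℚ) (C F T U V : List ℕ) : List ℕ := (V ++ (del U T).map (pick d C F T V)).dedup

private theorem ls3_filter (C : List ℕ) (q : ℕ → Prop) [DecidablePred q] (g : ℕ → ℚ) :
    ((C.filter fun j => decide (q j)).map g).sum = (C.map fun j => if q j then g j else 0).sum := by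
  induction C with
  | nil => simp
  | cons j C ih => by_cases h : q j <;> simp [h, ih]

private theorem ls3_comm (C : List ℕ) (s : Finset ℕ) (h : ℕ → ℕ → ℚ) :
    (C.map fun j => ∑ i ∈ s, h i j).sum = ∑ i ∈ s, (C.map (h i)).sum := by
  induction C with
  | nil => simp
  | cons j C ih => simp only [List.map_cons, List.sum_cons, Finset.sum_add_distrib, ih]

private theorem ls3_main {d : ℕ → ℕ → ℚ} (hd : PM d) (C : List ℕ) {O V W : List ℕ} (s : Finset ℕ)
    (L : ℕ → ℚ) (p f : ℕ → ℕ) (hL : ∀ i ∈ s, ∀ i' ∈ s, i ≠ i' → L i ≤ d i i')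
    (hf : ∀ i ∈ s, d i (f i) < L i / 12) (hp : ∀ i ∈ s, d i (p i) < L i / 12)
    (hO : ∀ o ∈ O, o ∈ V ∨ ∃ i ∈ s, f i = o) (hne : O ≠ []) (hV : V ⊆ W) (hW : ∀ i ∈ s, p i ∈ W)
    (hmin : ∀ i ∈ s, ((C.filter fun j => decide (d j i < L i / 3)).map fun j => dS d j (p i :: V)).sum ≤
      ((C.filter fun j => decide (d j i < L i / 3)).map fun j => dS d j (f i :: V)).sum) :
    cost d C W ≤ 5 / 3 * cost d C O := by
  classical
  have h1 : cost d C W ≤ (C.map fun j => (if ∃ i ∈ s, d j i < L i / 3 then 0 else 5 / 3 * dS d j O) +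
      ∑ i ∈ s, if d j i < L i / 3 then dS d j (p i :: V) else 0).sum := cost_le_of_le fun j _ => by
    have hnn : ∀ i ∈ s, 0 ≤ if d j i < L i / 3 then dS d j (p i :: V) else 0 := fun i _ => by
      split_ifs
      · exact dS_nonneg hd _ _
      · exact le_rfl
    by_cases hb : ∃ i ∈ s, d j i < L i / 3
    · rw [if_pos hb, zero_add]
      obtain ⟨i, hi, hj⟩ := hb
      refine le_trans ?_ (Finset.single_le_sum hnn hi)
      rw [if_pos hj]
      exact dS_anti (List.cons_ne_nil _ _) (List.cons_subset.2 ⟨hW i hi, hV⟩)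
    · rw [if_neg hb]
      refine le_trans ?_ (le_add_of_nonneg_right (Finset.sum_nonneg hnn))
      have h0 := dS_nonneg hd j O
      rcases hO _ (nr_mem d j hne) with ho | ⟨i, hi, ho⟩
      · have : dS d j W ≤ dS d j O := dS_le d j (hV ho)
        linarith
      · have a1 : L i / 3 ≤ d j i := not_lt.1 fun h => hb ⟨i, hi, h⟩
        have a2 : dS d j W ≤ d j (p i) := dS_le d j (hW i hi)
        have a3 := hd.tri j i (p i)
        have a4 := hp i hi
        have a5 := hf i hi
        have a6 := hd.tri j (f i) i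
        rw [hd.symm (f i) i] at a6
        have a7 : dS d j O = d j (f i) := by rw [dS, ho]
        linarith
  have h2 : ∀ i ∈ s, (C.map fun j => if d j i < L i / 3 then dS d j (p i :: V) else 0).sum ≤
      (C.map fun j => if d j i < L i / 3 then dS d j O else 0).sum := fun i hi => by
    rw [← ls3_filter C (fun j => d j i < L i / 3)]
    refine (hmin i hi).trans ?_
    rw [ls3_filter C (fun j => d j i < L i / 3)]
    refine List.sum_le_sum fun j _ => ?_
    split_ifs with hj
    · rcases hO _ (nr_mem d j hne) with ho | ⟨i', hi', ho⟩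
      · exact dS_le d j (List.mem_cons_of_mem _ ho)
      · have a7 : dS d j O = d j (f i') := by rw [dS, ho]
        have a2 : dS d j (f i :: V) ≤ d j (f i) := dS_le d j List.mem_cons_self
        by_cases e : i = i'
        · rw [a7, ← e]; exact a2
        · have b1 := hL i hi i' hi' e
          have b2 := hL i' hi' i hi (Ne.symm e)
          rw [hd.symm i' i] at b2
          have b3 := hf i hi
          have b4 := hf i' hi'
          have b5 := hd.tri j i (f i)
          have b6 := hd.tri i j i'
          have b7 := hd.tri j (f i') i'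
          rw [hd.symm i j] at b6
          rw [hd.symm (f i') i'] at b7
          have b8 := hd.nonneg i i'
          linarith
    · exact le_rfl
  rw [List.sum_map_add, ls3_comm C s fun i j => if d j i < L i / 3 then dS d j (p i :: V) else 0] at h1
  have h3 := Finset.sum_le_sum h2
  rw [← ls3_comm C s fun i j => if d j i < L i / 3 then dS d j O else 0] at h3
  refine (h1.trans (add_le_add le_rfl h3)).trans ?_
  rw [← List.sum_map_add, cost, ← List.sum_map_mul_left]
  refine List.sum_le_sum fun j _ => ?_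
  have h0 := dS_nonneg hd j O
  by_cases hb : ∃ i ∈ s, d j i < L i / 3
  · rw [if_pos hb, zero_add]
    obtain ⟨i, hi, hj⟩ := hb
    rw [Finset.sum_eq_single_of_mem i hi, if_pos hj]
    · linarith
    · intro i' hi' e
      refine if_neg fun hj' => ?_
      have b1 := hL i hi i' hi' (Ne.symm e)
      have b2 := hL i' hi' i hi e
      rw [hd.symm i' i] at b2
      have b6 := hd.tri i j i'
      rw [hd.symm i j] at b6
      have b8 := hd.nonneg i i'
      linarith
  · rw [if_neg hb, Finset.sum_eq_zero, add_zero]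
    intro i hi
    exact if_neg fun h => hb ⟨i, hi, h⟩

private theorem ls3_pick {d : ℕ → ℕ → ℚ} (C : List ℕ) {F : List ℕ} (T V : List ℕ) {i o : ℕ} (ho : o ∈ F)
    (h : d i o < gap d T i / 12) : pick d C F T V i ∈ F ∧ d i (pick d C F T V i) < gap d T i / 12 ∧
      ((C.filter fun j => decide (d j i < gap d T i / 3)).map fun j => dS d j (pick d C F T V i :: V)).sum ≤
        ((C.filter fun j => decide (d j i < gap d T i / 3)).map fun j => dS d j (o :: V)).sum := by
  have hm : o ∈ F.filter fun f => decide (d i f < gap d T i / 12) := List.mem_filter.2 ⟨ho, decide_eq_true h⟩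
  unfold pick
  cases e : (F.filter fun f => decide (d i f < gap d T i / 12)).argmin fun f =>
    ((C.filter fun j => decide (d j i < gap d T i / 3)).map fun j => dS d j (f :: V)).sum with
  | none => exact absurd (List.argmin_eq_none.1 e) (List.ne_nil_of_mem hm)
  | some m =>
    have h1 := List.mem_filter.1 (List.argmin_mem e)
    have h2 := List.le_of_mem_argmin hm e
    exact ⟨h1.1, of_decide_eq_true h1.2, h2⟩

theorem cand_spec {d : ℕ → ℕ → ℚ} (hd : PM d) (C : List ℕ) {k : ℕ} {F O T : List ℕ} (hO : Feas k F O)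
    (hTF : T ⊆ F) (hT : T.Nodup) (hk : k < T.length) :
    ∃ V : List ℕ, V ⊆ F ∧ V.length ≤ (T.filter fun i => decide (gap d T i / 12 ≤ dS d i O)).length ∧
      Feas k F (cand d C F T (T.filter fun i => decide (gap d T i / 12 ≤ dS d i O)) V) ∧
      cost d C (cand d C F T (T.filter fun i => decide (gap d T i / 12 ≤ dS d i O)) V) ≤
        5 / 3 * cost d C O := by
  obtain ⟨hOF, hne, hOn, hOk⟩ := hO
  set U := T.filter fun i => decide (gap d T i / 12 ≤ dS d i O) with hU
  have hD : ∀ i ∈ del U T, i ∈ T ∧ d i (nr d i O) < gap d T i / 12 := fun i hi => by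
    obtain ⟨h1, h2⟩ := List.mem_filter.1 hi
    refine ⟨h1, not_le.1 fun h3 => of_decide_eq_true h2 (List.mem_filter.2 ⟨h1, decide_eq_true h3⟩)⟩
  have hL : ∀ i ∈ del U T, ∀ i' ∈ del U T, i ≠ i' → gap d T i ≤ d i i' := fun i _ i' hi' e =>
    dS_le d i ((List.mem_erase_of_ne (Ne.symm e)).2 (hD i' hi').1)
  have hDn : (del U T).Nodup := hT.filter _
  have hMn : ((del U T).map fun i => nr d i O).Nodup := by
    refine hDn.map_on fun i hi i' hi' e => ?_
    by_contra h
    have b1 := hL i hi i' hi' h
    have b2 := hL i' hi' i hi (Ne.symm h)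
    rw [hd.symm i' i] at b2
    have b3 := (hD i hi).2
    have b4 := (hD i' hi').2
    have b5 := hd.tri i (nr d i O) i'
    rw [hd.symm (nr d i O) i'] at b5
    rw [← e] at b4
    have b8 := hd.nonneg i i'
    linarith
  set V := del ((del U T).map fun i => nr d i O) O with hV
  have hVO : V ⊆ O := fun x hx => (List.mem_filter.1 hx).1
  have h1 : V.length + (del U T).length ≤ O.length := by
    have h2 : (V ++ (del U T).map fun i => nr d i O).Nodup :=
      List.Nodup.append (hOn.filter _) hMn fun x hx hx' => of_decide_eq_true (List.mem_filter.1 hx).2 hx'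
    have h3 : (V ++ (del U T).map fun i => nr d i O) ⊆ O := by
      refine List.append_subset.2 ⟨hVO, fun x hx => ?_⟩
      obtain ⟨i, -, rfl⟩ := List.mem_map.1 hx
      exact nr_mem d i hne
    simpa using (List.subperm_of_subset h2 h3).length_le
  have h2 : T.length ≤ U.length + (del U T).length := by
    have h3 : T ⊆ U ++ del U T := fun x hx => by
      by_cases h : x ∈ U
      · exact List.mem_append_left _ h
      · exact List.mem_append_right _ (List.mem_filter.2 ⟨hx, decide_eq_true h⟩)
    simpa using (List.subperm_of_subset hT h3).length_le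
  have hP := fun i (hi : i ∈ del U T) => ls3_pick C T V (hOF (nr_mem d i hne)) (hD i hi).2
  have hcov : ∀ o ∈ O, o ∈ V ∨ ∃ i ∈ del U T, nr d i O = o := fun o ho => by
    by_cases h : o ∈ (del U T).map fun i => nr d i O
    · exact Or.inr (List.mem_map.1 h)
    · exact Or.inl (List.mem_filter.2 ⟨ho, decide_eq_true h⟩)
  have hVW : V ⊆ cand d C F T U V := fun x hx => List.mem_dedup.2 (List.mem_append_left _ hx)
  have hPW : ∀ i ∈ del U T, pick d C F T V i ∈ cand d C F T U V := fun i hi =>
    List.mem_dedup.2 (List.mem_append_right _ (List.mem_map_of_mem hi))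
  refine ⟨V, fun x hx => hOF (hVO hx), by omega, ⟨fun x hx => ?_, ?_, List.nodup_dedup _, ?_⟩, ?_⟩
  · rcases List.mem_append.1 (List.mem_dedup.1 hx) with h | h
    · exact hOF (hVO h)
    · obtain ⟨i, hi, rfl⟩ := List.mem_map.1 h
      exact (hP i hi).1
  · obtain ⟨o, ho⟩ := List.exists_mem_of_ne_nil _ hne
    rcases hcov o ho with h | ⟨i, hi, -⟩
    · exact List.ne_nil_of_mem (hVW h)
    · exact List.ne_nil_of_mem (hPW i hi)
  · have h3 := (List.dedup_sublist (V ++ (del U T).map (pick d C F T V))).length_le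
    rw [List.length_append, List.length_map] at h3
    unfold cand
    omega
  · refine ls3_main hd C (del U T).toFinset (gap d T) (pick d C F T V) (fun i => nr d i O)
      (fun i hi i' hi' => hL i (List.mem_toFinset.1 hi) i' (List.mem_toFinset.1 hi'))
      (fun i hi => (hD i (List.mem_toFinset.1 hi)).2) (fun i hi => (hP i (List.mem_toFinset.1 hi)).2.1)
      (fun o ho => (hcov o ho).imp_right fun ⟨i, hi, e⟩ => ⟨i, List.mem_toFinset.2 hi, e⟩) hne hVW
      (fun i hi => hPW i (List.mem_toFinset.1 hi)) fun i hi => (hP i (List.mem_toFinset.1 hi)).2.2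

end Crest.Agent.R310
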