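import Crest.Agent.R310.Step3

/-!
# R310 / Loop : the run

`V = ∑_j ∑_i asg j i * y0 i * d j i`, `0 ≤ V ≤ |C| Λ` (`asg_spec`).  `tot_init`: `P.drop` (the mass of the first facility `f` is set to `0`, `dS j [f] = d j f`),
`P.budget`, `asg_spec`; `totW init ≤ Wc κ 1 ≤ 2`; `|F| / X ≤ 1/32`.  `le_totΨ`: `P.zero`, `P.lip` with `μ' = 0`, and `∑ mu ≤ ∑ y`.
`run_spec`: by induction on `t`, the state after `t` steps satisfies `Inv`, has `tot ≤ tot init`, and either `∑ y < 1/X` (then it is a fixed point of `next`) or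
`tot ≤ tot init - t / (16 X⁷)`.  For `t = X⁹` the second case contradicts `tot ≥ -|C| B (Λ + 1) |F|  ≥ -X/32` (`|S| ≤ |F|`, `Wc_pos`, `cost_nonneg`) and
`tot init ≤ 2 V + 2 δ + 1 ≤ 5X/32`.  At the end `cost ≤ totΨ + 1/32`, and `δ (1 + κ (|S| - k)) ≤ δ totW ≤ tot init + 1/32` (`le_Wc`).
-/

set_option autoImplicit false

namespace Crest.Agent.R310

open Crest.Agent.Lib.PT

variable {α : ℝ} {P : Pot α} {p : Par} {st : St}

/-- value of the assignment -/
def Par.V (p : Par) : ℚ :=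
  sm p.C fun j => sm p.F fun i => asg (dd p.D) p.F (fn p.y0) j i * fn p.y0 i * dd p.D j i

theorem loop_le {F : List ℕ} {f g : ℕ → ℚ} (h : ∀ i ∈ F, f i ≤ g i) : sm F f ≤ sm F g := List.sum_le_sum h

theorem loop_const (F : List ℕ) (a : ℚ) : sm F (fun _ => a) = F.length * a := by simp [sm]

theorem loop_nonneg {F : List ℕ} {f : ℕ → ℚ} (h : ∀ i ∈ F, 0 ≤ f i) : 0 ≤ sm F f := by
  have := loop_le (f := fun _ => 0) h
  rwa [loop_const, mul_zero] at this

theorem loop_mul (F : List ℕ) (a : ℚ) (f : ℕ → ℚ) : sm F (fun i => f i * a) = sm F f * a :=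
  List.sum_map_mul_right F f a

theorem loop_add (F : List ℕ) (f g : ℕ → ℚ) : sm F (fun i => f i + g i) = sm F f + sm F g :=
  List.sum_map_add

theorem loop_real {C : List ℕ} {f g : ℕ → ℚ} (h : ∀ j ∈ C, (f j : ℝ) ≤ α * g j) :
    (sm C f : ℝ) ≤ α * sm C g := by
  induction C with
  | nil => simp [sm]
  | cons a C ih =>
    have h1 := h a (by simp)
    have h2 := ih fun j hj => h j (by simp [hj])
    simp only [sm, List.map_cons, List.sum_cons, Rat.cast_add] at h2 ⊢
    linarith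

theorem loop_X (h : POk P p) : (32 : ℚ) * (p.C.length + 1) * (p.F.length + 1) * (p.Λ + 1) * (P.B + 1) ≤ p.X := by
  exact_mod_cast h.hX

theorem loop_X1 (h : POk P p) : (32 : ℚ) ≤ p.X ∧ (32 : ℚ) * p.F.length ≤ p.X ∧
    (32 : ℚ) * (p.C.length * (P.B * (p.Λ + 1))) ≤ p.X ∧
    (32 : ℚ) * (p.C.length * (P.B * (p.Λ + 1)) * p.F.length) ≤ p.X ∧
    (32 : ℚ) * (p.C.length * p.Λ + 1) ≤ p.X := by
  have h1 := h.hX
  have e : ∀ a b c d : ℕ, a ≤ p.C.length + 1 → b ≤ p.F.length + 1 → c ≤ p.Λ + 1 → d ≤ P.B + 1 →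
      32 * a * b * c * d ≤ p.X := fun a b c d ha hb hc hd => le_trans (by gcongr) h1
  have a1 := e 1 1 1 1 (by omega) (by omega) (by omega) (by omega)
  have a2 := e 1 p.F.length 1 1 (by omega) (by omega) (by omega) (by omega)
  have a3 := e p.C.length 1 (p.Λ + 1) P.B (by omega) (by omega) (by omega) (by omega)
  have a4 := e p.C.length p.F.length (p.Λ + 1) P.B (by omega) (by omega) (by omega) (by omega)
  have a5 := e (p.C.length + 1) 1 (p.Λ + 1) 1 (by omega) (by omega) (by omega) (by omega)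
  have b1 : 32 ≤ p.X := by omega
  have b2 : 32 * p.F.length ≤ p.X := by omega
  have b3 : 32 * (p.C.length * (P.B * (p.Λ + 1))) ≤ p.X := le_of_eq_of_le (by ring) a3
  have b4 : 32 * (p.C.length * (P.B * (p.Λ + 1)) * p.F.length) ≤ p.X := le_of_eq_of_le (by ring) a4
  have b5 : 32 * (p.C.length * p.Λ + 1) ≤ p.X := le_trans (by nlinarith [Nat.zero_le p.C.length, Nat.zero_le p.Λ]) a5
  exact ⟨by exact_mod_cast b1, by exact_mod_cast b2, by exact_mod_cast b3, by exact_mod_cast b4,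
    by exact_mod_cast b5⟩

theorem V_mem (h : POk P p) : 0 ≤ p.V ∧ p.V ≤ p.C.length * p.Λ := by
  have hy : ∀ i ∈ p.F, 0 ≤ fn p.y0 i := fun i _ => (h.y01 i).1
  refine ⟨loop_nonneg fun j _ => loop_nonneg fun i hi =>
    mul_nonneg (mul_nonneg (asg_mem _ hy j i).1 (hy i hi)) (h.ok.pm.nonneg _ _), ?_⟩
  rw [← loop_const]
  refine loop_le fun j _ => ?_
  have h1 := (asg_spec h.int hy h.y1 j).1
  calc _ ≤ sm p.F fun i => asg (dd p.D) p.F (fn p.y0) j i * fn p.y0 i * p.Λ := by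
        refine loop_le fun i hi => mul_le_mul_of_nonneg_left ?_ (mul_nonneg (asg_mem _ hy j i).1 (hy i hi))
        obtain ⟨m, hm, e⟩ := h.int j i
        rw [e]
        exact_mod_cast hm
    _ = p.Λ := by rw [loop_mul, h1, one_mul]

theorem tot_init (h : POk P p) : (tot P p (init p) : ℝ) ≤ α * p.V + 2 * p.δ + 1 / 32 := by
  have hy : ∀ i ∈ p.F, 0 ≤ fn p.y0 i := fun i _ => (h.y01 i).1
  have hi := inv_init h
  have h1 : (totΨ P p (init p) : ℝ) ≤ α * p.V := by
    rw [totΨ_eq h, clk_init]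
    refine loop_real fun j _ => ?_
    have hm : ∀ i ∈ p.F, 0 ≤ asg (dd p.D) p.F (fn p.y0) j i * fn p.y0 i := fun i hi =>
      mul_nonneg (asg_mem _ hy j i).1 (hy i hi)
    have e1 := (asg_spec h.int hy h.y1 j).1
    have hD : IsN p.Λ (dS (dd p.D) j (init p).2) := h.int _ _
    refine le_trans ?_ (P.budget p.Λ p.F (dd p.D j) (fun i => asg (dd p.D) p.F (fn p.y0) j i * fn p.y0 i) _
      h.ok.nodup (fun i _ => h.int j i) hD hm e1)
    refine Rat.cast_le.2 (P.drop _ _ _ _ _ _ _ h.ok.nodup (fun i _ => h.int j i) hD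
      (fun i hi' => mul_nonneg (asg_mem _ hy j i).1 (hi.y0 i hi'))
      (fun i hi' => mul_le_mul_of_nonneg_left (hi.yle i hi') (asg_mem _ hy j i).1) e1.le (fun i hi' hlt => ?_)
      zero_le_one le_rfl)
    have h2 : i ∉ p.F.take 1 := fun h2 => absurd (dS_le (dd p.D) j h2) (not_le.2 hlt)
    unfold Par.mu init
    rw [fn_tab_lt _ _ (h.ok.lt i hi'), if_neg (h.ok.lt i hi').ne, if_neg h2]
  have hκ : 0 < P.η ^ 2 / 64 := by have := P.η0; positivity
  have h2 : totW P p (init p) ≤ 2 := by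
    have a1 : ((init p).2.length : ℚ) ≤ 1 := by
      have : (init p).2.length ≤ 1 := List.length_take_le _ _
      exact_mod_cast this
    have a2 : sm p.F (fn (init p).1) ≤ p.k := (loop_le hi.yle).trans h.yk
    refine (Wc_mono hκ (show _ ≤ (1 : ℚ) by linarith)).trans ?_
    have a3 := P.η0
    have a4 := P.η1
    unfold Wc
    rw [if_neg (by norm_num)]
    nlinarith
  obtain ⟨x1, x2, -⟩ := loop_X1 h
  have h3 : ((p.F.length : ℚ) - (init p).2.length) / p.X ≤ 1 / 32 := by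
    rw [div_le_div_iff₀ (by linarith) (by norm_num)]
    have : (0 : ℚ) ≤ (init p).2.length := Nat.cast_nonneg _
    linarith
  have h4 : tot P p (init p) ≤ totΨ P p (init p) + 2 * p.δ + 1 / 32 := by
    unfold tot
    have := mul_le_mul_of_nonneg_left h2 h.δ0.le
    linarith
  have h5 : (tot P p (init p) : ℝ) ≤ totΨ P p (init p) + 2 * p.δ + 1 / 32 := by
    have := (Rat.cast_le (K := ℝ)).2 h4
    push_cast at this
    exact this
  linarith

theorem le_totΨ (h : POk P p) (hs : Inv p st) :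
    cost (dd p.D) p.C st.2 - p.C.length * (P.B * (p.Λ + 1)) * sm p.F (fn st.1) ≤ totΨ P p st := by
  have hy : ∀ i ∈ p.F, 0 ≤ fn p.y0 i := fun i _ => (h.y01 i).1
  rw [totΨ_eq h, sub_le_iff_le_add, mul_assoc, ← loop_const, ← loop_add]
  refine cost_le_of_le fun j _ => ?_
  have hD : IsN p.Λ (dS (dd p.D) j st.2) := h.int _ _
  have hm : ∀ i ∈ p.F, 0 ≤ p.mu st.1 j i := fun i hi => mul_nonneg (asg_mem _ hy j i).1 (hs.y0 i hi)
  have h1 := P.zero p.Λ p.F (dd p.D j) _ _ h.ok.nodup (fun i _ => h.int j i) hD hs.c0 hs.c1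
  have h2 := P.lip p.Λ p.F (dd p.D j) (p.mu st.1 j) (fun _ => 0) _ _ _ h.ok.nodup (fun i _ => h.int j i) hD
    (fun _ _ => le_rfl) hm (mass_le h hs j) hs.c0 le_rfl hs.c1
  rw [sub_self, add_zero] at h2
  have h3 : sm p.F (fun i => p.mu st.1 j i - 0) ≤ sm p.F (fn st.1) := loop_le fun i hi => by
    rw [sub_zero]
    exact mul_le_of_le_one_left (hs.y0 i hi) (asg_mem _ hy j i).2
  have h4 := mul_le_mul_of_nonneg_left h3 (show (0 : ℚ) ≤ P.B * (p.Λ + 1) by positivity)
  linarith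

theorem run_spec (h : POk P p) (hα : α ≤ 2) :
    run P p ⊆ p.F ∧ run P p ≠ [] ∧ (run P p).Nodup ∧
    (cost (dd p.D) p.C (run P p) : ℝ) ≤ α * p.V + 2 * p.δ + 1 / 16 ∧
    p.δ * (1 + P.η ^ 2 / 64 * ((run P p).length - p.k)) ≤ 2 * p.V + 2 * p.δ + 1 / 16 := by
  obtain ⟨x1, x2, x3, x4, x5⟩ := loop_X1 h
  have hX : (0 : ℚ) < p.X := by linarith
  have key : ∀ t : ℕ, Inv p ((next P p)^[t] (init p)) ∧ tot P p ((next P p)^[t] (init p)) ≤ tot P p (init p) ∧
      (sm p.F (fn ((next P p)^[t] (init p)).1) < 1 / p.X ∨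
        tot P p ((next P p)^[t] (init p)) ≤ tot P p (init p) - t / (16 * (p.X : ℚ) ^ 7)) := by
    intro t
    induction t with
    | zero => exact ⟨inv_init h, le_rfl, Or.inr (by simp)⟩
    | succ t ih =>
      obtain ⟨i1, i2, i3⟩ := ih
      rw [Function.iterate_succ_apply']
      by_cases hy : sm p.F (fn ((next P p)^[t] (init p)).1) < 1 / p.X
      · have e : next P p ((next P p)^[t] (init p)) = (next P p)^[t] (init p) := if_pos hy
        rw [e]
        exact ⟨i1, i2, Or.inl hy⟩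
      · have a1 := tot_next h i1 (not_lt.1 hy)
        have a2 := i3.resolve_left hy
        have a3 : (0 : ℚ) < 1 / (16 * (p.X : ℚ) ^ 7) := by positivity
        refine ⟨inv_next h i1, by linarith, Or.inr ?_⟩
        rw [Nat.cast_succ, add_div]
        linarith
  obtain ⟨hs, h1, h2⟩ := key (p.X ^ 9)
  unfold run
  generalize (next P p)^[p.X ^ 9] (init p) = st at hs h1 h2
  obtain ⟨v0, v1⟩ := V_mem h
  have hκ : 0 < P.η ^ 2 / 64 := by have := P.η0; positivity
  have t0 := tot_init h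
  have t1 : tot P p (init p) ≤ 2 * p.V + 2 * p.δ + 1 / 32 := by
    have a1 : (0 : ℝ) ≤ p.V := by exact_mod_cast v0
    have a2 : (tot P p (init p) : ℝ) ≤ 2 * p.V + 2 * p.δ + 1 / 32 := by nlinarith
    refine (Rat.cast_le (K := ℝ)).1 ?_
    push_cast
    exact a2
  have t2 := le_totΨ h hs
  have t3 := cost_nonneg h.ok.pm p.C st.2
  have t4 : 0 ≤ ((p.F.length : ℚ) - st.2.length) / p.X := by
    have : st.2.length ≤ p.F.length := (List.subperm_of_subset hs.nodup hs.sub).length_le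
    have : (st.2.length : ℚ) ≤ p.F.length := by exact_mod_cast this
    exact div_nonneg (by linarith) hX.le
  have t5 : 0 < p.δ * totW P p st := mul_pos h.δ0 (Wc_pos hκ _)
  have t6 : totΨ P p st + p.δ * totW P p st ≤ tot P p st := by
    unfold tot
    linarith
  have t7 : (0 : ℚ) ≤ p.C.length * (P.B * (p.Λ + 1)) := by positivity
  have hy : sm p.F (fn st.1) < 1 / p.X := by
    refine h2.resolve_right fun h2 => ?_
    have a1 : sm p.F (fn st.1) ≤ p.F.length := by
      have := loop_le (g := fun _ => 1) fun i hi => (hs.yle i hi).trans (h.y01 i).2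
      rwa [loop_const, mul_one] at this
    have a2 := mul_le_mul_of_nonneg_left a1 t7
    have a3 : ((p.X ^ 9 : ℕ) : ℚ) / (16 * (p.X : ℚ) ^ 7) = (p.X : ℚ) ^ 2 / 16 := by
      push_cast
      field_simp
    rw [a3] at h2
    have a4 := h.δ1
    nlinarith
  have t8 : p.C.length * (P.B * (p.Λ + 1)) * sm p.F (fn st.1) ≤ 1 / 32 := by
    refine (mul_le_mul_of_nonneg_left hy.le t7).trans ?_
    rw [mul_one_div, div_le_div_iff₀ hX (by norm_num)]
    linarith
  refine ⟨hs.sub, hs.ne, hs.nodup, ?_, ?_⟩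
  · have a1 : cost (dd p.D) p.C st.2 ≤ tot P p (init p) + 1 / 32 := by linarith
    have a2 : (cost (dd p.D) p.C st.2 : ℝ) ≤ tot P p (init p) + 1 / 32 := by
      have := (Rat.cast_le (K := ℝ)).2 a1
      push_cast at this
      exact this
    linarith
  · have a1 := le_Wc hκ (st.2.length + sm p.F (fn st.1) - p.k)
    have a2 : 0 ≤ sm p.F (fn st.1) := loop_nonneg hs.y0
    have a3 : 1 + P.η ^ 2 / 64 * ((st.2.length : ℚ) - p.k) ≤ totW P p st := by
      have := mul_nonneg hκ.le a2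
      unfold totW
      linarith
    have a4 := mul_le_mul_of_nonneg_left a3 h.δ0.le
    linarith

end Crest.Agent.R310
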