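import Crest.Agent.R310.Rad
import Crest.Agent.R310.Cnt
import Crest.Agent.R310.Asg

/-!
# R310 / PDefs : the deterministic rounding process.  DO NOT EDIT (owner helper33).
-/

set_option autoImplicit false

namespace Crest.Agent.R310

open Crest.Agent.Lib.PT

/-- masses and open facilities -/
abbrev St := List ℚ × List ℕ

/-- the data that stay fixed: instance, LP solution, weight of the counting potential, the large parameter -/
structure Par where
  Λ : ℕ
  k : ℕ
  C : List ℕ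
  F : List ℕ
  D : Tab
  y0 : List ℚ
  δ : ℚ
  X : ℕ

variable {α : ℝ} (P : Pot α) (p : Par)

/-- tabulate; the entry `p.D.length` (not a point of the space) is the clock -/
def Par.tab (g : ℕ → ℚ) : List ℚ := (List.range (p.D.length + 1)).map g

/-- the clock -/
def clk (st : St) : ℚ := fn st.1 p.D.length

/-- the slope of the kill profile -/
def sσ (st : St) : ℚ := P.sl (clk p st)

/-- the part of the masses used by `j` -/
def Par.mu (y : List ℚ) (j i : ℕ) : ℚ := asg (dd p.D) p.F (fn p.y0) j i * fn y i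

/-- kill radius -/
def sR (st : St) (i : ℕ) : ℚ := rad P.e P.N (sσ P p st) (dd p.D) p.Λ p.F (fn st.1) (dS (dd p.D) i st.2) i

/-- free decay rate -/
def sρ (st : St) (i : ℕ) : ℚ :=
  if i = p.D.length then 1 else
    if 0 < fn st.1 i then 1 - kil (sσ P p st) (dd p.D) p.F (fn st.1) i (sR P p st i) else 0

/-- mass killed by `o` before scaling -/
def sK (st : St) (o : ℕ) : ℚ := sm p.F fun i => fn st.1 i * ff (sσ P p st) (dd p.D o i / sR P p st i)

/-- opening `o` -/
def evt (st : St) (o : ℕ) : St :=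
  (p.tab fun i => if i = p.D.length then fn st.1 i else if i = o then 0 else
      fn st.1 i * (1 - th P.η (sK P p st o) * ff (sσ P p st) (dd p.D o i / sR P p st i)),
    o :: st.2)

/-- free decay during the time `X⁻⁵` -/
def fre (st : St) : St := (p.tab fun i => fn st.1 i * (1 - 1 / (p.X : ℚ) ^ 5 * sρ P p st i), st.2)

/-- rounding down to the grid `X⁻⁸` -/
def grid (st : St) : St :=
  (p.tab fun i => ((min ⌊fn st.1 i * (p.X : ℚ) ^ 8⌋₊ (p.X ^ 8) : ℕ) : ℚ) / (p.X : ℚ) ^ 8, st.2)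

/-- connection part of the potential -/
def totΨ (st : St) : ℚ :=
  sm p.C fun j => P.Ψ p.Λ p.F (fn (p.tab (dd p.D j))) (fn (p.tab (p.mu st.1 j))) (dS (dd p.D) j st.2)
    (clk p st)

/-- counting part of the potential -/
def totW (st : St) : ℚ := Wc (P.η ^ 2 / 64) (st.2.length + sm p.F (fn st.1) - p.k)

/-- the potential -/
def tot (st : St) : ℚ := totΨ P p st + p.δ * totW P p st + ((p.F.length : ℚ) - st.2.length) / p.X

/-- the possible moves -/
def opts (st : St) : List St := fre P p st :: (p.F.filter fun o => decide (0 < fn st.1 o)).map (evt P p st)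

/-- one step -/
def next (st : St) : St :=
  if sm p.F (fn st.1) < 1 / p.X then st else grid p (((opts P p st).argmin (tot P p)).getD st)

/-- initial state -/
def init : St :=
  (p.tab fun i => if i = p.D.length then 1 else if i ∈ p.F.take 1 then 0 else fn p.y0 i, p.F.take 1)

/-- the answer -/
def run : List ℕ := ((next P p)^[p.X ^ 9] (init p)).2

/-- hypotheses on the fixed data -/
structure POk : Prop where
  ok : Ok p.k p.F p.D
  int : IntM p.Λ p.D
  y01 : ∀ i, 0 ≤ fn p.y0 i ∧ fn p.y0 i ≤ 1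
  y1 : 1 ≤ sm p.F (fn p.y0)
  yk : sm p.F (fn p.y0) ≤ p.k
  δ0 : 0 < p.δ
  δ1 : p.δ ≤ p.C.length * p.Λ + 1
  hX : 32 * (p.C.length + 1) * (p.F.length + 1) * (p.Λ + 1) * (P.B + 1) ≤ p.X
  hs : 1 / (p.X : ℚ) ≤ P.s0

/-- invariant of the states -/
structure Inv (st : St) : Prop where
  y0 : ∀ i ∈ p.F, 0 ≤ fn st.1 i
  yle : ∀ i ∈ p.F, fn st.1 i ≤ fn p.y0 i
  sub : st.2 ⊆ p.F
  ne : st.2 ≠ []
  nodup : st.2.Nodup
  op : ∀ i ∈ st.2, fn st.1 i = 0
  c0 : 0 ≤ clk p st
  c1 : clk p st ≤ 1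

/-- rate of the event `o` -/
def lam (st : St) (o : ℕ) : ℚ := ta P.η (sK P p st o) * fn st.1 o / th P.η (sK P p st o)

/-- value of the greedy assignment -/
def lpV (x : Un × Raw) : ℚ :=
  sm x.2.2.1 fun j => sm x.2.2.2.1 fun i =>
    asg (dd x.2.2.2.2) x.2.2.2.1 (fn (lpY x)) j i * fn (lpY x) i * dd x.2.2.2.2 j i

/-- the parameters -/
def mkPar (ε : ℚ) (x : Un × Raw) : Par :=
  ⟨x.1.n, x.2.1, x.2.2.1, x.2.2.2.1, x.2.2.2.2, lpY x, ε * (lpV x + 1 / 8),
    32 * (x.2.2.1.length + 1) * (x.2.2.2.1.length + 1) * (x.1.n + 1) * (P.B + 1) * (⌈1 / P.s0⌉₊ + 1)⟩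

end Crest.Agent.R310
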