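import Crest.Agent.R310.Basic

/-!
# R310 / Pot : the rounding game seen by one client and the interface of the potential.  DO NOT EDIT (owner helper33).
-/

set_option autoImplicit false

namespace Crest.Agent.R310

open Crest.Agent.Lib.PT

/-- sum over a list -/
def sm (F : List ℕ) (g : ℕ → ℚ) : ℚ := (F.map g).sum

theorem sm_eq {F : List ℕ} (h : F.Nodup) (g : ℕ → ℚ) : sm F g = ∑ i ∈ F.toFinset, g i :=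
  (List.sum_toFinset g h).symm

@[fun_prop] theorem sm_pt {α : Type} [Enc α] {F : α → List ℕ} {g : α → ℕ → ℚ} (hF : PT F)
    (hg : PT fun p : α × ℕ => g p.1 p.2) : PT fun a => sm (F a) (g a) := by unfold sm; fun_prop

/-- an integer in `[0, Λ]` -/
def IsN (Λ : ℕ) (x : ℚ) : Prop := ∃ m : ℕ, m ≤ Λ ∧ x = m

/-- a list as a function -/
def fn (l : List ℚ) (i : ℕ) : ℚ := l.getD i 0

@[fun_prop] theorem fn_pt {α : Type} [Enc α] {l : α → List ℚ} {i : α → ℕ} (hl : PT l) (hi : PT i) :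
    PT fun a => fn (l a) (i a) := by unfold fn; fun_prop

/-- the kill profile with slope `σ` -/
def ff (σ s : ℚ) : ℚ := max 0 (min 1 (σ * (1 - s)))

@[fun_prop] theorem ff_pt {α : Type} [Enc α] {σ s : α → ℚ} (hσ : PT σ) (hs : PT s) :
    PT fun a => ff (σ a) (s a) := by
  unfold ff; fun_prop

/-- One state of the process as seen by the client `j`.  `y` current masses, `μ ≤ y` the part used by `j`,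
`D` distance of `j` to the open set, `c i` distance of `i` to the open set, `R i` kill radius, `ρ i` free decay rate;
the facility `o` opens at rate `τ o * y o / θ o` and kills the fraction `θ o * ff σ (d o i / R i)` of `i`. -/
structure Game (e η σ : ℚ) (Λ : ℕ) (F : List ℕ) (d : ℕ → ℕ → ℚ) (j : ℕ) (y μ : ℕ → ℚ) (D : ℚ)
    (c R ρ θ τ : ℕ → ℚ) : Prop where
  nodup : F.Nodup
  pm : PM d
  int : ∀ a b, IsN Λ (d a b)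
  intD : IsN Λ D
  μ0 : ∀ i ∈ F, 0 ≤ μ i
  μy : ∀ i ∈ F, μ i ≤ y i
  mass : sm F μ ≤ 1
  c1 : ∀ i ∈ F, D ≤ d j i + c i
  c2 : ∀ i ∈ F, c i ≤ d j i + D
  R0 : ∀ i ∈ F, 0 < y i → 0 < R i
  Rc : ∀ i ∈ F, 0 < y i → (1 + e) * R i ≤ c i
  ρ0 : ∀ i ∈ F, 0 ≤ ρ i
  ρ1 : ∀ i ∈ F, ρ i ≤ 1
  ρc : ∀ i ∈ F, 0 < y i → 0 < ρ i → (1 + e) * R i = c i
  bal : ∀ i ∈ F, 0 < y i → sm F (fun o => y o * ff σ (d o i / R i)) + ρ i = 1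
  θ0 : ∀ o ∈ F, 0 < θ o
  θ1 : ∀ o ∈ F, θ o ≤ 1
  τ1 : ∀ o ∈ F, τ o ≤ 1 + η
  τ0 : ∀ o ∈ F, 1 - η * max 0 (1 - sm F fun i => y i * ff σ (d o i / R i)) ≤ τ o

/-- A potential with budget `α`.  The last argument `x ∈ [0, 1]` of `Ψ` is the clock: it starts at `1`, is multiplied by
`1 - s` in a free step of length `s`, and determines the slope `sl x` of the kill profile. -/
structure Pot (α : ℝ) where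
  e : ℚ
  η : ℚ
  s0 : ℚ
  B : ℕ
  N : ℕ
  sl : ℚ → ℚ
  e0 : 0 < e
  e1 : e ≤ 1
  η0 : 0 < η
  η1 : η ≤ 1 / 2
  s00 : 0 < s0
  N0 : 0 < N
  sl_pt : PT sl
  sl_grid : ∀ x : ℚ, 0 ≤ x → x ≤ 1 → ∃ n : ℕ, N < n ∧ sl x = (n : ℚ) / ((n : ℚ) - N)
  /-- `Ψ Λ F r μ D x` -/
  Ψ : ℕ → List ℕ → (ℕ → ℚ) → (ℕ → ℚ) → ℚ → ℚ → ℚ
  pt : PT fun z : Un × List ℕ × List ℚ × List ℚ × ℚ × ℚ =>
    Ψ z.1.n z.2.1 (fn z.2.2.1) (fn z.2.2.2.1) z.2.2.2.2.1 z.2.2.2.2.2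
  congr : ∀ (Λ : ℕ) (F : List ℕ) (r r' μ μ' : ℕ → ℚ) (D x : ℚ), (∀ i ∈ F, r i = r' i) → (∀ i ∈ F, μ i = μ' i) →
    Ψ Λ F r μ D x = Ψ Λ F r' μ' D x
  budget : ∀ (Λ : ℕ) (F : List ℕ) (r μ : ℕ → ℚ) (D : ℚ), F.Nodup → (∀ i ∈ F, IsN Λ (r i)) → IsN Λ D →
    (∀ i ∈ F, 0 ≤ μ i) → sm F μ = 1 → (Ψ Λ F r μ D 1 : ℝ) ≤ α * sm F fun i => μ i * r i
  zero : ∀ (Λ : ℕ) (F : List ℕ) (r : ℕ → ℚ) (D x : ℚ), F.Nodup → (∀ i ∈ F, IsN Λ (r i)) → IsN Λ D →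
    0 ≤ x → x ≤ 1 → D ≤ Ψ Λ F r (fun _ => 0) D x
  lip : ∀ (Λ : ℕ) (F : List ℕ) (r μ μ' : ℕ → ℚ) (D x x' : ℚ), F.Nodup → (∀ i ∈ F, IsN Λ (r i)) → IsN Λ D →
    (∀ i ∈ F, 0 ≤ μ' i) → (∀ i ∈ F, μ' i ≤ μ i) → sm F μ ≤ 1 → 0 ≤ x' → x' ≤ x → x ≤ 1 →
    Ψ Λ F r μ' D x' ≤ Ψ Λ F r μ D x + B * (Λ + 1) * (sm F (fun i => μ i - μ' i) + (x - x'))
  drop : ∀ (Λ : ℕ) (F : List ℕ) (r μ μ' : ℕ → ℚ) (D x : ℚ), F.Nodup → (∀ i ∈ F, IsN Λ (r i)) → IsN Λ D →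
    (∀ i ∈ F, 0 ≤ μ' i) → (∀ i ∈ F, μ' i ≤ μ i) → sm F μ ≤ 1 → (∀ i ∈ F, r i < D → μ' i = μ i) →
    0 ≤ x → x ≤ 1 → Ψ Λ F r μ' D x ≤ Ψ Λ F r μ D x
  gen : ∀ (Λ : ℕ) (F : List ℕ) (d : ℕ → ℕ → ℚ) (j : ℕ) (y μ : ℕ → ℚ) (D : ℚ) (c R ρ θ τ : ℕ → ℚ) (x s : ℚ),
    Game e η (sl x) Λ F d j y μ D c R ρ θ τ → 0 ≤ x → x ≤ 1 → 0 < s → s ≤ s0 →
    s * sm F (fun o => τ o * y o / θ o *
        (Ψ Λ F (d j) (fun i => μ i * (1 - θ o * ff (sl x) (d o i / R i))) (min D (d j o)) x - Ψ Λ F (d j) μ D x)) +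
      (Ψ Λ F (d j) (fun i => μ i * (1 - s * ρ i)) D (x * (1 - s)) - Ψ Λ F (d j) μ D x) ≤ 0

end Crest.Agent.R310
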