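import Crest.Agent.R310.PDefs

/-!
# R310 / ProcPT : polynomial time

Prove `PT fun q : (Un × Raw) × St => f P (mkPar P ε q.1) q.2` (with further arguments where needed) for `f = sR, sρ, sK, evt, fre, grid, totΨ, totW, tot, opts, next`
by `unfold`, `simp only [mkPar]`, `fun_prop`, using `lpY_pt`, `asg_pt`, `rad_pt`, `P.pt` (compose with the tuple); `X` is `PB` (`PB.un`, `PB.length`).
The loop: `PT.iterate_grow`; `next` replaces the masses by a list of `D.length` numbers `a / X⁸`, `a ≤ X⁸` (size polynomially bounded: `sz_list_le`, `sz_rat_le_of_lt`,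
`ratH_div_le`) and adds at most one element of `F` to the open set.
-/

set_option autoImplicit false

namespace Crest.Agent.R310

open Crest.Agent.Lib.PT

namespace ProcPT

/-- the parameters as a tuple -/
def tup (p : Par) : Un × ℕ × List ℕ × List ℕ × Tab × List ℚ × ℚ × Un :=
  (⟨p.Λ⟩, p.k, p.C, p.F, p.D, p.y0, p.δ, ⟨p.X⟩)

theorem tup_inj : Function.Injective tup := by
  intro p q h
  cases p; cases q
  simp only [tup, Prod.mk.injEq, Un.mk.injEq] at h
  obtain ⟨rfl, rfl, rfl, rfl, rfl, rfl, rfl, rfl⟩ := h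
  rfl

instance encPar : Enc Par := Enc.ofInj tup tup_inj

variable {A : Type} [Enc A] {p : A → Par}

theorem tup_pt (hp : PT p) : PT fun a => tup (p a) := hp.of_enc_eq fun _ => rfl

theorem uΛ_pt (hp : PT p) : PT fun a => Un.mk (p a).Λ := (tup_pt hp).fst
@[fun_prop] theorem Λ_pt (hp : PT p) : PT fun a => (p a).Λ := (uΛ_pt hp).of_un
@[fun_prop] theorem k_pt (hp : PT p) : PT fun a => (p a).k := (tup_pt hp).snd.fst
@[fun_prop] theorem C_pt (hp : PT p) : PT fun a => (p a).C := (tup_pt hp).snd.snd.fst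
@[fun_prop] theorem F_pt (hp : PT p) : PT fun a => (p a).F := (tup_pt hp).snd.snd.snd.fst
@[fun_prop] theorem D_pt (hp : PT p) : PT fun a => (p a).D := (tup_pt hp).snd.snd.snd.snd.fst
@[fun_prop] theorem y0_pt (hp : PT p) : PT fun a => (p a).y0 := (tup_pt hp).snd.snd.snd.snd.snd.fst
@[fun_prop] theorem δ_pt (hp : PT p) : PT fun a => (p a).δ := (tup_pt hp).snd.snd.snd.snd.snd.snd.fst
theorem uX_pt (hp : PT p) : PT fun a => Un.mk (p a).X := (tup_pt hp).snd.snd.snd.snd.snd.snd.snd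
@[fun_prop] theorem X_pt (hp : PT p) : PT fun a => (p a).X := (uX_pt hp).of_un
@[fun_prop] theorem X_pb (hp : PT p) : PB fun a => (p a).X := PB.of_un (uX_pt hp)

@[fun_prop] theorem tab_pt {g : A → ℕ → ℚ} (hp : PT p) (hg : PT fun q : A × ℕ => g q.1 q.2) :
    PT fun a => (p a).tab (g a) := by
  unfold Par.tab; fun_prop

@[fun_prop] theorem kil_pt {σ : A → ℚ} {D : A → Tab} {F : A → List ℕ} {y : A → List ℚ} {i : A → ℕ}
    {R : A → ℚ} (hσ : PT σ) (hD : PT D) (hF : PT F) (hy : PT y) (hi : PT i) (hR : PT R) :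
    PT fun a => kil (σ a) (dd (D a)) (F a) (fn (y a)) (i a) (R a) := by
  unfold kil; fun_prop

@[fun_prop] theorem mu_pt {y : A → List ℚ} {j i : A → ℕ} (hp : PT p) (hy : PT y) (hj : PT j)
    (hi : PT i) : PT fun a => (p a).mu (y a) (j a) (i a) := by
  unfold Par.mu
  exact PT.rat_mul (asg_pt (D_pt hp) (F_pt hp) (y0_pt hp) hj hi) (fn_pt hy hi)

variable {α : ℝ} (P : Pot α) {st : A → St}

@[fun_prop] theorem clk_pt (hp : PT p) (hs : PT st) : PT fun a => clk (p a) (st a) := by
  unfold clk; fun_prop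

@[fun_prop] theorem sσ_pt (hp : PT p) (hs : PT st) : PT fun a => sσ P (p a) (st a) := by
  unfold sσ
  exact PT.comp P.sl_pt (clk_pt hp hs)

@[fun_prop] theorem sR_pt {i : A → ℕ} (hp : PT p) (hs : PT st) (hi : PT i) :
    PT fun a => sR P (p a) (st a) (i a) := by
  unfold sR
  exact rad_pt P.e P.N (Λ := fun a => Un.mk (p a).Λ) (sσ_pt P hp hs) (D_pt hp) (uΛ_pt hp) (F_pt hp) hs.fst
    (dS_pt (D_pt hp) hi hs.snd) hi

@[fun_prop] theorem sρ_pt {i : A → ℕ} (hp : PT p) (hs : PT st) (hi : PT i) :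
    PT fun a => sρ P (p a) (st a) (i a) := by
  unfold sρ
  have h1 := kil_pt (sσ_pt P hp hs) (D_pt hp) (F_pt hp) hs.fst hi (sR_pt P hp hs hi)
  have h2 := fn_pt hs.fst hi
  exact PT.ite' (by fun_prop) (PT.const 1)
    (PT.ite' (PT.rat_lt (PT.const 0) h2) (PT.rat_sub (PT.const 1) h1) (PT.const 0))

@[fun_prop] theorem sK_pt {o : A → ℕ} (hp : PT p) (hs : PT st) (ho : PT o) :
    PT fun a => sK P (p a) (st a) (o a) := by
  unfold sK; fun_prop

theorem evt_pt {o : A → ℕ} (hp : PT p) (hs : PT st) (ho : PT o) :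
    PT fun a => evt P (p a) (st a) (o a) := by
  unfold evt; fun_prop

theorem fre_pt (hp : PT p) (hs : PT st) : PT fun a => fre P (p a) (st a) := by
  unfold fre; fun_prop

theorem grid_pt (hp : PT p) (hs : PT st) : PT fun a => grid (p a) (st a) := by
  unfold grid; fun_prop

theorem Ψ_pt {F : A → List ℕ} {r μ : A → List ℚ} {D x : A → ℚ} (hp : PT p) (hF : PT F) (hr : PT r)
    (hμ : PT μ) (hD : PT D) (hx : PT x) :
    PT fun a => P.Ψ (p a).Λ (F a) (fn (r a)) (fn (μ a)) (D a) (x a) := by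
  have h1 : PT fun a => (Un.mk (p a).Λ, F a, r a, μ a, D a, x a) :=
    (uΛ_pt hp).pair (hF.pair (hr.pair (hμ.pair (hD.pair hx))))
  have h2 := PT.comp P.pt h1
  dsimp only at h2
  exact h2

@[fun_prop] theorem totΨ_pt (hp : PT p) (hs : PT st) : PT fun a => totΨ P (p a) (st a) := by
  unfold totΨ
  refine sm_pt (C_pt hp) ?_
  refine Ψ_pt P (p := fun q : A × ℕ => p q.1) (by fun_prop) (by fun_prop) ?_ ?_ (by fun_prop) (by fun_prop)
  · exact tab_pt (p := fun q : A × ℕ => p q.1) (g := fun q i => dd (p q.1).D q.2 i) (by fun_prop)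
      (by fun_prop)
  · exact tab_pt (p := fun q : A × ℕ => p q.1) (g := fun q i => (p q.1).mu (st q.1).1 q.2 i)
      (by fun_prop) (by fun_prop)

@[fun_prop] theorem smfn_pt {F : A → List ℕ} {y : A → List ℚ} (hF : PT F) (hy : PT y) :
    PT fun a => sm (F a) (fn (y a)) :=
  sm_pt (g := fun a i => fn (y a) i) hF (by fun_prop)

@[fun_prop] theorem totW_pt (hp : PT p) (hs : PT st) : PT fun a => totW P (p a) (st a) := by
  unfold totW
  refine Wc_pt _ ?_
  have := smfn_pt (F_pt hp) hs.fst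
  fun_prop

@[fun_prop] theorem tot_pt (hp : PT p) (hs : PT st) : PT fun a => tot P (p a) (st a) := by
  unfold tot; fun_prop

theorem opts_pt (hp : PT p) (hs : PT st) : PT fun a => opts P (p a) (st a) := by
  unfold opts
  refine PT.cons (fre_pt P hp hs) (PT.map (f := fun a o => evt P (p a) (st a) o) (by fun_prop) ?_)
  exact evt_pt P (p := fun q : A × ℕ => p q.1) (by fun_prop) (by fun_prop) (by fun_prop)

theorem next_pt (hp : PT p) (hs : PT st) : PT fun a => next P (p a) (st a) := by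
  unfold next
  have h1 := smfn_pt (F_pt hp) hs.fst
  have h2 : PT fun a => (opts P (p a) (st a)).argmin (tot P (p a)) :=
    PT.argmin (f := fun a s => tot P (p a) s) (opts_pt P hp hs) (by fun_prop) (by fun_prop)
  exact PT.ite' (PT.rat_lt h1 (by fun_prop)) hs (grid_pt hp (h2.option_getD hs))

theorem init_pt (hp : PT p) : PT fun a => init (p a) := by
  unfold init; fun_prop

theorem sz_grid (q : Par) (s : St) :
    sz (grid q s) ≤ (q.D.length + 1) * (8 * ((q.X ^ 8 + 1) * (q.X ^ 8 + 1)) + 7 + 1) + 1 + sz s.2 + 1 := by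
  unfold grid
  rw [sz_prod]
  have : sz (q.tab fun i => ((min ⌊fn s.1 i * (q.X : ℚ) ^ 8⌋₊ (q.X ^ 8) : ℕ) : ℚ) / (q.X : ℚ) ^ 8) ≤
      (q.D.length + 1) * (8 * ((q.X ^ 8 + 1) * (q.X ^ 8 + 1)) + 7 + 1) + 1 := by
    unfold Par.tab
    refine (sz_list_le (B := 8 * ((q.X ^ 8 + 1) * (q.X ^ 8 + 1)) + 7) ?_).trans (by simp)
    intro a ha
    obtain ⟨i, -, rfl⟩ := List.mem_map.1 ha
    refine sz_rat_le_of_lt (lt_of_le_of_lt ?_ Nat.lt_two_pow_self)
    refine (ratH_div_le _ _).trans ?_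
    have e : ∀ n : ℕ, ratH (n : ℚ) = n + 1 := fun n => by simp [ratH]
    rw [← Nat.cast_pow, e, e]
    exact Nat.mul_le_mul_right _ (Nat.succ_le_succ (min_le_right _ _))
  simp only at this ⊢
  omega

theorem sz_next (q : Par) (s : St) : sz (next P q s) ≤ sz s +
    ((q.D.length + 1) * (8 * ((q.X ^ 8 + 1) * (q.X ^ 8 + 1)) + 7 + 1) + sz q.F + 3) := by
  unfold next
  split_ifs
  · omega
  have key : sz (((opts P q s).argmin (tot P q)).getD s).2 ≤ sz s.2 + sz q.F + 1 := by
    cases h : (opts P q s).argmin (tot P q) with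
    | none => simp only [Option.getD_none]; omega
    | some t =>
      simp only [Option.getD_some]
      have hm : t ∈ opts P q s := List.argmin_mem h
      unfold opts at hm
      rcases List.mem_cons.1 hm with rfl | hm
      · simp only [fre]; omega
      · obtain ⟨o, ho, rfl⟩ := List.mem_map.1 hm
        have := sz_le_of_mem (List.mem_of_mem_filter ho)
        simp only [evt, sz_cons]; omega
  have := sz_grid q (((opts P q s).argmin (tot P q)).getD s)
  rw [sz_prod s]
  omega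

theorem run_pt' (hp : PT p) : PT fun a => run P (p a) := by
  unfold run
  refine PT.snd ?_
  exact PT.iterate_grow (n := fun a => (p a).X ^ 9) (f := fun a s => next P (p a) s)
    (by fun_prop) (by fun_prop) (init_pt hp)
    (next_pt P (p := fun q : A × St => p q.1) (by fun_prop) (by fun_prop))
    (G := fun a => ((p a).D.length + 1) * (8 * (((p a).X ^ 8 + 1) * ((p a).X ^ 8 + 1)) + 7 + 1) +
      sz (p a).F + 3) (by fun_prop) (fun a c => sz_next P _ c)

theorem lpV_pt : PT lpV := by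
  have h := lpY_pt
  unfold lpV
  refine sm_pt (by fun_prop) (sm_pt (by fun_prop) ?_)
  have hy : PT fun q : ((Un × Raw) × ℕ) × ℕ => lpY q.1.1 := h.comp (by fun_prop)
  refine PT.rat_mul (PT.rat_mul (asg_pt ?_ ?_ hy ?_ ?_) (fn_pt hy ?_)) (dd_pt ?_ ?_ ?_) <;> fun_prop

theorem mkPar_pt (ε : ℚ) : PT (mkPar P ε) := by
  have h1 := lpY_pt
  have h2 := lpV_pt
  have : PT fun x => tup (mkPar P ε x) := by
    unfold tup
    simp only [mkPar]
    refine PT.pair ?_ (PT.pair ?_ (PT.pair ?_ (PT.pair ?_ (PT.pair ?_ (PT.pair h1 (PT.pair ?_ ?_))))))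
    · fun_prop
    · fun_prop
    · fun_prop
    · fun_prop
    · fun_prop
    · fun_prop
    · exact PT.un_mk (by fun_prop) (by fun_prop)
  exact this.of_enc_eq fun _ => rfl

end ProcPT

theorem run_pt {α : ℝ} (P : Pot α) (ε : ℚ) : PT fun x : Un × Raw => run P (mkPar P ε x) :=
  ProcPT.run_pt' P (ProcPT.mkPar_pt P ε)

end Crest.Agent.R310
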