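import Crest.Agent.R310.Loop
import Crest.Agent.R310.ProcPT

/-!
# R310 / Proc : a potential gives a pseudo-approximation

Take a rational `ε' > 0` with `2 ε' ≤ ε`, `ε' ≤ 1/4`, `A x = run P (mkPar P ε' x)`, `c = ⌈(2 / ε' + 1) / κ⌉₊`, `κ = η² / 64`.
`POk` from `lpY_spec`, `V_mem`-like bounds (`lpV x = (mkPar ..).V` by `rfl`; `0 ≤ V ≤ |C| Λ` follows from `asg_spec` directly).  `V ≤ cost S + 1/8` (`asg_spec`, `lpY_spec`),
`δ = ε' (V + 1/8)`; `run_spec`: `cost ≤ α V + 2 δ + 1/16 ≤ (α + 2ε') cost S + 1/4 + 1/8 + 1/16`; `1 + κ (|A x| - k) ≤ 2 / ε' + 2`.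
-/

set_option autoImplicit false

namespace Crest.Agent.R310

open Crest.Agent.Lib.PT

theorem Proc_sm_congr {F : List ℕ} {f g : ℕ → ℚ} (h : ∀ i, f i = g i) : sm F f = sm F g := by
  rw [funext h]

theorem Proc_sm_nonneg {F : List ℕ} {f : ℕ → ℚ} (h : ∀ i ∈ F, 0 ≤ f i) : 0 ≤ sm F f :=
  List.sum_nonneg fun _ hx => by
    obtain ⟨j, hj, rfl⟩ := List.mem_map.1 hx
    exact h j hj

theorem Proc_sm_le {F : List ℕ} {f : ℕ → ℚ} {c : ℚ} (h : ∀ i ∈ F, f i ≤ c) : sm F f ≤ F.length * c := by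
  have := List.sum_le_card_nsmul (F.map f) c fun _ hx => by
    obtain ⟨j, hj, rfl⟩ := List.mem_map.1 hx
    exact h j hj
  rwa [List.length_map, nsmul_eq_mul] at this

theorem proc {α ε : ℝ} (P : Pot α) (hα0 : 0 ≤ α) (hα : α ≤ 2) (hε : 0 < ε) :
    ∃ (c : ℕ) (A : Un × Raw → List ℕ), PT A ∧ IApprox (α + ε) c A := by
  obtain ⟨e, he0, he⟩ := exists_rat_btwn (lt_min (half_pos hε) (by norm_num : (0 : ℝ) < 1 / 4))
  have e0 : 0 < e := by exact_mod_cast he0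
  have e1 : (e : ℝ) ≤ ε / 2 := he.le.trans (min_le_left _ _)
  have e2' : (e : ℝ) ≤ 1 / 4 := he.le.trans (min_le_right _ _)
  have e2 : e ≤ 1 / 4 := by
    have : (e : ℝ) ≤ ((1 / 4 : ℚ) : ℝ) := by simpa using e2'
    exact_mod_cast this
  have hκ : 0 < P.η ^ 2 / 64 := by
    have := P.η0
    positivity
  refine ⟨⌈(2 / e + 1) / (P.η ^ 2 / 64)⌉₊, fun x => run P (mkPar P e x), run_pt P e, fun Λ k C F D hok hΛ => ?_⟩
  obtain ⟨y01, y1, yk, hS⟩ := lpY_spec C hok hΛ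
  have hV : lpV (⟨Λ⟩, k, C, F, D) = sm C fun j => sm (List.range Λ) fun t =>
      max 0 (1 - ball (dd D) F (fn (lpY (⟨Λ⟩, k, C, F, D))) j t) :=
    Proc_sm_congr fun j => (asg_spec hΛ (fun i _ => (y01 i).1) y1 j).2
  have V0 : 0 ≤ lpV (⟨Λ⟩, k, C, F, D) :=
    hV ▸ Proc_sm_nonneg fun j _ => Proc_sm_nonneg fun t _ => le_max_left _ _
  have V1 : lpV (⟨Λ⟩, k, C, F, D) ≤ C.length * Λ := by
    rw [hV]
    refine Proc_sm_le fun j _ => (Proc_sm_le (c := 1) fun t _ => max_le zero_le_one ?_).trans (by simp)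
    refine sub_le_self _ (Proc_sm_nonneg fun i _ => ?_)
    split_ifs
    exacts [(y01 i).1, le_rfl]
  have hp : POk P (mkPar P e (⟨Λ⟩, k, C, F, D)) := by
    refine ⟨hok, hΛ, y01, y1, yk, mul_pos e0 (by linarith), ?_, Nat.le_mul_of_pos_right _ (Nat.succ_pos _), ?_⟩
    · change e * (lpV _ + 1 / 8) ≤ C.length * Λ + 1
      nlinarith
    · have h1 : ⌈1 / P.s0⌉₊ + 1 ≤ (mkPar P e (⟨Λ⟩, k, C, F, D)).X := Nat.le_mul_of_pos_left _ (by positivity)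
      have h2 : 1 / P.s0 ≤ ((mkPar P e (⟨Λ⟩, k, C, F, D)).X : ℚ) :=
        (Nat.le_ceil _).trans (Nat.cast_le.2 ((Nat.le_succ _).trans h1))
      exact (one_div_le (one_div_pos.2 P.s00 |>.trans_le h2) P.s00).2 h2
  obtain ⟨r1, r2, r3, r4, r5⟩ := run_spec hp hα
  change (cost (dd D) C _ : ℝ) ≤ α * lpV (⟨Λ⟩, k, C, F, D) + 2 * (e * (lpV (⟨Λ⟩, k, C, F, D) + 1 / 8) : ℚ) + 1 / 16
    at r4
  change e * (lpV (⟨Λ⟩, k, C, F, D) + 1 / 8) * (1 + P.η ^ 2 / 64 * (_ - (k : ℚ))) ≤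
    2 * lpV (⟨Λ⟩, k, C, F, D) + 2 * (e * (lpV (⟨Λ⟩, k, C, F, D) + 1 / 8)) + 1 / 16 at r5
  rw [← hV] at hS
  generalize lpV (⟨Λ⟩, k, C, F, D) = V at *
  refine ⟨⟨r1, r2, r3, ?_⟩, fun S hf => ?_⟩
  · have h1 : 1 + P.η ^ 2 / 64 * (((run P (mkPar P e (⟨Λ⟩, k, C, F, D))).length : ℚ) - k) ≤ 2 / e + 2 := by
      refine le_of_mul_le_mul_left (r5.trans ?_) (mul_pos e0 (by linarith))
      have : e * (V + 1 / 8) * (2 / e + 2) = 2 * (V + 1 / 8) + 2 * (e * (V + 1 / 8)) := by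
        field_simp
      linarith
    have h2 : ((run P (mkPar P e (⟨Λ⟩, k, C, F, D))).length : ℚ) - k ≤ (2 / e + 1) / (P.η ^ 2 / 64) := by
      rw [le_div_iff₀' hκ]
      linarith
    have h3 := h2.trans (Nat.le_ceil _)
    exact_mod_cast sub_le_iff_le_add'.1 h3
  · have h1 : (V : ℝ) ≤ cost (dd D) C S + 1 / 8 := by
      have : (V : ℝ) ≤ ((cost (dd D) C S + 1 / 8 : ℚ) : ℝ) := Rat.cast_le.2 (hS S hf)
      simpa using this
    have h2 : (0 : ℝ) ≤ cost (dd D) C S := by exact_mod_cast cost_nonneg hok.pm C S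
    push_cast at r4
    nlinarith [mul_le_mul_of_nonneg_left h1 hα0, mul_le_mul_of_nonneg_left h1 he0.le,
      mul_le_mul_of_nonneg_right e1 h2]

end Crest.Agent.R310
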