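import Crest.Agent.R310.Pot

/-!
# R310 / Rad : the kill radius

(v2: slope `σ = n / (n - N)`, breakpoints `R = a` and `R = a n / N` lie on the grid `ℕ / N`; `1 - 1/σ = N / n`.  The text below is the case `N = 2`, `n = 3`.)

`kil d F y i R` is monotone in `R > 0` (`ff` is antitone, `d ≥ 0`, `y ≥ 0`).  `kil (1/2) = y i ≤ 1` (other facilities are at integer
distance `≥ 1`, `ff s = 0` for `s ≥ 1`; `ff 0 = 1`).  If `kil (c / (1 + e)) > 1` then `kil Λ > 1`, so `m = radM` is `< 2Λ`, `m ≥ 1`,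
`kil (m/2) ≤ 1 < kil ((m+1)/2)` (`List.findIdx` lemmas).  For an integer `a ≥ 0` the map `u ↦ ff (a u)` is affine on
`[2/(m+1), 2/m]` (its breakpoints `u = 1/a = 2/(2a)` and `u = 2/(3a)` are not inside: cases `m + 1 ≤ 2a`, `3a ≤ m`, else
`2a ≤ m`, `m + 1 ≤ 3a`), hence `kil (radI) = 1`; monotonicity gives `radI ≤ c / (1 + e)`.
-/

set_option autoImplicit false

namespace Crest.Agent.R310

open Crest.Agent.Lib.PT

/-- total rate at which `i` is killed by openings, for the radius `R` -/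
def kil (σ : ℚ) (d : ℕ → ℕ → ℚ) (F : List ℕ) (y : ℕ → ℚ) (i : ℕ) (R : ℚ) : ℚ :=
  sm F fun o => y o * ff σ (d o i / R)

/-- the interval `[m / N, (m + 1) / N]` containing the balanced radius -/
def radM (N : ℕ) (σ : ℚ) (d : ℕ → ℕ → ℚ) (Λ : ℕ) (F : List ℕ) (y : ℕ → ℚ) (i : ℕ) : ℕ :=
  (List.range (N * Λ)).findIdx fun m : ℕ => decide (1 < kil σ d F y i (((m : ℚ) + 1) / N))

/-- interpolation in `1 / R` -/
def radI (N : ℕ) (σ : ℚ) (d : ℕ → ℕ → ℚ) (F : List ℕ) (y : ℕ → ℚ) (i m : ℕ) : ℚ :=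
  ((N : ℚ) / (m : ℚ) + (1 - kil σ d F y i ((m : ℚ) / N)) /
    (kil σ d F y i (((m : ℚ) + 1) / N) - kil σ d F y i ((m : ℚ) / N)) * (N / ((m : ℚ) + 1) - N / (m : ℚ)))⁻¹

/-- kill radius of `i`, `c` the distance to the open set -/
def rad (e : ℚ) (N : ℕ) (σ : ℚ) (d : ℕ → ℕ → ℚ) (Λ : ℕ) (F : List ℕ) (y : ℕ → ℚ) (c : ℚ) (i : ℕ) : ℚ :=
  if kil σ d F y i (c / (1 + e)) ≤ 1 then c / (1 + e) else radI N σ d F y i (radM N σ d Λ F y i)

theorem rad_kil_pt {α : Type} [Enc α] {σ : α → ℚ} {D : α → Tab} {F : α → List ℕ} {y : α → List ℚ} {i : α → ℕ}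
    {R : α → ℚ} (hσ : PT σ) (hD : PT D) (hF : PT F) (hy : PT y) (hi : PT i) (hR : PT R) :
    PT fun a => kil (σ a) (dd (D a)) (F a) (fn (y a)) (i a) (R a) := by
  unfold kil; fun_prop

theorem rad_radI_pt {α : Type} [Enc α] (N : ℕ) {σ : α → ℚ} {D : α → Tab} {F : α → List ℕ} {y : α → List ℚ}
    {i m : α → ℕ} (hσ : PT σ) (hD : PT D) (hF : PT F) (hy : PT y) (hi : PT i) (hm : PT m) :
    PT fun a => radI N (σ a) (dd (D a)) (F a) (fn (y a)) (i a) (m a) := by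
  have h0 := rad_kil_pt (R := fun a => (m a : ℚ) / N) hσ hD hF hy hi (by fun_prop)
  have h1 := rad_kil_pt (R := fun a => ((m a : ℚ) + 1) / N) hσ hD hF hy hi (by fun_prop)
  unfold radI; fun_prop

theorem rad_radM_pt {α : Type} [Enc α] (N : ℕ) {σ : α → ℚ} {D : α → Tab} {Λ : α → Un} {F : α → List ℕ}
    {y : α → List ℚ} {i : α → ℕ} (hσ : PT σ) (hD : PT D) (hΛ : PT Λ) (hF : PT F) (hy : PT y) (hi : PT i) :
    PT fun a => radM N (σ a) (dd (D a)) (Λ a).n (F a) (fn (y a)) (i a) := by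
  have h1 := rad_kil_pt (α := α × ℕ) (σ := fun q => σ q.1) (D := fun q => D q.1) (F := fun q => F q.1)
    (y := fun q => y q.1) (i := fun q => i q.1) (R := fun q => ((q.2 : ℚ) + 1) / N) (by fun_prop) (by fun_prop)
    (by fun_prop) (by fun_prop) (by fun_prop) (by fun_prop)
  unfold radM
  exact PT.findIdx (by fun_prop) (by fun_prop)

@[fun_prop] theorem rad_pt {α : Type} [Enc α] (e : ℚ) (N : ℕ) {σ : α → ℚ} {D : α → Tab} {Λ : α → Un} {F : α → List ℕ}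
    {y : α → List ℚ} {c : α → ℚ} {i : α → ℕ} (hσ : PT σ) (hD : PT D) (hΛ : PT Λ) (hF : PT F) (hy : PT y) (hc : PT c)
    (hi : PT i) : PT fun a => rad e N (σ a) (dd (D a)) (Λ a).n (F a) (fn (y a)) (c a) (i a) := by
  have h0 := rad_kil_pt (R := fun a => c a / (1 + e)) hσ hD hF hy hi (by fun_prop)
  have h1 := rad_radI_pt N hσ hD hF hy hi (rad_radM_pt N hσ hD hΛ hF hy hi)
  unfold rad; fun_prop

theorem ff_mem (σ s : ℚ) : 0 ≤ ff σ s ∧ ff σ s ≤ 1 := by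
  unfold ff
  exact ⟨le_max_left _ _, max_le zero_le_one (min_le_left _ _)⟩

theorem rad_ff_anti {σ s t : ℚ} (hσ : 0 ≤ σ) (h : s ≤ t) : ff σ t ≤ ff σ s :=
  max_le_max le_rfl (min_le_min le_rfl (mul_le_mul_of_nonneg_left (by linarith) hσ))

theorem rad_ff_big {σ s : ℚ} (hσ : 0 ≤ σ) (h : 1 ≤ s) : ff σ s = 0 :=
  max_eq_left ((min_le_right _ _).trans (mul_nonpos_of_nonneg_of_nonpos hσ (by linarith)))

theorem rad_ff_small {σ b s : ℚ} (hσ : 0 ≤ σ) (hb : σ * (1 - b) = 1) (h : s ≤ b) : ff σ s = 1 := by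
  unfold ff
  rw [min_eq_left (hb.ge.trans (mul_le_mul_of_nonneg_left (by linarith) hσ)), max_eq_right zero_le_one]

theorem rad_ff_mid {σ b s : ℚ} (hσ : 0 ≤ σ) (hb : σ * (1 - b) = 1) (h : b ≤ s) (h' : s ≤ 1) :
    ff σ s = σ * (1 - s) := by
  unfold ff
  rw [min_eq_right ((mul_le_mul_of_nonneg_left (by linarith) hσ).trans hb.le),
    max_eq_right (mul_nonneg hσ (by linarith))]

theorem rad_ff_aff {σ b s0 s1 t : ℚ} (hσ : 0 ≤ σ) (hb : σ * (1 - b) = 1) (h0 : 0 ≤ t) (h1 : t ≤ 1) (h10 : s1 ≤ s0)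
    (h : 1 ≤ s1 ∨ s0 ≤ b ∨ (b ≤ s1 ∧ s0 ≤ 1)) :
    ff σ (s0 + t * (s1 - s0)) = ff σ s0 + t * (ff σ s1 - ff σ s0) := by
  have a1 : s1 ≤ s0 + t * (s1 - s0) := by nlinarith
  have a2 : s0 + t * (s1 - s0) ≤ s0 := by nlinarith
  rcases h with h | h | ⟨h, h'⟩
  · rw [rad_ff_big hσ h, rad_ff_big hσ (h.trans h10), rad_ff_big hσ (h.trans a1)]
    ring
  · rw [rad_ff_small hσ hb h, rad_ff_small hσ hb (h10.trans h), rad_ff_small hσ hb (a2.trans h)]
    ring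
  · rw [rad_ff_mid hσ hb h (h10.trans h'), rad_ff_mid hσ hb (h.trans h10) h',
      rad_ff_mid hσ hb (h.trans a1) (a2.trans h')]
    ring

theorem rad_ff_int {σ : ℚ} {N n : ℕ} (hN : 0 < N) (hn : 0 < n) (hσ : 0 ≤ σ) (hb : σ * (1 - (N : ℚ) / n) = 1)
    (a : ℕ) {m : ℕ} (hm : 1 ≤ m) {t : ℚ} (h0 : 0 ≤ t) (h1 : t ≤ 1) :
    ff σ ((a : ℚ) / ((N : ℚ) / (m : ℚ) + t * (N / ((m : ℚ) + 1) - N / (m : ℚ)))⁻¹) =
      ff σ ((a : ℚ) / ((m : ℚ) / N)) +
        t * (ff σ ((a : ℚ) / (((m : ℚ) + 1) / N)) - ff σ ((a : ℚ) / ((m : ℚ) / N))) := by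
  have hm' : (0 : ℚ) < m := by exact_mod_cast hm
  have hN' : (0 : ℚ) < N := by exact_mod_cast hN
  have hn' : (0 : ℚ) < n := by exact_mod_cast hn
  have ha : (0 : ℚ) ≤ a := Nat.cast_nonneg a
  rw [← rad_ff_aff hσ hb h0 h1 (div_le_div_of_nonneg_left ha (by positivity)
    (div_le_div_of_nonneg_right (by linarith) hN'.le))]
  · congr 1
    rw [div_inv_eq_mul]
    field_simp
  · rw [div_div_eq_mul_div, div_div_eq_mul_div, one_le_div (by positivity), div_le_div_iff₀ hm' hn',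
      div_le_div_iff₀ hn' (by positivity), div_le_one hm']
    rcases le_or_gt (m + 1) (a * N) with h | h
    · left
      exact_mod_cast h
    · right
      rcases le_or_gt (a * n) m with h' | h'
      · left
        have : (a * n : ℚ) ≤ m := by exact_mod_cast h'
        nlinarith
      · right
        have b1 : ((m : ℚ) + 1) ≤ a * n := by exact_mod_cast h'
        have b2 : (a * N : ℚ) ≤ m := by exact_mod_cast Nat.lt_succ_iff.1 h
        exact ⟨by nlinarith, b2⟩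

theorem rad_kil_mono {σ : ℚ} (hσ : 0 ≤ σ) {d : ℕ → ℕ → ℚ} (hpm : PM d) {F : List ℕ} {y : ℕ → ℚ}
    (hy : ∀ i ∈ F, 0 ≤ y i ∧ y i ≤ 1) (i : ℕ) {R R' : ℚ} (h0 : 0 < R) (h : R ≤ R') :
    kil σ d F y i R ≤ kil σ d F y i R' :=
  List.sum_le_sum fun o ho => mul_le_mul_of_nonneg_left
    (rad_ff_anti hσ (div_le_div_of_nonneg_left (hpm.nonneg o i) h0 h)) (hy o ho).1

theorem rad_kil_half {σ : ℚ} (hσ : 0 ≤ σ) {N : ℕ} (hN : 0 < N) {d : ℕ → ℕ → ℚ} {Λ : ℕ}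
    (hd : ∀ a b, IsN Λ (d a b)) {F : List ℕ} (hF : F.Nodup)
    (hpos : ∀ i ∈ F, ∀ i' ∈ F, i ≠ i' → 0 < d i i') {y : ℕ → ℚ} (hy : ∀ i ∈ F, 0 ≤ y i ∧ y i ≤ 1) {i : ℕ}
    (hi : i ∈ F) : kil σ d F y i (1 / N) ≤ 1 := by
  unfold kil
  rw [sm_eq hF, Finset.sum_eq_single_of_mem i (List.mem_toFinset.2 hi)]
  · exact mul_le_one₀ (hy i hi).2 (ff_mem _ _).1 (ff_mem _ _).2
  · intro o ho hoi
    have h1 := hpos o (List.mem_toFinset.1 ho) i hi hoi
    obtain ⟨m, -, hm⟩ := hd o i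
    rw [hm] at h1 ⊢
    have h2 : (1 : ℚ) ≤ m := by exact_mod_cast (show 1 ≤ m by exact_mod_cast h1)
    have h3 : (1 : ℚ) ≤ N := by exact_mod_cast hN
    rw [rad_ff_big hσ (by rw [div_div_eq_mul_div, div_one]; exact one_le_mul_of_one_le_of_one_le h2 h3), mul_zero]

theorem rad_sm_aff (F : List ℕ) (g0 g1 : ℕ → ℚ) (t : ℚ) :
    sm F (fun o => g0 o + t * (g1 o - g0 o)) = sm F g0 + t * (sm F g1 - sm F g0) := by
  unfold sm
  induction F with
  | nil => simp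
  | cons a l ih =>
    simp only [List.map_cons, List.sum_cons, ih]
    ring

theorem rad_kil_aff {σ : ℚ} {N n : ℕ} (hN : 0 < N) (hn : 0 < n) (hσ : 0 ≤ σ) (hb : σ * (1 - (N : ℚ) / n) = 1)
    {d : ℕ → ℕ → ℚ} {Λ : ℕ} (hd : ∀ a b, IsN Λ (d a b)) (F : List ℕ) (y : ℕ → ℚ) (i : ℕ)
    {m : ℕ} (hm : 1 ≤ m) {t : ℚ} (h0 : 0 ≤ t) (h1 : t ≤ 1) :
    kil σ d F y i ((N : ℚ) / (m : ℚ) + t * (N / ((m : ℚ) + 1) - N / (m : ℚ)))⁻¹ =
      kil σ d F y i ((m : ℚ) / N) + t * (kil σ d F y i (((m : ℚ) + 1) / N) - kil σ d F y i ((m : ℚ) / N)) := by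
  unfold kil
  rw [← rad_sm_aff]
  congr 1
  funext o
  obtain ⟨a, -, ha⟩ := hd o i
  rw [ha, rad_ff_int hN hn hσ hb a hm h0 h1]
  ring

theorem rad_radM {σ : ℚ} {N : ℕ} (hN : 0 < N) {d : ℕ → ℕ → ℚ} {Λ : ℕ} {F : List ℕ} {y : ℕ → ℚ} {i : ℕ}
    (hΛ : 1 ≤ Λ) (h0 : kil σ d F y i (1 / N) ≤ 1) (h1 : 1 < kil σ d F y i Λ) :
    1 ≤ radM N σ d Λ F y i ∧ kil σ d F y i ((radM N σ d Λ F y i : ℚ) / N) ≤ 1 ∧
      1 < kil σ d F y i (((radM N σ d Λ F y i : ℚ) + 1) / N) := by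
  unfold radM
  have hN' : (0 : ℚ) < N := by exact_mod_cast hN
  have hp : 1 ≤ N * Λ := Nat.mul_pos hN hΛ
  have hlt : ((List.range (N * Λ)).findIdx fun m : ℕ => decide (1 < kil σ d F y i (((m : ℚ) + 1) / N))) <
      (List.range (N * Λ)).length := by
    refine List.findIdx_lt_length.2 ⟨N * Λ - 1, List.mem_range.2 (by omega), decide_eq_true ?_⟩
    rw [Nat.cast_sub hp]
    convert h1 using 2
    push_cast
    field_simp
    ring
  have h2 := List.findIdx_getElem (w := hlt)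
  have h6 : ∀ j (hj : j < (List.range (N * Λ)).findIdx fun m : ℕ =>
      decide (1 < kil σ d F y i (((m : ℚ) + 1) / N))), kil σ d F y i (((j : ℚ) + 1) / N) ≤ 1 := fun j hj => by
    have := List.not_of_lt_findIdx hj
    rw [List.getElem_range] at this
    simpa using this
  rw [List.getElem_range] at h2
  replace h2 := of_decide_eq_true h2
  generalize ((List.range (N * Λ)).findIdx fun m : ℕ => decide (1 < kil σ d F y i (((m : ℚ) + 1) / N))) = m at h2 h6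
  cases m with
  | zero =>
    rw [Nat.cast_zero, zero_add] at h2
    linarith
  | succ m =>
    refine ⟨by omega, ?_, h2⟩
    simpa using h6 m (by omega)

theorem rad_spec {e : ℚ} (he : 0 < e) {N n : ℕ} (hN : 0 < N) (hn : N < n) {σ : ℚ} (hσ : σ = (n : ℚ) / ((n : ℚ) - N))
    {d : ℕ → ℕ → ℚ} {Λ : ℕ} (hd : ∀ a b, IsN Λ (d a b)) (hpm : PM d)
    {F : List ℕ} (hF : F.Nodup) (hpos : ∀ i ∈ F, ∀ i' ∈ F, i ≠ i' → 0 < d i i') {y : ℕ → ℚ}
    (hy : ∀ i ∈ F, 0 ≤ y i ∧ y i ≤ 1) {c : ℚ} (hc : 0 < c) (hcΛ : c ≤ Λ) {i : ℕ} (hi : i ∈ F) :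
    0 < rad e N σ d Λ F y c i ∧ (1 + e) * rad e N σ d Λ F y c i ≤ c ∧ kil σ d F y i (rad e N σ d Λ F y c i) ≤ 1 ∧
      (kil σ d F y i (rad e N σ d Λ F y c i) < 1 → (1 + e) * rad e N σ d Λ F y c i = c) := by
  have hn0 : 0 < n := hN.trans hn
  have hN' : (0 : ℚ) < N := by exact_mod_cast hN
  have hnN : (0 : ℚ) < (n : ℚ) - N := sub_pos.2 (by exact_mod_cast hn)
  have hn' : (0 : ℚ) < n := by exact_mod_cast hn0
  have hσ0 : 0 ≤ σ := by rw [hσ]; positivity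
  have hb : σ * (1 - (N : ℚ) / n) = 1 := by rw [hσ]; field_simp
  have he1 : 0 < 1 + e := by linarith
  have hc1 : 0 < c / (1 + e) := div_pos hc he1
  unfold rad
  split_ifs with h
  · have : (1 + e) * (c / (1 + e)) = c := by field_simp
    exact ⟨hc1, this.le, h, fun _ => this⟩
  · have h' := not_le.1 h
    have hΛ : 1 ≤ Λ := by
      have : (0 : ℚ) < Λ := hc.trans_le hcΛ
      exact_mod_cast this
    have hle : c / (1 + e) ≤ Λ := (div_le_self hc.le (by linarith)).trans hcΛ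
    obtain ⟨h1, h2, h3⟩ := rad_radM hN hΛ (rad_kil_half hσ0 hN hd hF hpos hy hi)
      (h'.trans_le (rad_kil_mono hσ0 hpm hy i hc1 hle))
    generalize radM N σ d Λ F y i = m at h1 h2 h3
    have hm : (0 : ℚ) < m := by exact_mod_cast h1
    have hk : 0 < kil σ d F y i (((m : ℚ) + 1) / N) - kil σ d F y i ((m : ℚ) / N) := by linarith
    have t0 : 0 ≤ (1 - kil σ d F y i ((m : ℚ) / N)) /
        (kil σ d F y i (((m : ℚ) + 1) / N) - kil σ d F y i ((m : ℚ) / N)) := div_nonneg (by linarith) hk.le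
    have t1 : (1 - kil σ d F y i ((m : ℚ) / N)) /
        (kil σ d F y i (((m : ℚ) + 1) / N) - kil σ d F y i ((m : ℚ) / N)) ≤ 1 := (div_le_one hk).2 (by linarith)
    have k1 : kil σ d F y i (radI N σ d F y i m) = 1 := by
      unfold radI
      rw [rad_kil_aff hN hn0 hσ0 hb hd F y i h1 t0 t1, div_mul_cancel₀ _ hk.ne']
      ring
    have k0 : 0 < radI N σ d F y i m := by
      unfold radI
      have b1 : (0 : ℚ) < N / ((m : ℚ) + 1) := by positivity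
      have b2 : (N : ℚ) / ((m : ℚ) + 1) ≤ N / (m : ℚ) := div_le_div_of_nonneg_left hN'.le hm (by linarith)
      refine inv_pos.2 ?_
      nlinarith
    refine ⟨k0, ?_, k1.le, fun hlt => absurd k1 hlt.ne⟩
    by_contra hlt
    have : c / (1 + e) ≤ radI N σ d F y i m := by
      rw [div_le_iff₀ he1]
      linarith
    have := rad_kil_mono hσ0 hpm hy i hc1 this
    linarith

end Crest.Agent.R310
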