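import Crest.Agent.R310.Basic

/-!
# R310 / Rnd : rounding the metric to small integers

Fix `m : ℕ`, `m ≥ α/ε`, `m ≥ 1`, `a : ℕ`, `a ≥ α`.  `n = |C| + 1`, `Λ = a (m + 1) n² + 1`.  For a guess `q` (one of the numbers
`dd D j i`, `j ∈ C`, `i ∈ F`) put `u = q / (m n)`, `D' = rtab u Λ D`, run `A` on `(Λ, k, C, F, D')`; return `best (k + c)` of
all the answers.  Let `S` be feasible, `opt = cost S`, `q = max_j dS j S` (if `C = []` all costs are `0`).
`rg u Λ` is monotone and subadditive on `[0, ∞)` and vanishes only at `0`, so `D'` is `Ok` and `IntM Λ`.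
* `q = 0`: `cost' S = 0`, so `cost' T ≤ 1/2`; every `dS' j T` is an integer, hence `0`, hence `dS j T = 0`.
* `q > 0`: `rg x ≤ x/u + 1` gives `cost' S ≤ opt/u + |C|`, so `cost' T ≤ α (opt/u + n)`.  As `opt ≤ n q` this is
  `≤ α (m n² + n) < Λ`, so no client is at the capped distance and `dS j T ≤ u dS' j T`.  As `q ≤ opt`,
  `n u ≤ opt / m` and `cost T ≤ α (1 + 1/m) opt`.
-/

set_option autoImplicit false

namespace Crest.Agent.R310

open Crest.Agent.Lib.PT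

/-- rounding of one distance -/
def rg (u : ℚ) (Λ : ℕ) (x : ℚ) : ℚ := if x = 0 then 0 else ((min (⌊x / u⌋₊ + 1) Λ : ℕ) : ℚ)

/-- rounding of the table -/
def rtab (u : ℚ) (Λ : ℕ) (D : Tab) : Tab := D.map fun r => r.map (rg u Λ)

theorem rg_zero (u : ℚ) (Λ : ℕ) : rg u Λ 0 = 0 := by simp [rg]

theorem rg_nonneg (u : ℚ) (Λ : ℕ) (x : ℚ) : 0 ≤ rg u Λ x := by
  unfold rg
  split_ifs
  · exact le_rfl
  · exact Nat.cast_nonneg _

theorem one_le_rg (u : ℚ) {Λ : ℕ} (hΛ : 1 ≤ Λ) {x : ℚ} (hx : x ≠ 0) : 1 ≤ rg u Λ x := by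
  unfold rg
  rw [if_neg hx]
  exact_mod_cast le_min (Nat.le_add_left 1 _) hΛ

theorem rg_mono {u : ℚ} (hu : 0 ≤ u) (Λ : ℕ) {x y : ℚ} (hx : 0 ≤ x) (h : x ≤ y) :
    rg u Λ x ≤ rg u Λ y := by
  by_cases h0 : x = 0
  · rw [h0, rg_zero]; exact rg_nonneg _ _ _
  · have h1 : y ≠ 0 := fun h1 => h0 (le_antisymm (h1 ▸ h) hx)
    unfold rg
    rw [if_neg h0, if_neg h1]
    have h2 : ⌊x / u⌋₊ ≤ ⌊y / u⌋₊ := Nat.floor_mono (div_le_div_of_nonneg_right h hu)
    exact_mod_cast min_le_min (Nat.add_le_add_right h2 1) le_rfl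

theorem rg_add {u : ℚ} (hu : 0 ≤ u) (Λ : ℕ) {x y : ℚ} (hx : 0 ≤ x) (hy : 0 ≤ y) :
    rg u Λ (x + y) ≤ rg u Λ x + rg u Λ y := by
  by_cases h0 : x = 0
  · rw [h0, rg_zero, zero_add, zero_add]
  by_cases h1 : y = 0
  · rw [h1, rg_zero, add_zero, add_zero]
  have h2 : x + y ≠ 0 := fun h2 => h0 (by linarith)
  unfold rg
  rw [if_neg h0, if_neg h1, if_neg h2]
  have h3 : ⌊(x + y) / u⌋₊ < ⌊x / u⌋₊ + 1 + (⌊y / u⌋₊ + 1) := by
    rw [Nat.floor_lt (div_nonneg (add_nonneg hx hy) hu), add_div]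
    have a1 := Nat.lt_floor_add_one (x / u)
    have a2 := Nat.lt_floor_add_one (y / u)
    push_cast
    linarith
  have h4 : min (⌊(x + y) / u⌋₊ + 1) Λ ≤ min (⌊x / u⌋₊ + 1) Λ + min (⌊y / u⌋₊ + 1) Λ := by omega
  exact_mod_cast h4

theorem rg_le {u : ℚ} (hu : 0 ≤ u) (Λ : ℕ) {x : ℚ} (hx : 0 ≤ x) : rg u Λ x ≤ x / u + 1 := by
  have h1 : 0 ≤ x / u := div_nonneg hx hu
  unfold rg
  split_ifs
  · linarith
  · have h2 : ((min (⌊x / u⌋₊ + 1) Λ : ℕ) : ℚ) ≤ ((⌊x / u⌋₊ + 1 : ℕ) : ℚ) := by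
      exact_mod_cast min_le_left _ _
    have h3 := Nat.floor_le h1
    push_cast at h2 ⊢
    linarith

theorem le_rg {u : ℚ} (hu : 0 < u) {Λ : ℕ} {x : ℚ} (h : rg u Λ x < Λ) : x ≤ u * rg u Λ x := by
  unfold rg at h ⊢
  split_ifs at h ⊢ with h0
  · rw [h0, mul_zero]
  · have h1 : min (⌊x / u⌋₊ + 1) Λ < Λ := by exact_mod_cast h
    have h2 : min (⌊x / u⌋₊ + 1) Λ = ⌊x / u⌋₊ + 1 := by omega
    rw [h2]
    have h3 := Nat.lt_floor_add_one (x / u)
    rw [div_lt_iff₀ hu] at h3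
    push_cast
    linarith

theorem dd_rtab (u : ℚ) (Λ : ℕ) (D : Tab) (i j : ℕ) : dd (rtab u Λ D) i j = rg u Λ (dd D i j) := by
  unfold dd rtab
  rw [List.length_map]
  have h1 := List.getD_map (l := D) (d := ([] : List ℚ)) (n := min i (D.length - 1))
    (fun r : List ℚ => r.map (rg u Λ))
  rw [List.map_nil] at h1
  rw [h1]
  have h2 := List.getD_map (l := D.getD (min i (D.length - 1)) []) (d := (0 : ℚ))
    (n := min j (D.length - 1)) (rg u Λ)
  rw [rg_zero] at h2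
  exact h2

theorem ok_rtab {u : ℚ} (hu : 0 ≤ u) {Λ : ℕ} (hΛ : 1 ≤ Λ) {k : ℕ} {F : List ℕ} {D : Tab} (h : Ok k F D) :
    Ok k F (rtab u Λ D) ∧ IntM Λ (rtab u Λ D) := by
  refine ⟨⟨⟨fun i => ?_, fun i j => ?_, fun i j l => ?_⟩, fun i hi i' hi' hne => ?_, fun i hi => ?_,
    h.nodup, h.one_le, h.ne⟩, fun i j => ?_⟩
  · rw [dd_rtab, h.pm.refl, rg_zero]
  · rw [dd_rtab, dd_rtab, h.pm.symm]
  · rw [dd_rtab, dd_rtab, dd_rtab]
    exact (rg_mono hu Λ (h.pm.nonneg _ _) (h.pm.tri i j l)).trans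
      (rg_add hu Λ (h.pm.nonneg _ _) (h.pm.nonneg _ _))
  · rw [dd_rtab]
    exact lt_of_lt_of_le one_pos (one_le_rg u hΛ (h.pos i hi i' hi' hne).ne')
  · unfold rtab
    rw [List.length_map]
    exact h.lt i hi
  · rw [dd_rtab]
    unfold rg
    split_ifs
    · exact ⟨0, Nat.zero_le _, by simp⟩
    · exact ⟨_, min_le_right _ _, rfl⟩

section pt
variable {β : Type} [Enc β]

@[fun_prop] theorem rg_pt {u x : β → ℚ} {Λ : β → ℕ} (hu : PT u) (hΛ : PT Λ) (hx : PT x) :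
    PT fun b => rg (u b) (Λ b) (x b) := by unfold rg; fun_prop

@[fun_prop] theorem rtab_pt {u : β → ℚ} {Λ : β → ℕ} {D : β → Tab} (hu : PT u) (hΛ : PT Λ)
    (hD : PT D) : PT fun b => rtab (u b) (Λ b) (D b) := by unfold rtab; fun_prop

end pt

/-- the bound on the rounded distances -/
def rndL (a m : ℕ) (C : List ℕ) : ℕ := a * (m + 1) * (C.length + 1) ^ 2 + 1

/-- the call of `A` for the guess `q` -/
def rndIn (a m : ℕ) (x : Raw) (q : ℚ) : Un × Raw :=
  (⟨rndL a m x.2.1⟩, x.1, x.2.1, x.2.2.1,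
    rtab (q / ((m * (x.2.1.length + 1) : ℕ) : ℚ)) (rndL a m x.2.1) x.2.2.2)

/-- the algorithm -/
def rndB (a m c : ℕ) (A : Un × Raw → List ℕ) (x : Raw) : List ℕ :=
  best (x.1 + c) x.2.1 x.2.2.1 x.2.2.2
    ((x.2.1.flatMap fun j => x.2.2.1.map fun i => dd x.2.2.2 j i).map fun q => A (rndIn a m x q))

theorem rndIn_pt (a m : ℕ) : PT fun p : Raw × ℚ => rndIn a m p.1 p.2 := by
  unfold rndIn rndL
  fun_prop

theorem rndB_pt (a m c : ℕ) {A : Un × Raw → List ℕ} (hA : PT A) : PT (rndB a m c A) := by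
  have h1 : PT fun p : Raw × ℚ => A (rndIn a m p.1 p.2) := hA.comp (rndIn_pt a m)
  unfold rndB
  refine best_pt (by fun_prop) (by fun_prop) (by fun_prop) (by fun_prop) ?_
  exact PT.map (by fun_prop) h1

theorem rnd_sum (C : List ℕ) (f : ℕ → ℚ) (u : ℚ) :
    (C.map fun j => f j / u + 1).sum = (C.map f).sum / u + C.length := by
  induction C with
  | nil => simp
  | cons a C ih =>
    simp only [List.map_cons, List.sum_cons, List.length_cons, ih]
    push_cast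
    ring

theorem rnd_single {d : ℕ → ℕ → ℚ} (h : PM d) {C : List ℕ} (S : List ℕ) {j : ℕ} (hj : j ∈ C) :
    dS d j S ≤ cost d C S :=
  List.single_le_sum (fun _ hx => by
    obtain ⟨j, -, rfl⟩ := List.mem_map.1 hx
    exact dS_nonneg h j S) _ (List.mem_map.2 ⟨j, hj, rfl⟩)

theorem rnd_dS_le (u : ℚ) (Λ : ℕ) (D : Tab) (j : ℕ) {S : List ℕ} (hS : S ≠ []) :
    dS (dd (rtab u Λ D)) j S ≤ rg u Λ (dS (dd D) j S) := by
  have := dS_le (dd (rtab u Λ D)) j (nr_mem (dd D) j hS)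
  rw [dd_rtab] at this
  exact this

theorem rnd_zero {u : ℚ} {Λ : ℕ} (hΛ : 1 ≤ Λ) {D : Tab} (hp : PM (dd (rtab u Λ D)))
    {C T : List ℕ} (hT : T ≠ []) (h : cost (dd (rtab u Λ D)) C T < 1) : cost (dd D) C T ≤ 0 := by
  have h1 : cost (dd D) C T ≤ (C.map fun _ => (0 : ℚ)).sum := by
    refine cost_le_of_le fun j hj => ?_
    have h2 := (rnd_single hp T hj).trans_lt h
    have h3 := dS_le (dd D) j (nr_mem (dd (rtab u Λ D)) j hT)
    unfold dS at h2
    rw [dd_rtab] at h2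
    by_contra h4
    exact absurd (one_le_rg u hΛ (fun h5 => h4 (h5 ▸ h3))) (not_le.2 h2)
  simpa using h1

theorem rnd_back {u : ℚ} (hu : 0 < u) {Λ : ℕ} {D : Tab} (hp : PM (dd (rtab u Λ D)))
    {C T : List ℕ} (hT : T ≠ []) (h : cost (dd (rtab u Λ D)) C T < Λ) :
    cost (dd D) C T ≤ u * cost (dd (rtab u Λ D)) C T := by
  have h1 : cost (dd D) C T ≤ (C.map fun j => u * dS (dd (rtab u Λ D)) j T).sum := by
    refine cost_le_of_le fun j hj => ?_
    have h2 := (rnd_single hp T hj).trans_lt h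
    have h3 := dS_le (dd D) j (nr_mem (dd (rtab u Λ D)) j hT)
    refine h3.trans ?_
    unfold dS at h2 ⊢
    rw [dd_rtab] at h2 ⊢
    exact le_rg hu h2
  rw [List.sum_map_mul_left] at h1
  exact h1

theorem rnd_real {α ε a m n L opt q u cS cT c0 : ℝ} (hα : 1 ≤ α) (ha : α ≤ a) (hm : 1 ≤ m)
    (hmε : α ≤ m * ε) (hL : 0 ≤ L) (hn : n = L + 1) (hq : 0 < q) (hu : u = q / (m * n))
    (h1 : opt ≤ L * q) (h2 : q ≤ opt) (h3 : cS ≤ opt / u + L) (h4 : cT ≤ α * cS + 1 / 2) :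
    cT < a * (m + 1) * n ^ 2 + 1 ∧ (c0 ≤ u * cT → c0 ≤ (α + ε) * opt) := by
  have hn1 : 1 ≤ n := by linarith
  have hmn : 0 < m * n := by positivity
  have hu0 : 0 < u := hu ▸ div_pos hq hmn
  have hq' : q = u * (m * n) := by rw [hu]; field_simp
  have h5 : cT ≤ α * (opt / u + n) := by
    have := mul_le_mul_of_nonneg_left h3 (by linarith : 0 ≤ α)
    rw [hn]
    linarith
  have h6 : opt / u ≤ m * n ^ 2 := by
    rw [div_le_iff₀ hu0]
    calc opt ≤ L * q := h1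
      _ ≤ n * q := by gcongr; linarith
      _ = m * n ^ 2 * u := by rw [hq']; ring
  constructor
  · have h7 : n ≤ n ^ 2 := by nlinarith
    calc cT ≤ α * (opt / u + n) := h5
      _ ≤ α * (m * n ^ 2 + n ^ 2) := by gcongr
      _ ≤ a * (m * n ^ 2 + n ^ 2) := by gcongr
      _ < _ := by linarith
  · intro h8
    have h9 : u * cT ≤ α * opt + α * (u * n) := by
      calc u * cT ≤ u * (α * (opt / u + n)) := by gcongr
        _ = _ := by field_simp
    have h10 : α * (u * n) ≤ ε * opt := by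
      have hε : 0 ≤ ε := by
        by_contra hc
        have : m * ε < 0 := mul_neg_of_pos_of_neg (by linarith) (not_le.1 hc)
        linarith
      calc α * (u * n) ≤ m * ε * (u * n) := by gcongr
        _ = ε * q := by rw [hq']; ring
        _ ≤ ε * opt := by gcongr
    linarith

theorem rnd {α ε : ℝ} {c : ℕ} {A : Un × Raw → List ℕ} (hA : PT A) (h : IApprox α c A) (hα : 1 ≤ α)
    (hε : 0 < ε) : ∃ B : Raw → List ℕ, PT B ∧ Approx (α + ε) c B := by
  obtain ⟨a, ha⟩ := exists_nat_ge α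
  obtain ⟨m0, hm0⟩ := exists_nat_ge (α / ε)
  obtain ⟨m, hm1, hm⟩ : ∃ m : ℕ, 1 ≤ m ∧ α ≤ m * ε := by
    refine ⟨m0 + 1, by omega, ?_⟩
    rw [div_le_iff₀ hε] at hm0
    push_cast
    linarith
  refine ⟨rndB a m c A, rndB_pt a m c hA, fun k C F D hok => ⟨?_, fun S hS => ?_⟩⟩
  · exact best_feas (le_trans hok.one_le (Nat.le_add_right k c)) hok.ne _ _ _
  have hopt : (0 : ℝ) ≤ cost (dd D) C S := by exact_mod_cast cost_nonneg hok.pm C S
  rcases hj : C.argmax (fun j => dS (dd D) j S) with _ | j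
  · rw [List.argmax_eq_none.1 hj]
    simp [cost]
  have hjC : j ∈ C := List.argmax_mem hj
  have hmax : ∀ l ∈ C, dS (dd D) l S ≤ dS (dd D) j S := fun l hl => List.le_of_mem_argmax hl hj
  set q := dS (dd D) j S with hq
  have hq0 : 0 ≤ q := dS_nonneg hok.pm j S
  set u : ℚ := q / ((m * (C.length + 1) : ℕ) : ℚ) with hu
  have hu0 : 0 ≤ u := div_nonneg hq0 (Nat.cast_nonneg _)
  set Λ := rndL a m C with hΛ
  have hΛ1 : 1 ≤ Λ := Nat.le_add_left 1 _
  obtain ⟨hok', hint⟩ := ok_rtab hu0 hΛ1 hok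
  obtain ⟨hT, hT2⟩ := h Λ k C F (rtab u Λ D) hok' hint
  have hT3 := hT2 S hS
  set T := A (⟨Λ⟩, k, C, F, rtab u Λ D) with hTdef
  have hbest : cost (dd D) C (rndB a m c A (k, C, F, D)) ≤ cost (dd D) C T := by
    refine best_le C D ?_ hT
    refine List.mem_map.2 ⟨q, List.mem_flatMap.2 ⟨j, hjC, List.mem_map.2
      ⟨nr (dd D) j S, hS.1 (nr_mem _ j hS.2.1), rfl⟩⟩, rfl⟩
  have hbest' : (cost (dd D) C (rndB a m c A (k, C, F, D)) : ℝ) ≤ cost (dd D) C T := by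
    exact_mod_cast hbest
  refine hbest'.trans ?_
  rcases hq0.eq_or_lt with h0 | h0
  · have h1 : cost (dd (rtab u Λ D)) C S ≤ (C.map fun _ => (0 : ℚ)).sum := by
      refine cost_le_of_le fun l hl => (rnd_dS_le u Λ D l hS.2.1).trans ?_
      have h2 : dS (dd D) l S = 0 := le_antisymm (h0 ▸ hmax l hl) (dS_nonneg hok.pm l S)
      rw [h2, rg_zero]
    have h2 : (cost (dd (rtab u Λ D)) C S : ℝ) ≤ 0 := by
      have : cost (dd (rtab u Λ D)) C S ≤ 0 := by simpa using h1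
      exact_mod_cast this
    have h3 : (cost (dd (rtab u Λ D)) C T : ℝ) < 1 := by nlinarith
    have h4 := rnd_zero hΛ1 hok'.pm hT.2.1 (by exact_mod_cast h3 : cost (dd (rtab u Λ D)) C T < 1)
    have h5 : (cost (dd D) C T : ℝ) ≤ 0 := by exact_mod_cast h4
    exact h5.trans (mul_nonneg (by linarith) hopt)
  · have hu1 : 0 < u := div_pos h0 (by positivity)
    have h1 : cost (dd D) C S ≤ C.length * q := by
      have := cost_le_of_le (d := dd D) (S := S) (C := C) (f := fun _ => q) hmax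
      simpa using this
    have h2 : q ≤ cost (dd D) C S := rnd_single hok.pm S hjC
    have h3 : cost (dd (rtab u Λ D)) C S ≤ cost (dd D) C S / u + C.length := by
      have := cost_le_of_le (d := dd (rtab u Λ D)) (S := S) (C := C)
        (f := fun l => dS (dd D) l S / u + 1) fun l _ =>
          (rnd_dS_le u Λ D l hS.2.1).trans (rg_le hu0 Λ (dS_nonneg hok.pm l S))
      rw [rnd_sum] at this
      exact this
    obtain ⟨r1, r2⟩ := rnd_real (α := α) (ε := ε) (a := a) (m := m) (n := (C.length : ℝ) + 1)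
      (L := C.length) (opt := cost (dd D) C S) (q := q) (u := u)
      (cS := cost (dd (rtab u Λ D)) C S) (cT := cost (dd (rtab u Λ D)) C T) (c0 := cost (dd D) C T)
      hα ha (by exact_mod_cast hm1) hm (Nat.cast_nonneg _) rfl (by exact_mod_cast h0)
      (by rw [hu]; push_cast; rfl) (by exact_mod_cast h1) (by exact_mod_cast h2)
      (by exact_mod_cast h3) hT3
    refine r2 ?_
    have h4 : cost (dd (rtab u Λ D)) C T < Λ := by
      have : (cost (dd (rtab u Λ D)) C T : ℝ) < Λ := by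
        refine r1.trans_le (le_of_eq ?_)
        rw [hΛ]
        unfold rndL
        push_cast
        rfl
      exact_mod_cast this
    exact_mod_cast rnd_back hu1 hok'.pm hT.2.1 h4

end Crest.Agent.R310
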