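import Crest.Agent.R310.PDefs

/-!
# R310 / Step1 : invariants and the game

`fn (p.tab g) i = if i < p.D.length then g i else 0`.  All moves multiply the masses by numbers in `[0, 1]` (`ff_mem`, `tilt`,
`0 ≤ sρ ≤ 1` by `rad_spec` and `kil ≥ 0`).  If `0 < fn st.1 i`, `i ∈ F`, then `i ∉ st.2`, so `0 < dS i st.2 ≤ Λ` (`nr_mem`, `Ok.pos`), and `rad_spec`
applies.  `inv_next`: `List.argmin_mem`.  `game`: `c1`, `c2` are `dS_tri`; `mass` from `asg_spec`, `asg_mem`, `Inv.yle`.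
-/

set_option autoImplicit false

namespace Crest.Agent.R310

open Crest.Agent.Lib.PT

variable {α : ℝ} {P : Pot α} {p : Par} {st : St}

theorem fn_tab (p : Par) (g : ℕ → ℚ) (i : ℕ) : fn (p.tab g) i = if i < p.D.length + 1 then g i else 0 := by
  unfold fn Par.tab
  split_ifs with h
  · simp [List.getD_eq_getElem?_getD, h]
  · simp [List.getD_eq_getElem?_getD, h]

theorem fn_tab_lt (p : Par) (g : ℕ → ℚ) {i : ℕ} (hi : i < p.D.length) : fn (p.tab g) i = g i := by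
  rw [fn_tab, if_pos (Nat.lt_succ_of_lt hi)]

theorem clk_tab (p : Par) (g : ℕ → ℚ) (S : List ℕ) : clk p (p.tab g, S) = g p.D.length := by
  show fn (p.tab g) _ = _
  rw [fn_tab, if_pos (Nat.lt_succ_self _)]

theorem clk_evt (P : Pot α) (p : Par) (st : St) (o : ℕ) : clk p (evt P p st o) = clk p st := by
  unfold evt
  rw [clk_tab, if_pos rfl]
  rfl

theorem clk_fre (P : Pot α) (p : Par) (st : St) : clk p (fre P p st) = clk p st * (1 - 1 / (p.X : ℚ) ^ 5) := by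
  unfold fre
  rw [clk_tab]
  unfold sρ
  rw [if_pos rfl, mul_one]
  rfl

theorem clk_init (p : Par) : clk p (init p) = 1 := by
  unfold init
  rw [clk_tab, if_pos rfl]

theorem totΨ_eq (h : POk P p) (st : St) : totΨ P p st =
    sm p.C fun j => P.Ψ p.Λ p.F (dd p.D j) (p.mu st.1 j) (dS (dd p.D) j st.2) (clk p st) := by
  unfold totΨ
  congr 1
  funext j
  exact P.congr _ _ _ _ _ _ _ _ (fun i hi => by rw [fn_tab_lt _ _ (h.ok.lt i hi)])
    fun i hi => by rw [fn_tab_lt _ _ (h.ok.lt i hi)]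

theorem s1_X (h : POk P p) : (1 : ℚ) ≤ p.X := by
  have h1 := h.hX
  have h2 : 0 < 32 * (p.C.length + 1) * (p.F.length + 1) * (p.Λ + 1) * (P.B + 1) := by positivity
  exact_mod_cast (show 1 ≤ p.X by omega)

theorem s1_y (h : POk P p) (hs : Inv p st) : ∀ i ∈ p.F, 0 ≤ fn st.1 i ∧ fn st.1 i ≤ 1 :=
  fun i hi => ⟨hs.y0 i hi, (hs.yle i hi).trans (h.y01 i).2⟩

theorem s1_sm_nonneg {F : List ℕ} {g : ℕ → ℚ} (h : ∀ i ∈ F, 0 ≤ g i) : 0 ≤ sm F g :=
  List.sum_nonneg fun _ hx => by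
    obtain ⟨j, hj, rfl⟩ := List.mem_map.1 hx
    exact h j hj

theorem s1_sm_le {F : List ℕ} {g g' : ℕ → ℚ} (h : ∀ i ∈ F, g i ≤ g' i) : sm F g ≤ sm F g' :=
  List.sum_le_sum h

theorem s1_rad (h : POk P p) (hs : Inv p st) {i : ℕ} (hi : i ∈ p.F) (hy : 0 < fn st.1 i) :
    0 < sR P p st i ∧ (1 + P.e) * sR P p st i ≤ dS (dd p.D) i st.2 ∧
      kil (sσ P p st) (dd p.D) p.F (fn st.1) i (sR P p st i) ≤ 1 ∧
      (kil (sσ P p st) (dd p.D) p.F (fn st.1) i (sR P p st i) < 1 → (1 + P.e) * sR P p st i = dS (dd p.D) i st.2) := by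
  have hm := nr_mem (dd p.D) i hs.ne
  have hne : i ≠ nr (dd p.D) i st.2 := fun he => by
    have := hs.op _ hm
    rw [← he] at this
    exact hy.ne' this
  have h0 : 0 < dS (dd p.D) i st.2 := h.ok.pos i hi _ (hs.sub hm) hne
  have h1 : dS (dd p.D) i st.2 ≤ p.Λ := by
    obtain ⟨m, hm1, hm2⟩ := h.int i (nr (dd p.D) i st.2)
    unfold dS
    rw [hm2]
    exact_mod_cast hm1
  obtain ⟨n, hn, hσ⟩ := P.sl_grid _ hs.c0 hs.c1
  exact rad_spec P.e0 P.N0 hn hσ h.int h.ok.pm h.ok.nodup h.ok.pos (s1_y h hs) h0 h1 hi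

theorem s1_kil (hs : Inv p st) (i : ℕ) (R : ℚ) : 0 ≤ kil (sσ P p st) (dd p.D) p.F (fn st.1) i R :=
  s1_sm_nonneg fun o ho => mul_nonneg (hs.y0 o ho) (ff_mem _ _).1

/-- multiplying the masses by numbers in `[0, 1]` -/
theorem s1_inv (h : POk P p) (hs : Inv p st) {g : ℕ → ℚ} {S : List ℕ}
    (hg : ∀ i ∈ p.F, 0 ≤ g i ∧ g i ≤ fn st.1 i) (hS : S ⊆ p.F) (hne : S ≠ []) (hn : S.Nodup)
    (hop : ∀ i ∈ S, g i = 0) (hc : 0 ≤ g p.D.length ∧ g p.D.length ≤ clk p st) : Inv p (p.tab g, S) where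
  y0 i hi := by
    show 0 ≤ fn (p.tab g) i
    rw [fn_tab_lt _ _ (h.ok.lt i hi)]
    exact (hg i hi).1
  yle i hi := by
    show fn (p.tab g) i ≤ _
    rw [fn_tab_lt _ _ (h.ok.lt i hi)]
    exact (hg i hi).2.trans (hs.yle i hi)
  sub := hS
  ne := hne
  nodup := hn
  op i hi := by
    show fn (p.tab g) i = 0
    rw [fn_tab_lt _ _ (h.ok.lt i (hS hi))]
    exact hop i hi
  c0 := by rw [clk_tab]; exact hc.1
  c1 := by rw [clk_tab]; exact hc.2.trans hs.c1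

theorem inv_init (h : POk P p) : Inv p (init p) := by
  have hsub : p.F.take 1 ⊆ p.F := List.take_subset _ _
  refine ⟨fun i hi => ?_, fun i hi => ?_, hsub, ?_, h.ok.nodup.sublist (List.take_sublist _ _), fun i hi => ?_,
    by rw [clk_init]; exact zero_le_one, (clk_init p).le⟩
  · show 0 ≤ fn (p.tab _) i
    rw [fn_tab_lt _ _ (h.ok.lt i hi), if_neg (h.ok.lt i hi).ne]
    split_ifs
    · exact le_rfl
    · exact (h.y01 i).1
  · show fn (p.tab _) i ≤ _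
    rw [fn_tab_lt _ _ (h.ok.lt i hi), if_neg (h.ok.lt i hi).ne]
    split_ifs
    · exact (h.y01 i).1
    · exact le_rfl
  · show p.F.take 1 ≠ []
    have := h.ok.ne
    cases hF : p.F with
    | nil => exact absurd hF this
    | cons a l => simp
  · have hi' : i ∈ p.F.take 1 := hi
    show fn (p.tab _) i = 0
    rw [fn_tab_lt _ _ (h.ok.lt i (hsub hi')), if_neg (h.ok.lt i (hsub hi')).ne, if_pos hi']

theorem sρ_mem (h : POk P p) (hs : Inv p st) {i : ℕ} (hi : i ∈ p.F) : 0 ≤ sρ P p st i ∧ sρ P p st i ≤ 1 := by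
  unfold sρ
  rw [if_neg (h.ok.lt i hi).ne]
  split_ifs with hy
  · have h1 := (s1_rad h hs hi hy).2.2.1
    have h2 := s1_kil (P := P) hs i (sR P p st i)
    constructor <;> linarith
  · exact ⟨le_rfl, zero_le_one⟩

theorem sK_mem (h : POk P p) (hs : Inv p st) (o : ℕ) : 0 ≤ sK P p st o ∧ sK P p st o ≤ p.F.length := by
  refine ⟨s1_sm_nonneg fun i hi => mul_nonneg (hs.y0 i hi) (ff_mem _ _).1, ?_⟩
  have h1 : sK P p st o ≤ sm p.F fun _ => 1 :=
    s1_sm_le fun i hi => mul_le_one₀ (s1_y h hs i hi).2 (ff_mem _ _).1 (ff_mem _ _).2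
  simpa [sm] using h1

/-- rounding a number in `[0, 1]` -/
theorem s1_round (h : POk P p) {y : ℚ} (y0 : 0 ≤ y) (y1 : y ≤ 1) :
    ((min ⌊y * (p.X : ℚ) ^ 8⌋₊ (p.X ^ 8) : ℕ) : ℚ) / (p.X : ℚ) ^ 8 ≤ y ∧
      y - ((min ⌊y * (p.X : ℚ) ^ 8⌋₊ (p.X ^ 8) : ℕ) : ℚ) / (p.X : ℚ) ^ 8 ≤ 1 / (p.X : ℚ) ^ 8 := by
  have hX := s1_X h
  have hX8 : (0 : ℚ) < (p.X : ℚ) ^ 8 := by positivity
  have e : min ⌊y * (p.X : ℚ) ^ 8⌋₊ (p.X ^ 8) = ⌊y * (p.X : ℚ) ^ 8⌋₊ := by
    refine min_eq_left (Nat.floor_le_of_le ?_)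
    push_cast
    exact mul_le_of_le_one_left hX8.le y1
  rw [e]
  have a1 := Nat.floor_le (show 0 ≤ y * (p.X : ℚ) ^ 8 by positivity)
  have a2 := Nat.lt_floor_add_one (y * (p.X : ℚ) ^ 8)
  refine ⟨by rwa [div_le_iff₀ hX8], ?_⟩
  rw [sub_le_iff_le_add, ← add_div, le_div_iff₀ hX8]
  linarith

theorem clk_grid (h : POk P p) (hs : Inv p st) :
    clk p (grid p st) ≤ clk p st ∧ clk p st - clk p (grid p st) ≤ 1 / (p.X : ℚ) ^ 8 := by
  unfold grid
  rw [clk_tab]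
  exact s1_round h hs.c0 hs.c1

theorem inv_grid (h : POk P p) (hs : Inv p st) : Inv p (grid p st) := by
  refine s1_inv h hs (fun i hi => ⟨by positivity, (s1_round h (s1_y h hs i hi).1 (s1_y h hs i hi).2).1⟩)
    hs.sub hs.ne hs.nodup (fun i hi => ?_) ⟨by positivity, (s1_round h hs.c0 hs.c1).1⟩
  simp [hs.op i hi]

theorem inv_evt (h : POk P p) (hs : Inv p st) {o : ℕ} (ho : o ∈ p.F) (hy : 0 < fn st.1 o) :
    Inv p (evt P p st o) := by
  have ht := tilt P.η0 P.η1 (sK_mem h hs o).1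
  refine s1_inv h hs (fun i hi => ?_) (List.cons_subset.2 ⟨ho, hs.sub⟩) (List.cons_ne_nil _ _)
    (List.nodup_cons.2 ⟨fun hm => hy.ne' (hs.op o hm), hs.nodup⟩) (fun i hi => ?_)
    (by rw [if_pos rfl]; exact ⟨hs.c0, le_rfl⟩)
  · have h0 := hs.y0 i hi
    rw [if_neg (h.ok.lt i hi).ne]
    split_ifs
    · exact ⟨le_rfl, h0⟩
    · have h1 := ff_mem (sσ P p st) (dd p.D o i / sR P p st i)
      have h2 : 0 ≤ th P.η (sK P p st o) * ff (sσ P p st) (dd p.D o i / sR P p st i) := mul_nonneg ht.1.le h1.1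
      have h3 : th P.η (sK P p st o) * ff (sσ P p st) (dd p.D o i / sR P p st i) ≤ 1 := mul_le_one₀ ht.2.1 h1.1 h1.2
      exact ⟨mul_nonneg h0 (by linarith), mul_le_of_le_one_right h0 (by linarith)⟩
  · rw [if_neg (h.ok.lt i (List.cons_subset.2 ⟨ho, hs.sub⟩ hi)).ne]
    split_ifs with hio
    · rfl
    · rw [hs.op i ((List.mem_cons.1 hi).resolve_left hio), zero_mul]

theorem inv_fre (h : POk P p) (hs : Inv p st) : Inv p (fre P p st) := by
  have hX := s1_X h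
  have hX5 : (1 : ℚ) ≤ (p.X : ℚ) ^ 5 := one_le_pow₀ hX
  have h4 : 0 ≤ 1 / (p.X : ℚ) ^ 5 := by positivity
  have h5 : 1 / (p.X : ℚ) ^ 5 ≤ 1 := (div_le_one (by linarith)).2 hX5
  refine s1_inv h hs (fun i hi => ?_) hs.sub hs.ne hs.nodup (fun i hi => ?_) ?_
  · have h0 := hs.y0 i hi
    have h1 := sρ_mem h hs hi
    have h2 : 0 ≤ 1 / (p.X : ℚ) ^ 5 * sρ P p st i := mul_nonneg h4 h1.1
    have h3 : 1 / (p.X : ℚ) ^ 5 * sρ P p st i ≤ 1 := mul_le_one₀ h5 h1.1 h1.2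
    exact ⟨mul_nonneg h0 (by linarith), mul_le_of_le_one_right h0 (by linarith)⟩
  · rw [hs.op i hi, zero_mul]
  · unfold sρ
    rw [if_pos rfl, mul_one]
    exact ⟨mul_nonneg hs.c0 (by linarith), mul_le_of_le_one_right hs.c0 (by linarith)⟩

theorem inv_next (h : POk P p) (hs : Inv p st) : Inv p (next P p st) := by
  unfold next
  split_ifs
  · exact hs
  · refine inv_grid h ?_
    cases hm : (opts P p st).argmin (tot P p) with
    | none => exact hs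
    | some m =>
      have hm' : m ∈ opts P p st := List.argmin_mem hm
      show Inv p m
      rcases List.mem_cons.1 hm' with rfl | hm'
      · exact inv_fre h hs
      · obtain ⟨o, ho, rfl⟩ := List.mem_map.1 hm'
        obtain ⟨ho1, ho2⟩ := List.mem_filter.1 ho
        exact inv_evt h hs ho1 (of_decide_eq_true ho2)

theorem mass_le (h : POk P p) (hs : Inv p st) (j : ℕ) : sm p.F (p.mu st.1 j) ≤ 1 := by
  have hy : ∀ i ∈ p.F, 0 ≤ fn p.y0 i := fun i _ => (h.y01 i).1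
  rw [← (asg_spec (Λ := p.Λ) h.int hy h.y1 j).1]
  exact s1_sm_le fun i hi => mul_le_mul_of_nonneg_left (hs.yle i hi) (asg_mem _ hy j i).1

theorem game (h : POk P p) (hs : Inv p st) (j : ℕ) :
    Game P.e P.η (sσ P p st) p.Λ p.F (dd p.D) j (fn st.1) (p.mu st.1 j) (dS (dd p.D) j st.2)
      (fun i => dS (dd p.D) i st.2) (sR P p st) (sρ P p st) (fun o => th P.η (sK P p st o))
      (fun o => ta P.η (sK P p st o)) := by
  have hy : ∀ i ∈ p.F, 0 ≤ fn p.y0 i := fun i _ => (h.y01 i).1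
  have ht := fun o => tilt P.η0 P.η1 (sK_mem h hs o).1
  refine ⟨h.ok.nodup, h.ok.pm, h.int, h.int _ _, fun i hi => mul_nonneg (asg_mem _ hy j i).1 (hs.y0 i hi),
    fun i hi => mul_le_of_le_one_left (hs.y0 i hi) (asg_mem _ hy j i).2, mass_le h hs j,
    fun i _ => dS_tri h.ok.pm hs.ne i j, fun i _ => ?_, fun i hi hp => (s1_rad h hs hi hp).1,
    fun i hi hp => (s1_rad h hs hi hp).2.1, fun i hi => (sρ_mem h hs hi).1, fun i hi => (sρ_mem h hs hi).2,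
    fun i hi hp hρ => (s1_rad h hs hi hp).2.2.2 ?_, fun i hi hp => ?_, fun o _ => (ht o).1,
    fun o _ => (ht o).2.1, fun o _ => (ht o).2.2.1, fun o _ => (ht o).2.2.2.1⟩
  · rw [h.ok.pm.symm j i]
    exact dS_tri h.ok.pm hs.ne j i
  · unfold sρ at hρ
    rw [if_neg (h.ok.lt i hi).ne, if_pos hp] at hρ
    linarith
  · unfold sρ
    rw [if_neg (h.ok.lt i hi).ne, if_pos hp]
    unfold kil
    ring

end Crest.Agent.R310
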