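import Crest.Agent.R310.Step1

/-!
# R310 / Step2 : the drift of the two parts of the potential

`drift_Ψ`: `totΨ_eq`, `P.gen` for the `game` of every client `j` with `s = X⁻⁵ ≤ X⁻¹ ≤ s0`, summed over `j` (swap the sums; `lam ≥ 0` by `tilt`).
`dS j (o :: S) = min (dS j S) (d j o)` (`le_antisymm`, `dS_le`, `le_dS`, `nr_mem`); setting the mass of `o` to `0` does not increase `Ψ`
(`P.drop`, as `min .. ≤ d j o`); `P.congr` with `fn_tab`, `Ok.lt`.

`drift_W`: `κ = η²/64`, `z = |S| + ∑ y - k`, `x o = 1 - θ_o K_o ≤ 1`.  After `evt o` the argument is `≤ z + x o` (`Wc_mono`), after `fre` it is `z + x`,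
`x = -s ∑ ρ y`, `|x| ≤ s |F|`.  `Wc_step`, `tilt`: `lam o * (x o + 2κ (x o)²) ≤ y o (1 - K o)`.  Balance:
`∑_o y o K o + ∑_i ρ i y i = ∑_i y i (kil i + ρ i) = ∑ y` (terms with `y i = 0` vanish).  What remains is `Wd * 2 κ x² ≤ 2 κ² s² |F|² ≤ s² |F|²`.
-/

set_option autoImplicit false

namespace Crest.Agent.R310

open Crest.Agent.Lib.PT

variable {α : ℝ} {P : Pot α} {p : Par} {st : St}

namespace S2

theorem sm_le {F : List ℕ} {f g : ℕ → ℚ} (h : ∀ i ∈ F, f i ≤ g i) : sm F f ≤ sm F g :=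
  List.sum_le_sum h

theorem sm_congr {F : List ℕ} {f g : ℕ → ℚ} (h : ∀ i ∈ F, f i = g i) : sm F f = sm F g :=
  le_antisymm (sm_le fun i hi => (h i hi).le) (sm_le fun i hi => (h i hi).ge)

theorem sm_cons (a : ℕ) (F : List ℕ) (f : ℕ → ℚ) : sm (a :: F) f = f a + sm F f := by
  simp [sm]

theorem sm_add (F : List ℕ) (f g : ℕ → ℚ) : sm F (fun i => f i + g i) = sm F f + sm F g := by
  induction F with
  | nil => simp [sm]
  | cons a F ih => simp only [sm_cons, ih]; ring

theorem sm_sub (F : List ℕ) (f g : ℕ → ℚ) : sm F (fun i => f i - g i) = sm F f - sm F g := by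
  induction F with
  | nil => simp [sm]
  | cons a F ih => simp only [sm_cons, ih]; ring

theorem sm_mul (F : List ℕ) (c : ℚ) (f : ℕ → ℚ) : sm F (fun i => c * f i) = c * sm F f := by
  induction F with
  | nil => simp [sm]
  | cons a F ih => simp only [sm_cons, ih]; ring

theorem sm_const (F : List ℕ) (c : ℚ) : sm F (fun _ => c) = F.length * c := by
  induction F with
  | nil => simp [sm]
  | cons a F ih => simp only [sm_cons, ih, List.length_cons]; push_cast; ring

theorem sm_comm (A B : List ℕ) (g : ℕ → ℕ → ℚ) :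
    sm A (fun a => sm B (fun b => g a b)) = sm B (fun b => sm A (fun a => g a b)) := by
  induction A with
  | nil => simp [sm]
  | cons a A ih => simp only [sm_cons, ih, sm_add]

theorem dS_cons {d : ℕ → ℕ → ℚ} {S : List ℕ} (hS : S ≠ []) (j o : ℕ) :
    dS d j (o :: S) = min (dS d j S) (d j o) := by
  apply le_antisymm
  · exact le_min (dS_anti hS (List.subset_cons_self _ _)) (dS_le d j List.mem_cons_self)
  · refine le_dS (List.cons_ne_nil _ _) fun i hi => ?_
    rcases List.mem_cons.1 hi with rfl | hi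
    · exact min_le_right _ _
    · exact (min_le_left _ _).trans (dS_le d j hi)

theorem X_ge (h : POk P p) : (1 : ℚ) ≤ p.X := by
  have h1 : 1 ≤ 32 * (p.C.length + 1) * (p.F.length + 1) * (p.Λ + 1) * (P.B + 1) :=
    Nat.one_le_iff_ne_zero.2 (by positivity)
  exact_mod_cast h1.trans h.hX

theorem s_pos (h : POk P p) : (0 : ℚ) < 1 / (p.X : ℚ) ^ 5 := by
  have := X_ge h
  positivity

theorem s_le (h : POk P p) : 1 / (p.X : ℚ) ^ 5 ≤ P.s0 := by
  have h1 := X_ge h
  refine le_trans ?_ h.hs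
  exact one_div_le_one_div_of_le (by linarith) (le_self_pow₀ h1 (by norm_num))

theorem fac_mem (h : POk P p) (hs : Inv p st) (o i : ℕ) :
    0 ≤ 1 - th P.η (sK P p st o) * ff (sσ P p st) (dd p.D o i / sR P p st i) ∧
      1 - th P.η (sK P p st o) * ff (sσ P p st) (dd p.D o i / sR P p st i) ≤ 1 := by
  obtain ⟨h0, h1, -⟩ := tilt P.η0 P.η1 (sK_mem h hs o).1
  obtain ⟨f0, f1⟩ := ff_mem (sσ P p st) (dd p.D o i / sR P p st i)
  constructor <;> nlinarith

end S2

open S2

theorem lam_mem (h : POk P p) (hs : Inv p st) {o : ℕ} (ho : o ∈ p.F) :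
    fn st.1 o / 2 ≤ lam P p st o ∧ lam P p st o ≤ 2 * (1 + p.F.length) * fn st.1 o := by
  obtain ⟨h0, -, -, -, h1, h2, -⟩ := tilt P.η0 P.η1 (sK_mem h hs o).1
  have hK := (sK_mem h hs o).2
  have hy := hs.y0 o ho
  have e : lam P p st o = ta P.η (sK P p st o) / th P.η (sK P p st o) * fn st.1 o := by
    unfold lam; ring
  rw [e]
  constructor
  · nlinarith
  · exact mul_le_mul_of_nonneg_right (by linarith) hy

theorem drift_Ψ (h : POk P p) (hs : Inv p st) :
    1 / (p.X : ℚ) ^ 5 * sm p.F (fun o => lam P p st o * (totΨ P p (evt P p st o) - totΨ P p st)) +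
      (totΨ P p (fre P p st) - totΨ P p st) ≤ 0 := by
  have hlam : ∀ o ∈ p.F, 0 ≤ lam P p st o := fun o ho =>
    le_trans (by have := hs.y0 o ho; positivity) (lam_mem h hs ho).1
  have hs0 := s_pos h
  -- the event part
  have hE : ∀ o ∈ p.F, totΨ P p (evt P p st o) ≤ sm p.C fun j => P.Ψ p.Λ p.F (dd p.D j)
      (fun i => p.mu st.1 j i * (1 - th P.η (sK P p st o) * ff (sσ P p st) (dd p.D o i / sR P p st i)))
      (min (dS (dd p.D) j st.2) (dd p.D j o)) (clk p st) := by
    intro o ho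
    rw [totΨ_eq h, clk_evt]
    refine sm_le fun j _ => ?_
    have g := game h hs j
    have e2 : (evt P p st o).2 = o :: st.2 := rfl
    rw [e2, dS_cons hs.ne]
    have hmu : ∀ i ∈ p.F, p.mu (evt P p st o).1 j i = if i = o then 0 else
        p.mu st.1 j i * (1 - th P.η (sK P p st o) * ff (sσ P p st) (dd p.D o i / sR P p st i)) := by
      intro i hi
      unfold Par.mu evt
      simp only
      rw [fn_tab_lt _ _ (h.ok.lt i hi), if_neg (h.ok.lt i hi).ne]
      split_ifs <;> ring
    have hnn : ∀ i ∈ p.F,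
        0 ≤ p.mu st.1 j i * (1 - th P.η (sK P p st o) * ff (sσ P p st) (dd p.D o i / sR P p st i)) :=
      fun i hi => mul_nonneg (g.μ0 i hi) (fac_mem h hs o i).1
    refine P.drop _ _ _ _ _ _ _ h.ok.nodup (fun i _ => g.int j i) ?_ ?_ ?_ ?_ ?_ hs.c0 hs.c1
    · rcases min_choice (dS (dd p.D) j st.2) (dd p.D j o) with e | e <;> rw [e]
      · exact g.intD
      · exact g.int j o
    · intro i hi
      rw [hmu i hi]
      split_ifs
      · exact le_rfl
      · exact hnn i hi
    · intro i hi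
      rw [hmu i hi]
      split_ifs
      · exact hnn i hi
      · exact le_rfl
    · refine le_trans (sm_le fun i hi => ?_) g.mass
      exact mul_le_of_le_one_right (g.μ0 i hi) (fac_mem h hs o i).2
    · intro i hi hlt
      rw [hmu i hi, if_neg]
      rintro rfl
      exact absurd hlt (not_lt.2 (min_le_right _ _))
  have hF : totΨ P p (fre P p st) = sm p.C fun j => P.Ψ p.Λ p.F (dd p.D j)
      (fun i => p.mu st.1 j i * (1 - 1 / (p.X : ℚ) ^ 5 * sρ P p st i)) (dS (dd p.D) j st.2)
      (clk p st * (1 - 1 / (p.X : ℚ) ^ 5)) := by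
    rw [totΨ_eq h, clk_fre]
    refine sm_congr fun j _ => ?_
    refine P.congr _ _ _ _ _ _ _ _ (fun _ _ => rfl) fun i hi => ?_
    unfold Par.mu fre
    simp only
    rw [fn_tab_lt _ _ (h.ok.lt i hi)]
    ring
  have hG := sm_le (F := p.C) (g := fun _ => 0) fun j _ =>
    P.gen _ _ _ _ _ _ _ _ _ _ _ _ _ _ (game h hs j) hs.c0 hs.c1 hs0 (s_le h)
  rw [sm_const, mul_zero, sm_add, sm_mul, sm_comm, sm_sub, ← hF, ← totΨ_eq h] at hG
  refine le_trans ?_ hG
  gcongr ?_ + _
  refine mul_le_mul_of_nonneg_left (sm_le fun o ho => ?_) hs0.le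
  rw [sm_mul, sm_sub, ← totΨ_eq h]
  exact mul_le_mul_of_nonneg_left (sub_le_sub_right (hE o ho) _) (hlam o ho)

theorem drift_W (h : POk P p) (hs : Inv p st) :
    1 / (p.X : ℚ) ^ 5 * sm p.F (fun o => lam P p st o * (totW P p (evt P p st o) - totW P p st)) +
      (totW P p (fre P p st) - totW P p st) ≤ (1 / (p.X : ℚ) ^ 5) ^ 2 * (p.F.length : ℚ) ^ 2 := by
  have hlam : ∀ o ∈ p.F, 0 ≤ lam P p st o := fun o ho =>
    le_trans (by have := hs.y0 o ho; positivity) (lam_mem h hs ho).1
  have hs0 := s_pos h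
  set s : ℚ := 1 / (p.X : ℚ) ^ 5 with hsdef
  have hη0 := P.η0
  have hη1 := P.η1
  set κ : ℚ := P.η ^ 2 / 64 with hκ
  have hκ0 : 0 < κ := by positivity
  have hκ1 : κ ≤ 1 / 2 := by rw [hκ]; nlinarith
  set z : ℚ := (st.2.length : ℚ) + sm p.F (fn st.1) - p.k with hz
  obtain ⟨w0, w1⟩ := Wd_mem hκ0 z
  have hW : totW P p st = Wc κ z := rfl
  have hE : ∀ o ∈ p.F, lam P p st o * (totW P p (evt P p st o) - totW P p st) ≤
      Wd κ z * (fn st.1 o - fn st.1 o * sK P p st o) := by
    intro o ho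
    obtain ⟨t0, -, -, -, -, -, t1⟩ := tilt P.η0 P.η1 (sK_mem h hs o).1
    have hK := (sK_mem h hs o).1
    have hy := hs.y0 o ho
    have hle : totW P p (evt P p st o) ≤ Wc κ (z + (1 - th P.η (sK P p st o) * sK P p st o)) := by
      refine Wc_mono hκ0 ?_
      have e2 : ((evt P p st o).2.length : ℚ) = st.2.length + 1 := by
        show (((o :: st.2).length : ℕ) : ℚ) = _
        simp
      have e1 : sm p.F (fn (evt P p st o).1) ≤
          sm p.F (fn st.1) - th P.η (sK P p st o) * sK P p st o := by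
        have : sm p.F (fn st.1) - th P.η (sK P p st o) * sK P p st o = sm p.F fun i =>
            fn st.1 i * (1 - th P.η (sK P p st o) * ff (sσ P p st) (dd p.D o i / sR P p st i)) := by
          conv_lhs => rw [sK, ← sm_mul, ← sm_sub]
          refine sm_congr fun i _ => ?_
          rw [← sK]; ring
        rw [this]
        refine sm_le fun i hi => ?_
        unfold evt
        simp only
        rw [fn_tab_lt _ _ (h.ok.lt i hi), if_neg (h.ok.lt i hi).ne]
        split_ifs
        · exact mul_nonneg (hs.y0 i hi) (fac_mem h hs o i).1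
        · exact le_rfl
      rw [e2, hz]
      linarith
    have hx : 1 - th P.η (sK P p st o) * sK P p st o ≤ 1 := by nlinarith
    have h1 := Wc_step hκ0 hκ1 z hx
    have e : lam P p st o = ta P.η (sK P p st o) / th P.η (sK P p st o) * fn st.1 o := by
      unfold lam; ring
    calc lam P p st o * (totW P p (evt P p st o) - totW P p st)
        ≤ lam P p st o * (Wd κ z * ((1 - th P.η (sK P p st o) * sK P p st o) +
            2 * κ * (1 - th P.η (sK P p st o) * sK P p st o) ^ 2)) := by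
          refine mul_le_mul_of_nonneg_left ?_ (hlam o ho)
          rw [hW]; linarith
      _ = Wd κ z * fn st.1 o * (ta P.η (sK P p st o) / th P.η (sK P p st o) *
            ((1 - th P.η (sK P p st o) * sK P p st o) +
            2 * κ * (1 - th P.η (sK P p st o) * sK P p st o) ^ 2)) := by rw [e]; ring
      _ ≤ Wd κ z * fn st.1 o * (1 - sK P p st o) :=
          mul_le_mul_of_nonneg_left t1 (mul_nonneg w0.le hy)
      _ = _ := by ring
  set a : ℚ := sm p.F fun i => fn st.1 i * sρ P p st i with ha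
  have ha0 : 0 ≤ a := by
    have := sm_le (F := p.F) (f := fun _ => 0) fun i hi =>
      mul_nonneg (hs.y0 i hi) (sρ_mem h hs hi).1
    rwa [sm_const, mul_zero] at this
  have ha1 : a ≤ p.F.length := by
    have := sm_le (F := p.F) (g := fun _ => 1) fun i hi =>
      mul_le_one₀ ((hs.yle i hi).trans (h.y01 i).2) (sρ_mem h hs hi).1 (sρ_mem h hs hi).2
    rwa [sm_const, mul_one] at this
  have hF : totW P p (fre P p st) = Wc κ (z + -(s * a)) := by
    have e1 : sm p.F (fn (fre P p st).1) = sm p.F (fn st.1) - s * a := by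
      rw [ha, ← sm_mul, ← sm_sub]
      refine sm_congr fun i hi => ?_
      unfold fre
      simp only
      rw [fn_tab_lt _ _ (h.ok.lt i hi)]
      ring
    have e2 : (fre P p st).2 = st.2 := rfl
    unfold totW
    rw [e1, e2]
    congr 1
    rw [hz]; ring
  have hx : -(s * a) ≤ 1 := by nlinarith
  have h1 := Wc_step hκ0 hκ1 z hx
  have hbal : sm p.F (fun o => fn st.1 o * sK P p st o) + a = sm p.F (fn st.1) := by
    have e1 : sm p.F (fun o => fn st.1 o * sK P p st o) =
        sm p.F fun i => fn st.1 i * kil (sσ P p st) (dd p.D) p.F (fn st.1) i (sR P p st i) := by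
      unfold sK kil
      simp only [← sm_mul]
      rw [sm_comm]
      refine sm_congr fun i _ => sm_congr fun o _ => ?_
      ring
    rw [e1, ha, ← sm_add]
    refine sm_congr fun i hi => ?_
    unfold sρ
    rw [if_neg (h.ok.lt i hi).ne]
    split_ifs with hy
    · ring
    · have : fn st.1 i = 0 := le_antisymm (not_lt.1 hy) (hs.y0 i hi)
      rw [this]; ring
  have hsum := sm_le hE
  rw [sm_mul, sm_sub] at hsum
  have h2 := mul_le_mul_of_nonneg_left hsum hs0.le
  have h3 : Wd κ z * (2 * κ * (s * a) ^ 2) ≤ s ^ 2 * (p.F.length : ℚ) ^ 2 := by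
    have h4 : Wd κ z * (2 * κ) ≤ 1 := by nlinarith
    have h5 : (s * a) ^ 2 ≤ s ^ 2 * (p.F.length : ℚ) ^ 2 := by
      rw [mul_pow]
      exact mul_le_mul_of_nonneg_left (pow_le_pow_left₀ ha0 ha1 2) (by positivity)
    calc Wd κ z * (2 * κ * (s * a) ^ 2) = Wd κ z * (2 * κ) * (s * a) ^ 2 := by ring
      _ ≤ 1 * (s * a) ^ 2 := mul_le_mul_of_nonneg_right h4 (by positivity)
      _ ≤ _ := by rw [one_mul]; exact h5
  rw [hF, hW] at *
  have e3 : sm p.F (fn st.1) - sm p.F (fun o => fn st.1 o * sK P p st o) = a := by linarith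
  have e4 : (sm p.F fun i => fn st.1 i) = sm p.F (fn st.1) := rfl
  rw [e4, e3] at h2
  nlinarith

end Crest.Agent.R310
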