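import Crest.Agent.R310.Step2

/-!
# R310 / Step3 : every step decreases the potential

`s = X⁻⁵`, `γ = ζ = X⁻¹`, `n = |F|`.  With `Δ` the change of `tot`: `s ∑ lam o Δ(evt o) + Δ(fre) ≤ δ s² n² - ζ s ∑ lam ≤ δ s² n² - ζ s γ / 2 ≤ - s ζ γ / 4`
(`drift_Ψ`, `drift_W`, `lam_mem`; `δ, n ≤ X / 32`).  Events with `y o = 0` have `lam o = 0`.  If every move had `Δ > - s ζ γ / 8` then, as
`s ∑ lam ≤ 2 s n (n + 1) ≤ 1`, the left side would be `> - s ζ γ / 4`.  So the `argmin` has `Δ ≤ - X⁻⁷ / 8`.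
`tot_grid`: `P.lip` (each mass loses at most `X⁻⁸`, `asg ≤ 1`; masses are `≤ 1`, so the `min` is not active), `Wc_mono`, `|C| B (Λ + 1) n ≤ X / 32`.
-/

set_option autoImplicit false

namespace Crest.Agent.R310

open Crest.Agent.Lib.PT

variable {α : ℝ} {P : Pot α} {p : Par} {st : St}

theorem s3_X (h : POk P p) : (32 : ℚ) ≤ p.X ∧ (32 : ℚ) * (p.F.length + 1) ≤ p.X ∧
    (32 : ℚ) * (p.C.length * (P.B * (p.Λ + 1)) * (p.F.length + 1)) ≤ p.X ∧
    (32 : ℚ) * (p.C.length * p.Λ + 1) ≤ p.X := by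
  have h1 := h.hX
  have e : ∀ a b c d : ℕ, a ≤ p.C.length + 1 → b ≤ p.F.length + 1 → c ≤ p.Λ + 1 → d ≤ P.B + 1 →
      32 * a * b * c * d ≤ p.X := fun a b c d ha hb hc hd => le_trans (by gcongr) h1
  have a1 := e 1 1 1 1 (by omega) (by omega) (by omega) (by omega)
  have a2 := e 1 (p.F.length + 1) 1 1 (by omega) (by omega) (by omega) (by omega)
  have a4 := e p.C.length (p.F.length + 1) (p.Λ + 1) P.B (by omega) (by omega) (by omega) (by omega)
  have a5 := e (p.C.length + 1) 1 (p.Λ + 1) 1 (by omega) (by omega) (by omega) (by omega)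
  have b1 : 32 ≤ p.X := by omega
  have b2 : 32 * (p.F.length + 1) ≤ p.X := by omega
  have b4 : 32 * (p.C.length * (P.B * (p.Λ + 1)) * (p.F.length + 1)) ≤ p.X := le_of_eq_of_le (by ring) a4
  have b5 : 32 * (p.C.length * p.Λ + 1) ≤ p.X :=
    le_trans (by nlinarith [Nat.zero_le p.C.length, Nat.zero_le p.Λ]) a5
  exact ⟨by exact_mod_cast b1, by exact_mod_cast b2, by exact_mod_cast b4, by exact_mod_cast b5⟩

theorem s3_const (F : List ℕ) (a : ℚ) : sm F (fun _ => a) = F.length * a := by simp [sm]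

theorem exists_opt (h : POk P p) (hs : Inv p st) (hy : 1 / (p.X : ℚ) ≤ sm p.F (fn st.1)) :
    ∃ st' ∈ opts P p st, tot P p st' ≤ tot P p st - 1 / (8 * (p.X : ℚ) ^ 7) := by
  obtain ⟨x1, x2, -, x5⟩ := s3_X h
  have hX : (0 : ℚ) < p.X := by linarith
  have hn : (0 : ℚ) ≤ p.F.length := Nat.cast_nonneg _
  have hδ0 := h.δ0
  have hδ : 32 * p.δ ≤ p.X := by have := h.δ1; linarith
  have dΨ := drift_Ψ h hs
  have dW := mul_le_mul_of_nonneg_left (drift_W h hs) hδ0.le
  by_contra hcon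
  push Not at hcon
  obtain ⟨s, hsd⟩ : ∃ s : ℚ, s = 1 / (p.X : ℚ) ^ 5 := ⟨_, rfl⟩
  obtain ⟨m, hm⟩ : ∃ m : ℚ, m = 1 / (8 * (p.X : ℚ) ^ 7) := ⟨_, rfl⟩
  obtain ⟨L, hL⟩ : ∃ L : ℚ, L = sm p.F (lam P p st) := ⟨_, rfl⟩
  rw [← hsd] at dΨ dW
  rw [← hm] at hcon
  have hs0 : 0 < s := by rw [hsd]; positivity
  have hm0 : 0 < m := by rw [hm]; positivity
  have hf := hcon (fre P p st) (by simp [opts])
  have hf' : -m < (totΨ P p (fre P p st) - totΨ P p st) + p.δ * (totW P p (fre P p st) - totW P p st) := by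
    have e : (fre P p st).2 = st.2 := rfl
    unfold tot at hf
    rw [e] at hf
    linarith
  have he : ∀ o ∈ p.F, (1 / p.X - m) * lam P p st o ≤
      lam P p st o * (totΨ P p (evt P p st o) - totΨ P p st) +
        p.δ * (lam P p st o * (totW P p (evt P p st o) - totW P p st)) := by
    intro o ho
    have hl := lam_mem h hs ho
    rcases (hs.y0 o ho).eq_or_lt with h0 | h0
    · have : lam P p st o = 0 := by unfold lam; rw [← h0]; simp
      rw [this]
      simp
    · have h1 := hcon (evt P p st o) (by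
        unfold opts
        exact List.mem_cons_of_mem _ (List.mem_map.2 ⟨o, List.mem_filter.2 ⟨ho, by simpa using h0⟩, rfl⟩))
      have e : ((evt P p st o).2.length : ℚ) = st.2.length + 1 := by
        show (((o :: st.2).length : ℕ) : ℚ) = _
        simp
      unfold tot at h1
      rw [e] at h1
      have e2 : ((p.F.length : ℚ) - (st.2.length + 1)) / p.X =
          ((p.F.length : ℚ) - st.2.length) / p.X - 1 / p.X := by ring
      rw [e2] at h1
      have h2 : 1 / p.X - m ≤ (totΨ P p (evt P p st o) - totΨ P p st) +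
          p.δ * (totW P p (evt P p st o) - totW P p st) := by linarith
      have h3 := mul_le_mul_of_nonneg_left h2 (show 0 ≤ lam P p st o by linarith)
      linarith
  have hsum := s1_sm_le he
  rw [asg_mul, asg_add, asg_mul] at hsum
  have hL' : sm p.F (fun i => lam P p st i) = L := hL.symm
  rw [hL'] at hsum
  have hL1 : 1 / (2 * p.X) ≤ L := by
    have a1 : sm p.F (fun o => 1 / 2 * fn st.1 o) ≤ sm p.F (lam P p st) :=
      s1_sm_le fun o ho => by have := (lam_mem h hs ho).1; linarith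
    rw [asg_mul, ← hL] at a1
    have a2 : sm p.F (fun i => fn st.1 i) = sm p.F (fn st.1) := rfl
    rw [a2] at a1
    have a3 : 1 / (2 * (p.X : ℚ)) = 1 / 2 * (1 / p.X) := by field_simp
    rw [a3]
    linarith
  have hL2 : L ≤ p.F.length * (2 * (1 + p.F.length)) := by
    rw [hL, ← s3_const]
    refine s1_sm_le fun o ho => (lam_mem h hs ho).2.trans ?_
    exact mul_le_of_le_one_right (by positivity) (s1_y h hs o ho).2
  have hsL : s * L ≤ 1 := by
    rw [hsd, one_div_mul_eq_div, div_le_one (by positivity)]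
    have a1 : L ≤ (p.X : ℚ) ^ 2 := by nlinarith
    exact a1.trans (pow_le_pow_right₀ (by linarith) (by norm_num))
  have b1 : 4 * m ≤ s * (1 / p.X * L) := by
    have a1 : s * (1 / p.X * (1 / (2 * p.X))) = 4 * m := by
      rw [hsd, hm]
      field_simp
      norm_num
    rw [← a1]
    gcongr
  have b2 : p.δ * (s ^ 2 * (p.F.length : ℚ) ^ 2) ≤ m := by
    have a1 : p.δ * (s ^ 2 * (p.F.length : ℚ) ^ 2) ≤ p.X / 32 * (s ^ 2 * ((p.X : ℚ) / 32) ^ 2) := by
      gcongr
      · linarith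
      · linarith
    refine a1.trans ?_
    have a2 : (p.X : ℚ) / 32 * (s ^ 2 * ((p.X : ℚ) / 32) ^ 2) = m / 4096 := by
      rw [hsd, hm]
      field_simp
      norm_num
    rw [a2]
    linarith
  have b3 := mul_le_mul_of_nonneg_left hsum hs0.le
  have b4 : m * (s * L) ≤ m * 1 := mul_le_mul_of_nonneg_left hsL hm0.le
  nlinarith

theorem tot_grid (h : POk P p) (hs : Inv p st) : tot P p (grid p st) ≤ tot P p st + 1 / (16 * (p.X : ℚ) ^ 7) := by
  obtain ⟨x1, -, x4, -⟩ := s3_X h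
  have hX : (0 : ℚ) < p.X := by linarith
  have hX8 : (0 : ℚ) < (p.X : ℚ) ^ 8 := by positivity
  have hg := inv_grid h hs
  have hy0 : ∀ i ∈ p.F, 0 ≤ fn p.y0 i := fun i _ => (h.y01 i).1
  have hb : ∀ i ∈ p.F, fn (grid p st).1 i ≤ fn st.1 i ∧ fn st.1 i - fn (grid p st).1 i ≤ 1 / (p.X : ℚ) ^ 8 := by
    intro i hi
    obtain ⟨y0, y1⟩ := s1_y h hs i hi
    unfold grid
    simp only
    rw [fn_tab_lt _ _ (h.ok.lt i hi)]
    exact s1_round h y0 y1
  have hc := clk_grid h hs
  have h1 : totΨ P p (grid p st) ≤ totΨ P p st +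
      p.C.length * (P.B * (p.Λ + 1) * ((p.F.length + 1) * (1 / (p.X : ℚ) ^ 8))) := by
    rw [totΨ_eq h, totΨ_eq h, ← s3_const p.C, ← asg_add]
    refine s1_sm_le fun j _ => ?_
    have hD : IsN p.Λ (dS (dd p.D) j st.2) := h.int _ _
    have a1 := P.lip p.Λ p.F (dd p.D j) (p.mu st.1 j) (p.mu (grid p st).1 j) _ _ _ h.ok.nodup
      (fun i _ => h.int j i) hD (fun i hi => mul_nonneg (asg_mem _ hy0 j i).1 (hg.y0 i hi))
      (fun i hi => mul_le_mul_of_nonneg_left (hb i hi).1 (asg_mem _ hy0 j i).1) (mass_le h hs j)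
      hg.c0 hc.1 hs.c1
    have a2 : sm p.F (fun i => p.mu st.1 j i - p.mu (grid p st).1 j i) ≤ p.F.length * (1 / (p.X : ℚ) ^ 8) := by
      rw [← s3_const]
      refine s1_sm_le fun i hi => ?_
      unfold Par.mu
      rw [← mul_sub]
      exact (mul_le_of_le_one_left (sub_nonneg.2 (hb i hi).1) (asg_mem _ hy0 j i).2).trans (hb i hi).2
    have a3 := mul_le_mul_of_nonneg_left (add_le_add a2 hc.2) (show (0 : ℚ) ≤ P.B * (p.Λ + 1) by positivity)
    exact a1.trans (by linarith)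
  have hκ : 0 < P.η ^ 2 / 64 := by have := P.η0; positivity
  have h2 : totW P p (grid p st) ≤ totW P p st := by
    have a1 : sm p.F (fn (grid p st).1) ≤ sm p.F (fn st.1) := s1_sm_le fun i hi => (hb i hi).1
    exact Wc_mono hκ (show ((st.2.length : ℚ) + sm p.F (fn (grid p st).1) - p.k) ≤ _ by linarith)
  have h3 := mul_le_mul_of_nonneg_left h2 h.δ0.le
  have h4 : p.C.length * (P.B * (p.Λ + 1) * ((p.F.length + 1) * (1 / (p.X : ℚ) ^ 8))) ≤ 1 / (16 * (p.X : ℚ) ^ 7) := by
    have a1 : p.C.length * (P.B * (p.Λ + 1) * ((p.F.length + 1) * (1 / (p.X : ℚ) ^ 8))) =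
        p.C.length * (P.B * (p.Λ + 1)) * (p.F.length + 1) * (1 / (p.X : ℚ) ^ 8) := by ring
    have a2 : 1 / (16 * (p.X : ℚ) ^ 7) = p.X / 16 * (1 / (p.X : ℚ) ^ 8) := by field_simp
    rw [a1, a2]
    exact mul_le_mul_of_nonneg_right (by linarith) (by positivity)
  have e : (grid p st).2 = st.2 := rfl
  unfold tot
  rw [e]
  linarith

theorem tot_next (h : POk P p) (hs : Inv p st) (hy : 1 / (p.X : ℚ) ≤ sm p.F (fn st.1)) :
    tot P p (next P p st) ≤ tot P p st - 1 / (16 * (p.X : ℚ) ^ 7) := by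
  obtain ⟨st', hm, hle⟩ := exists_opt h hs hy
  unfold next
  rw [if_neg (not_lt.2 hy)]
  cases ha : (opts P p st).argmin (tot P p) with
  | none => exact absurd (List.argmin_eq_none.1 ha) (List.ne_nil_of_mem hm)
  | some a =>
    have h1 := List.le_of_mem_argmin hm ha
    have h2 : Inv p a := by
      have h3 := List.argmin_mem ha
      unfold opts at h3
      rcases List.mem_cons.1 h3 with rfl | h3
      · exact inv_fre h hs
      · obtain ⟨o, ho, rfl⟩ := List.mem_map.1 h3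
        obtain ⟨h4, h5⟩ := List.mem_filter.1 ho
        exact inv_evt h hs h4 (by simpa using h5)
    have h3 := tot_grid h h2
    have hX : (0 : ℚ) < p.X := by linarith [(s3_X h).1]
    have h4 : 1 / (8 * (p.X : ℚ) ^ 7) = 2 * (1 / (16 * (p.X : ℚ) ^ 7)) := by
      field_simp
      norm_num
    show tot P p (grid p a) ≤ _
    linarith

end Crest.Agent.R310
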